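import Claimed.Agent.R285.F3.Bridge46

set_option autoImplicit false

/-!
# ROW 285, layer F3: the two abstract steps of the ATTACHMENT inequality [F] (3.4)-(3.12)   (owner helper12)     NO sorry.  Pure real analysis.
-/


namespace Claimed.Agent.R285.F23

/-- comparison of the two averages of the SAME normalised kernel `t = a/(d c) = a'/(d c') ∈ [0,1]` under two probability laws `c/C ≤ K c'/C'`. -/
theorem attach_abs {𝒰 : Type} (a c a' c' : 𝒰 → ℝ) (A C A' C' d K : ℝ)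
    (ha : HasSum a A) (hc : HasSum c C) (ha' : HasSum a' A') (hc' : HasSum c' C')
    (pc : ∀ u, 0 < c u) (pC : 0 < C) (pC' : 0 < C') (pd : 0 < d)
    (up : ∀ u, a u ≤ d * c u) (mk : ∀ u, a u * c' u = a' u * c u) (dens : ∀ u, c u / C ≤ K * (c' u / C')) :
    A / (C * d) ≤ 1 ∧ 1 - A / (C * d) ≤ K * (1 - A' / (C' * d)) := by
  have h1 : A ≤ d * C := hasSum_le up ha (hc.mul_left d)
  refine ⟨by rw [div_le_one (mul_pos pC pd)]; linarith, ?_⟩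
  have s1 : HasSum (fun u => (d * c u - a u) / (C * d)) ((d * C - A) / (C * d)) := ((hc.mul_left d).sub ha).div_const _
  have s2 : HasSum (fun u => K * ((d * c' u - a' u) / (C' * d))) (K * ((d * C' - A') / (C' * d))) :=
    (((hc'.mul_left d).sub ha').div_const _).mul_left K
  have h2 := hasSum_le (fun u => ?_) s1 s2
  · have e1 : 1 - A / (C * d) = (d * C - A) / (C * d) := by
      field_simp
    have e2 : 1 - A' / (C' * d) = (d * C' - A') / (C' * d) := by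
      field_simp
    rw [e1, e2]
    exact h2
  · have hcu := pc u
    set t : ℝ := a u / c u with ht
    have e1 : a u = t * c u := by rw [ht]; field_simp
    have e2 : a' u = t * c' u := by
      rw [ht]
      field_simp
      linarith [mk u]
    have htd : t ≤ d := by
      rw [ht, div_le_iff₀ hcu]
      exact up u
    have e3 : (d * c u - a u) / (C * d) = c u / C * ((d - t) / d) := by
      rw [e1]
      field_simp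
    have e4 : K * ((d * c' u - a' u) / (C' * d)) = K * (c' u / C') * ((d - t) / d) := by
      rw [e2]
      field_simp
    rw [e3, e4]
    exact mul_le_mul_of_nonneg_right (dens u) (div_nonneg (by linarith) pd.le)

/-- the last algebra -/
theorem attach_final {K E qq ρ eτ e0 fτ f0 : ℝ} (hK : 0 ≤ K) (hq : 0 < qq) (peτ : 0 < eτ) (pe0 : 0 < e0) (leτ : eτ ≤ 1) (le0 : e0 ≤ 1)
    (h1 : 1 - eτ ≤ K * (1 - fτ)) (h0 : 1 - e0 ≤ K * (1 - f0)) (hf : fτ = f0 * qq) (hE : E ≤ f0) (hρ : ρ = eτ / e0) :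
    1 - K * (1 - E * qq) ≤ ρ ∧ ρ * (1 - K * (1 - E)) ≤ 1 := by
  have hρ0 : 0 < ρ := by rw [hρ]; positivity
  have hρe : ρ * e0 = eτ := by rw [hρ]; field_simp
  constructor
  · have h2 : eτ ≤ ρ := by
      rw [← hρe]
      nlinarith
    have h3 : K * (1 - fτ) ≤ K * (1 - E * qq) := by
      apply mul_le_mul_of_nonneg_left _ hK
      rw [hf]
      nlinarith
    linarith
  · have h2 : 1 - K * (1 - E) ≤ e0 := by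
      have : K * (1 - f0) ≤ K * (1 - E) := by
        apply mul_le_mul_of_nonneg_left _ hK
        linarith
      linarith
    calc ρ * (1 - K * (1 - E)) ≤ ρ * e0 := mul_le_mul_of_nonneg_left h2 hρ0.le
      _ = eτ := hρe
      _ ≤ 1 := leτ

end Claimed.Agent.R285.F23

/-!
# ROW 285, layer F3: the ATTACHMENT inequality [F] (3.4)-(3.12) for an ABSTRACT configuration of nests   (owner helper12)     NO sorry in this file.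
`Cfg ι`: a domain `D` with a hard pin `Pn`, nests `N i` (pairwise separated, away from the pin), inner discs `C i`, inner squares `In i ⊇ C i`, guards `G i ⊆ N i \ In i` separating `In i`, outer ends `H i`.
No staircase geometry, no translation here.   Inputs: `S46.kernel_upper`, `kernel_local`, `kernel_average_lower`, `ZD_total_fam`, `ZD_prod_fam`, `ZD_congr`, `ZD_congr_set`, `ZD_pos`.
-/


namespace Claimed.Agent.R285.F23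

open Claimed.Agent.R285.S46 (ZD OneComp bdry touch Dat Dbar pFlat admL)
open scoped Classical

noncomputable section

structure Cfg (ι : Type) where
  D : Finset (ℤ × ℤ)
  Pn : Set (ℤ × ℤ)
  N : ι → Finset (ℤ × ℤ)
  C : ι → Finset (ℤ × ℤ)
  In : ι → Finset (ℤ × ℤ)
  G : ι → Finset (ℤ × ℤ)
  H : ι → Set (ℤ × ℤ)
  o : ι → ℤ × ℤ
  hND : ∀ i, N i ⊆ D
  hdis : ∀ i j, i ≠ j → Disjoint (N i) (N j)
  hP : ∀ i, Disjoint Pn ↑(N i)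
  hCIn : ∀ i, C i ⊆ In i
  hInN : ∀ i, ∀ e : Bond, (e.1 ∈ In i ∨ e.snd ∈ In i) → e.1 ∈ N i ∧ e.snd ∈ N i
  hGN : ∀ i, G i ⊆ N i
  hGIn : ∀ i, Disjoint (G i) (In i)
  ho : ∀ i, o i ∈ G i
  hGc : ∀ i, OneComp (G i) ∅ ↑(G i)
  hsepG : ∀ i, ∀ e ∈ bdry (↑(In i) : Set (ℤ × ℤ)), e.1 ∈ G i ∨ e.snd ∈ G i
  hHA : ∀ i, H i ⊆ ↑(N i \ C i)
  hend : ∀ i, ∀ e ∈ bdry (↑(N i) : Set (ℤ × ℤ)), (e.1 ∈ N i \ C i → e.1 ∈ H i) ∧ (e.snd ∈ N i \ C i → e.snd ∈ H i)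

namespace Cfg

variable {ι : Type} [Fintype ι] (𝔠 : Cfg ι)

def seam : Set Bond := {e | ∃ i, e ∈ bdry (↑(𝔠.N i) : Set (ℤ × ℤ))}
def gd (i : ι) : Set (ℤ × ℤ) := ↑(𝔠.G i)
def fam : Set (Set (ℤ × ℤ)) := Set.range 𝔠.gd
def A (i : ι) : Finset (ℤ × ℤ) := 𝔠.N i \ 𝔠.C i
def Dj : Finset (ℤ × ℤ) := 𝔠.D \ Finset.univ.biUnion 𝔠.C
def De : Finset (ℤ × ℤ) := 𝔠.D \ Finset.univ.biUnion 𝔠.N
abbrev U : Type := Dat (⋃ i, 𝔠.gd i) (Set.range 𝔠.o)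

omit [Fintype ι] in
theorem notMem_of_ne {i j : ι} (h : i ≠ j) {z : ℤ × ℤ} (hz : z ∈ 𝔠.N i) : z ∉ 𝔠.N j :=
  fun hz' => (Finset.disjoint_left.1 (𝔠.hdis i j h)) hz hz'

omit [Fintype ι] in
theorem not_seam {i : ι} {e : Bond} (h1 : e.1 ∈ 𝔠.N i) (h2 : e.snd ∈ 𝔠.N i) : e ∉ 𝔠.seam := by
  rintro ⟨j, hj⟩
  by_cases hij : i = j
  · subst hij
    rcases hj with ⟨_, h⟩ | ⟨h, _⟩
    · exact h (by exact_mod_cast h2)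
    · exact h (by exact_mod_cast h1)
  · rcases hj with ⟨h, _⟩ | ⟨_, h⟩
    · exact 𝔠.notMem_of_ne hij h1 (by exact_mod_cast h)
    · exact 𝔠.notMem_of_ne hij h2 (by exact_mod_cast h)

theorem mem_De {z : ℤ × ℤ} : z ∈ 𝔠.De ↔ z ∈ 𝔠.D ∧ ∀ i, z ∉ 𝔠.N i := by
  simp [De, Finset.mem_sdiff, Finset.mem_biUnion]

theorem mem_Dj {z : ℤ × ℤ} : z ∈ 𝔠.Dj ↔ z ∈ 𝔠.D ∧ ∀ i, z ∉ 𝔠.C i := by
  simp [Dj, Finset.mem_sdiff, Finset.mem_biUnion]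

theorem not_seam_De {e : Bond} (h1 : e.1 ∈ 𝔠.De) (h2 : e.snd ∈ 𝔠.De) : e ∉ 𝔠.seam := by
  rintro ⟨j, hj⟩
  rcases hj with ⟨h, _⟩ | ⟨_, h⟩
  · exact (𝔠.mem_De.1 h1).2 j (by exact_mod_cast h)
  · exact (𝔠.mem_De.1 h2).2 j (by exact_mod_cast h)

omit [Fintype ι] in
theorem In_sub_N (i : ι) : 𝔠.In i ⊆ 𝔠.N i := fun z hz => (𝔠.hInN i (z, true) (Or.inl hz)).1

omit [Fintype ι] in
theorem C_sub_N (i : ι) : 𝔠.C i ⊆ 𝔠.N i := fun _ hz => 𝔠.In_sub_N i (𝔠.hCIn i hz)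

omit [Fintype ι] in
theorem A_sub_N (i : ι) : 𝔠.A i ⊆ 𝔠.N i := Finset.sdiff_subset

omit [Fintype ι] in
theorem G_sub_A (i : ι) : 𝔠.G i ⊆ 𝔠.A i := fun z hz =>
  Finset.mem_sdiff.2 ⟨𝔠.hGN i hz, fun h => (Finset.disjoint_left.1 (𝔠.hGIn i)) hz (𝔠.hCIn i h)⟩

theorem A_sub_Dj (i : ι) : 𝔠.A i ⊆ 𝔠.Dj := by
  intro z hz
  have h1 := Finset.mem_sdiff.1 hz
  refine 𝔠.mem_Dj.2 ⟨𝔠.hND i h1.1, fun j hj => ?_⟩
  by_cases hij : i = j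
  · subst hij
    exact h1.2 hj
  · exact 𝔠.notMem_of_ne hij h1.1 (𝔠.C_sub_N j hj)

theorem Dj_sub_D : 𝔠.Dj ⊆ 𝔠.D := Finset.sdiff_subset

omit [Fintype ι] in
/-- a block inside one nest -/
theorem block_bonds (i : ι) {B : Finset (ℤ × ℤ)} (hB : B ⊆ 𝔠.N i) : domBonds B 𝔠.seam = domBonds B ∅ := by
  ext e
  simp only [S46.mem_domBonds, Set.mem_empty_iff_false, not_false_iff, and_true]
  constructor
  · rintro ⟨h1, h2, _⟩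
    exact ⟨h1, h2⟩
  · rintro ⟨h1, h2⟩
    exact ⟨h1, h2, 𝔠.not_seam (hB h1) (hB h2)⟩

omit [Fintype ι] in
theorem block_adm (i : ι) {B : Finset (ℤ × ℤ)} (hB : B ⊆ 𝔠.N i) : admL B 𝔠.Pn 𝔠.fam = admL B ∅ {𝔠.gd i} := by
  ext h
  constructor
  · rintro ⟨_, h2⟩
    refine ⟨fun v hv => absurd hv (Set.notMem_empty _), ?_⟩
    intro F hF
    rw [Set.mem_singleton_iff] at hF
    subst hF
    exact h2 _ ⟨i, rfl⟩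
  · rintro ⟨_, h2⟩
    refine ⟨fun v hv hvB => absurd (by exact_mod_cast hB hvB) (Set.disjoint_left.1 (𝔠.hP i) hv), ?_⟩
    rintro F ⟨j, rfl⟩ x hx y hy hxB hyB
    by_cases hij : i = j
    · subst hij
      exact h2 _ rfl x hx y hy hxB hyB
    · exact absurd (𝔠.hGN j (by exact_mod_cast hx)) (𝔠.notMem_of_ne hij (hB hxB))

omit [Fintype ι] in
theorem block_adm0 (i : ι) {B : Finset (ℤ × ℤ)} (hB : B ⊆ 𝔠.N i) : admL B 𝔠.Pn ∅ = admL B ∅ ∅ := by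
  ext h
  constructor
  · rintro ⟨_, h2⟩
    exact ⟨fun v hv => absurd hv (Set.notMem_empty _), h2⟩
  · rintro ⟨_, h2⟩
    exact ⟨fun v hv hvB => absurd (by exact_mod_cast hB hvB) (Set.disjoint_left.1 (𝔠.hP i) hv), h2⟩

omit [Fintype ι] in
theorem block_ZD (b : ℝ) (i : ι) {B : Finset (ℤ × ℤ)} (hB : B ⊆ 𝔠.N i) (u : ℤ × ℤ → ℤ) (σ : Bond → ℤ) :
    ZD b B 𝔠.seam 𝔠.Pn 𝔠.fam u σ = ZD b B ∅ ∅ {𝔠.gd i} u σ :=
  S46.ZD_congr_set b B _ _ _ _ _ _ u σ (𝔠.block_bonds i hB) (𝔠.block_adm i hB)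

omit [Fintype ι] in
theorem block_ZD0 (b : ℝ) (i : ι) {B : Finset (ℤ × ℤ)} (hB : B ⊆ 𝔠.N i) (u : ℤ × ℤ → ℤ) (σ : Bond → ℤ) :
    ZD b B 𝔠.seam 𝔠.Pn ∅ u σ = ZD b B ∅ ∅ ∅ u σ :=
  S46.ZD_congr_set b B _ _ _ _ _ _ u σ (𝔠.block_bonds i hB) (𝔠.block_adm0 i hB)

/-- the exterior does not see the guards, the data, the seam -/
theorem ext_ZD (b : ℝ) (u : 𝔠.U) (σ : Bond → ℤ) : ZD b 𝔠.De 𝔠.seam 𝔠.Pn 𝔠.fam u.1 σ = ZD b 𝔠.De ∅ 𝔠.Pn ∅ 0 σ := by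
  have hb : domBonds 𝔠.De 𝔠.seam = domBonds 𝔠.De ∅ := by
    ext e
    simp only [S46.mem_domBonds, Set.mem_empty_iff_false, not_false_iff, and_true]
    constructor
    · rintro ⟨h1, h2, _⟩
      exact ⟨h1, h2⟩
    · rintro ⟨h1, h2⟩
      exact ⟨h1, h2, 𝔠.not_seam_De h1 h2⟩
  have ha : admL 𝔠.De 𝔠.Pn 𝔠.fam = admL 𝔠.De 𝔠.Pn ∅ := by
    ext h
    constructor
    · rintro ⟨h1, _⟩
      exact ⟨h1, fun F hF => absurd hF (Set.notMem_empty _)⟩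
    · rintro ⟨h1, _⟩
      refine ⟨h1, ?_⟩
      rintro F ⟨j, rfl⟩ x hx y _ hxB _
      exact absurd (𝔠.hGN j (by exact_mod_cast hx)) ((𝔠.mem_De.1 hxB).2 j)
  rw [S46.ZD_congr_set b 𝔠.De _ _ _ _ _ _ u.1 σ hb ha]
  refine S46.ZD_congr b _ _ _ _ _ _ _ _ fun e he => ?_
  have he' := S46.mem_domBonds.1 he
  have hz : ∀ z ∈ 𝔠.De, u.1 z = 0 := by
    intro z hz
    refine u.2 z (Or.inl fun h => ?_)
    obtain ⟨j, hj⟩ := Set.mem_iUnion.1 h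
    exact (𝔠.mem_De.1 hz).2 j (𝔠.hGN j (by exact_mod_cast hj))
  simp [S46.grad, hz _ he'.1, hz _ he'.2.1]

theorem ext_ZD0 (b : ℝ) (σ : Bond → ℤ) : ZD b 𝔠.De 𝔠.seam 𝔠.Pn ∅ 0 σ = ZD b 𝔠.De ∅ 𝔠.Pn ∅ 0 σ := by
  have hb : domBonds 𝔠.De 𝔠.seam = domBonds 𝔠.De ∅ := by
    ext e
    simp only [S46.mem_domBonds, Set.mem_empty_iff_false, not_false_iff, and_true]
    constructor
    · rintro ⟨h1, h2, _⟩
      exact ⟨h1, h2⟩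
    · rintro ⟨h1, h2⟩
      exact ⟨h1, h2, 𝔠.not_seam_De h1 h2⟩
  exact S46.ZD_congr_set b 𝔠.De _ _ _ _ _ _ 0 σ hb rfl

/-! ### the cut sums are products over the blocks -/

theorem Dj_sdiff : 𝔠.Dj \ Finset.univ.biUnion 𝔠.A = 𝔠.De := by
  ext z
  simp only [Finset.mem_sdiff, Finset.mem_biUnion, Finset.mem_univ, true_and, not_exists, mem_Dj, mem_De, A, not_and, not_not]
  constructor
  · rintro ⟨⟨h1, h2⟩, h3⟩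
    exact ⟨h1, fun i hi => h2 i (h3 i hi)⟩
  · rintro ⟨h1, h2⟩
    exact ⟨⟨h1, fun i hi => h2 i (𝔠.C_sub_N i hi)⟩, fun i hi => absurd hi (h2 i)⟩

omit [Fintype ι] in
theorem gd_disj_N {i j : ι} (h : i ≠ j) : Disjoint (𝔠.gd j) (↑(𝔠.N i) : Set (ℤ × ℤ)) := by
  rw [Set.disjoint_left]
  intro z hz hz'
  exact 𝔠.notMem_of_ne h (by exact_mod_cast hz') (𝔠.hGN j (by exact_mod_cast hz))

theorem famN (F : Set (ℤ × ℤ)) (hF : F ∈ 𝔠.fam) (i : ι) :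
    Disjoint F (↑(𝔠.N i) : Set (ℤ × ℤ)) ∨ Disjoint F (↑(𝔠.D \ 𝔠.N i) : Set (ℤ × ℤ)) := by
  obtain ⟨j, rfl⟩ := hF
  by_cases hij : i = j
  · subst hij
    right
    rw [Set.disjoint_left]
    intro z hz hz'
    have : z ∈ 𝔠.D \ 𝔠.N i := by exact_mod_cast hz'
    exact (Finset.mem_sdiff.1 this).2 (𝔠.hGN i (by exact_mod_cast hz))
  · exact Or.inl (𝔠.gd_disj_N hij)

theorem famA (F : Set (ℤ × ℤ)) (hF : F ∈ 𝔠.fam) (i : ι) :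
    Disjoint F (↑(𝔠.A i) : Set (ℤ × ℤ)) ∨ Disjoint F (↑(𝔠.Dj \ 𝔠.A i) : Set (ℤ × ℤ)) := by
  obtain ⟨j, rfl⟩ := hF
  by_cases hij : i = j
  · subst hij
    right
    rw [Set.disjoint_left]
    intro z hz hz'
    have : z ∈ 𝔠.Dj \ 𝔠.A i := by exact_mod_cast hz'
    exact (Finset.mem_sdiff.1 this).2 (𝔠.G_sub_A i (by exact_mod_cast hz))
  · left
    refine (𝔠.gd_disj_N hij).mono_right ?_
    intro z hz
    exact_mod_cast 𝔠.A_sub_N i (by exact_mod_cast hz)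

theorem isoA (i : ι) (e : Bond) (he : e ∈ bdry (↑(𝔠.A i) : Set (ℤ × ℤ))) (h1 : e.1 ∈ 𝔠.Dj) (h2 : e.snd ∈ 𝔠.Dj) : e ∈ 𝔠.seam := by
  refine ⟨i, ?_⟩
  rcases he with ⟨a, c⟩ | ⟨a, c⟩
  · left
    have a' : e.1 ∈ 𝔠.A i := by exact_mod_cast a
    refine ⟨by exact_mod_cast 𝔠.A_sub_N i a', fun h => c ?_⟩
    have : e.snd ∈ 𝔠.A i := Finset.mem_sdiff.2 ⟨by exact_mod_cast h, (𝔠.mem_Dj.1 h2).2 i⟩
    exact_mod_cast this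
  · right
    have c' : e.snd ∈ 𝔠.A i := by exact_mod_cast c
    refine ⟨fun h => a ?_, by exact_mod_cast 𝔠.A_sub_N i c'⟩
    have : e.1 ∈ 𝔠.A i := Finset.mem_sdiff.2 ⟨by exact_mod_cast h, (𝔠.mem_Dj.1 h1).2 i⟩
    exact_mod_cast this

omit [Fintype ι] in
theorem disA {i j : ι} (h : i ≠ j) : Disjoint (𝔠.A i) (𝔠.A j) :=
  Finset.disjoint_of_subset_left (𝔠.A_sub_N i) (Finset.disjoint_of_subset_right (𝔠.A_sub_N j) (𝔠.hdis i j h))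

theorem cut_full (b : ℝ) (hb : 0 < b) (u : 𝔠.U) (σ : Bond → ℤ) :
    ZD b 𝔠.D 𝔠.seam 𝔠.Pn 𝔠.fam u.1 σ = ZD b 𝔠.De ∅ 𝔠.Pn ∅ 0 σ * ∏ i, ZD b (𝔠.N i) ∅ ∅ {𝔠.gd i} u.1 σ := by
  rw [S46.ZD_prod_fam b hb 𝔠.D 𝔠.seam 𝔠.Pn 𝔠.fam u.1 σ Finset.univ 𝔠.N (fun i _ => 𝔠.hND i) (fun i _ j _ h => 𝔠.hdis i j h)
    (fun i _ e he _ _ => ⟨i, he⟩) (fun F hF i _ => 𝔠.famN F hF i)]
  congr 1
  · exact 𝔠.ext_ZD b u σ
  · exact Finset.prod_congr rfl fun i _ => 𝔠.block_ZD b i (Finset.Subset.refl _) u.1 σ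

theorem cut_full0 (b : ℝ) (hb : 0 < b) (σ : Bond → ℤ) :
    ZD b 𝔠.D 𝔠.seam 𝔠.Pn ∅ 0 σ = ZD b 𝔠.De ∅ 𝔠.Pn ∅ 0 σ * ∏ i, ZD b (𝔠.N i) ∅ ∅ ∅ 0 σ := by
  rw [S46.ZD_prod_fam b hb 𝔠.D 𝔠.seam 𝔠.Pn ∅ 0 σ Finset.univ 𝔠.N (fun i _ => 𝔠.hND i) (fun i _ j _ h => 𝔠.hdis i j h)
    (fun i _ e he _ _ => ⟨i, he⟩) (fun F hF i _ => absurd hF (Set.notMem_empty _))]
  congr 1
  · exact 𝔠.ext_ZD0 b σ
  · exact Finset.prod_congr rfl fun i _ => 𝔠.block_ZD0 b i (Finset.Subset.refl _) 0 σ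

theorem cut_join (b : ℝ) (hb : 0 < b) (u : 𝔠.U) (σ : Bond → ℤ) :
    ZD b 𝔠.Dj 𝔠.seam 𝔠.Pn 𝔠.fam u.1 σ = ZD b 𝔠.De ∅ 𝔠.Pn ∅ 0 σ * ∏ i, ZD b (𝔠.A i) ∅ ∅ {𝔠.gd i} u.1 σ := by
  rw [S46.ZD_prod_fam b hb 𝔠.Dj 𝔠.seam 𝔠.Pn 𝔠.fam u.1 σ Finset.univ 𝔠.A (fun i _ => 𝔠.A_sub_Dj i) (fun i _ j _ h => 𝔠.disA h)
    (fun i _ e he h1 h2 => 𝔠.isoA i e he h1 h2) (fun F hF i _ => 𝔠.famA F hF i), 𝔠.Dj_sdiff]
  congr 1
  · exact 𝔠.ext_ZD b u σ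
  · exact Finset.prod_congr rfl fun i _ => 𝔠.block_ZD b i (𝔠.A_sub_N i) u.1 σ

theorem cut_join0 (b : ℝ) (hb : 0 < b) (σ : Bond → ℤ) :
    ZD b 𝔠.Dj 𝔠.seam 𝔠.Pn ∅ 0 σ = ZD b 𝔠.De ∅ 𝔠.Pn ∅ 0 σ * ∏ i, ZD b (𝔠.A i) ∅ ∅ ∅ 0 σ := by
  rw [S46.ZD_prod_fam b hb 𝔠.Dj 𝔠.seam 𝔠.Pn ∅ 0 σ Finset.univ 𝔠.A (fun i _ => 𝔠.A_sub_Dj i) (fun i _ j _ h => 𝔠.disA h)
    (fun i _ e he h1 h2 => 𝔠.isoA i e he h1 h2) (fun F hF i _ => absurd hF (Set.notMem_empty _)), 𝔠.Dj_sdiff]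
  congr 1
  · exact 𝔠.ext_ZD0 b σ
  · exact Finset.prod_congr rfl fun i _ => 𝔠.block_ZD0 b i (𝔠.A_sub_N i) 0 σ

/-! ### total probability -/

omit [Fintype ι] in
theorem gd_oneComp (i : ι) {D' : Finset (ℤ × ℤ)} (hD' : 𝔠.A i ⊆ D') (cut : Set Bond) (hcut : cut ⊆ 𝔠.seam) : OneComp D' cut (𝔠.gd i) := by
  refine S46.OneComp_mono (𝔠.hGc i) ?_ (Set.Subset.refl _)
  intro e he
  obtain ⟨h1, h2, _⟩ := S46.mem_domBonds.1 he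
  exact S46.mem_domBonds.2 ⟨hD' (𝔠.G_sub_A i h1), hD' (𝔠.G_sub_A i h2), fun h => 𝔠.not_seam (𝔠.hGN i h1) (𝔠.hGN i h2) (hcut h)⟩

omit [Fintype ι] in
theorem total (b : ℝ) (hb : 0 < b) (D' : Finset (ℤ × ℤ)) (hD' : ∀ i, 𝔠.A i ⊆ D') (cut : Set Bond) (hcut : cut ⊆ 𝔠.seam) (σ : Bond → ℤ) :
    HasSum (fun u : 𝔠.U => ZD b D' cut 𝔠.Pn 𝔠.fam u.1 σ) (ZD b D' cut 𝔠.Pn ∅ 0 σ) := by
  have h := S46.ZD_total_fam b hb D' cut 𝔠.Pn ∅ 0 σ 𝔠.gd 𝔠.o (fun i => by exact_mod_cast 𝔠.ho i)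
    (fun i z hz => by exact_mod_cast hD' i (𝔠.G_sub_A i (by exact_mod_cast hz)))
    (fun i => 𝔠.gd_oneComp i (hD' i) cut hcut)
    (fun i j hij => by
      rw [Set.disjoint_left]
      intro z hz hz'
      exact 𝔠.notMem_of_ne hij (𝔠.hGN i (by exact_mod_cast hz)) (𝔠.hGN j (by exact_mod_cast hz')))
    (fun i => by
      rw [Set.disjoint_left]
      intro z hz hz'
      exact (Set.disjoint_left.1 (𝔠.hP i)) hz' (by exact_mod_cast 𝔠.hGN i (by exact_mod_cast hz)))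
    (fun i F hF => absurd hF (Set.notMem_empty _))
  simpa [fam] using h

/-! ### the Markov property -/

def In' (i : ι) : Finset (ℤ × ℤ) := 𝔠.In i \ 𝔠.C i
def Dx : Finset (ℤ × ℤ) := 𝔠.D \ Finset.univ.biUnion 𝔠.In

theorem Dj_sdiff_In' : 𝔠.Dj \ Finset.univ.biUnion 𝔠.In' = 𝔠.Dx := by
  ext z
  simp only [Finset.mem_sdiff, Finset.mem_biUnion, Finset.mem_univ, true_and, not_exists, mem_Dj, Dx, In', not_and, not_not]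
  constructor
  · rintro ⟨⟨h1, h2⟩, h3⟩
    exact ⟨h1, fun i hi => h2 i (h3 i hi)⟩
  · rintro ⟨h1, h2⟩
    exact ⟨⟨h1, fun i hi => h2 i (𝔠.hCIn i hi)⟩, fun i hi => absurd hi (h2 i)⟩

omit [Fintype ι] in
theorem touch_In_not_seam (i : ι) (e : Bond) (he : e.1 ∈ 𝔠.In i ∨ e.snd ∈ 𝔠.In i) : e ∉ 𝔠.seam :=
  𝔠.not_seam (𝔠.hInN i e he).1 (𝔠.hInN i e he).2

theorem markov_full (b : ℝ) (hb : 0 < b) (u : ℤ × ℤ → ℤ) (σ : Bond → ℤ) :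
    ZD b 𝔠.D ∅ 𝔠.Pn 𝔠.fam u σ * ZD b 𝔠.Dx 𝔠.seam 𝔠.Pn 𝔠.fam u σ = ZD b 𝔠.D 𝔠.seam 𝔠.Pn 𝔠.fam u σ * ZD b 𝔠.Dx ∅ 𝔠.Pn 𝔠.fam u σ := by
  refine S46.kernel_local b hb 𝔠.D ∅ 𝔠.seam 𝔠.Pn 𝔠.In 𝔠.gd 𝔠.fam u σ (fun i => ⟨i, rfl⟩)
    (fun i j hij => Finset.disjoint_of_subset_left (𝔠.In_sub_N i) (Finset.disjoint_of_subset_right (𝔠.In_sub_N j) (𝔠.hdis i j hij)))
    (fun i => (𝔠.hP i).mono_right (by exact_mod_cast 𝔠.In_sub_N i)) ?_ ?_ ?_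
  · rintro i F ⟨j, rfl⟩
    by_cases hij : i = j
    · subst hij
      exact Finset.disjoint_coe.2 (𝔠.hGIn i)
    · exact (𝔠.gd_disj_N hij).mono_right (by exact_mod_cast 𝔠.In_sub_N i)
  · intro i e he _ _
    right
    rcases 𝔠.hsepG i e he with h | h
    · exact Or.inl (by exact_mod_cast h)
    · exact Or.inr (by exact_mod_cast h)
  · intro i e he
    have : e ∉ 𝔠.seam := 𝔠.touch_In_not_seam i e (by
      rcases he with h | h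
      · exact Or.inl (by exact_mod_cast h)
      · exact Or.inr (by exact_mod_cast h))
    simp [this]

theorem markov_join (b : ℝ) (hb : 0 < b) (u : ℤ × ℤ → ℤ) (σ : Bond → ℤ) :
    ZD b 𝔠.Dj ∅ 𝔠.Pn 𝔠.fam u σ * ZD b 𝔠.Dx 𝔠.seam 𝔠.Pn 𝔠.fam u σ = ZD b 𝔠.Dj 𝔠.seam 𝔠.Pn 𝔠.fam u σ * ZD b 𝔠.Dx ∅ 𝔠.Pn 𝔠.fam u σ := by
  have hsub : ∀ i, 𝔠.In' i ⊆ 𝔠.In i := fun i => Finset.sdiff_subset
  have h := S46.kernel_local b hb 𝔠.Dj ∅ 𝔠.seam 𝔠.Pn 𝔠.In' 𝔠.gd 𝔠.fam u σ (fun i => ⟨i, rfl⟩)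
    (fun i j hij => Finset.disjoint_of_subset_left ((hsub i).trans (𝔠.In_sub_N i))
      (Finset.disjoint_of_subset_right ((hsub j).trans (𝔠.In_sub_N j)) (𝔠.hdis i j hij)))
    (fun i => (𝔠.hP i).mono_right (by exact_mod_cast (hsub i).trans (𝔠.In_sub_N i))) ?_ ?_ ?_
  · rwa [𝔠.Dj_sdiff_In'] at h
  · rintro i F ⟨j, rfl⟩
    by_cases hij : i = j
    · subst hij
      exact Finset.disjoint_coe.2 (Finset.disjoint_of_subset_right (hsub i) (𝔠.hGIn i))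
    · exact (𝔠.gd_disj_N hij).mono_right (by exact_mod_cast (hsub i).trans (𝔠.In_sub_N i))
  · intro i e he h1 h2
    right
    have hb' : e ∈ bdry (↑(𝔠.In i) : Set (ℤ × ℤ)) := by
      rcases he with ⟨a, c⟩ | ⟨a, c⟩
      · left
        have a' : e.1 ∈ 𝔠.In' i := by exact_mod_cast a
        refine ⟨by exact_mod_cast hsub i a', fun h => c ?_⟩
        have : e.snd ∈ 𝔠.In' i := Finset.mem_sdiff.2 ⟨by exact_mod_cast h, (𝔠.mem_Dj.1 h2).2 i⟩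
        exact_mod_cast this
      · right
        have c' : e.snd ∈ 𝔠.In' i := by exact_mod_cast c
        refine ⟨fun h => a ?_, by exact_mod_cast hsub i c'⟩
        have : e.1 ∈ 𝔠.In' i := Finset.mem_sdiff.2 ⟨by exact_mod_cast h, (𝔠.mem_Dj.1 h1).2 i⟩
        exact_mod_cast this
    rcases 𝔠.hsepG i e hb' with h | h
    · exact Or.inl (by exact_mod_cast h)
    · exact Or.inr (by exact_mod_cast h)
  · intro i e he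
    have : e ∉ 𝔠.seam := 𝔠.touch_In_not_seam i e (by
      rcases he with h | h
      · exact Or.inl (hsub i (by exact_mod_cast h))
      · exact Or.inr (hsub i (by exact_mod_cast h)))
    simp [this]

theorem markov (b : ℝ) (hb : 0 < b) (u : ℤ × ℤ → ℤ) (σ : Bond → ℤ) :
    ZD b 𝔠.D ∅ 𝔠.Pn 𝔠.fam u σ * ZD b 𝔠.Dj 𝔠.seam 𝔠.Pn 𝔠.fam u σ = ZD b 𝔠.Dj ∅ 𝔠.Pn 𝔠.fam u σ * ZD b 𝔠.D 𝔠.seam 𝔠.Pn 𝔠.fam u σ := by
  have h1 := 𝔠.markov_full b hb u σ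
  have h2 := 𝔠.markov_join b hb u σ
  have p1 := S46.ZD_pos b hb 𝔠.Dx 𝔠.seam 𝔠.Pn 𝔠.fam u σ
  have p2 := S46.ZD_pos b hb 𝔠.Dx ∅ 𝔠.Pn 𝔠.fam u σ
  set X := ZD b 𝔠.Dx 𝔠.seam 𝔠.Pn 𝔠.fam u σ
  set Y := ZD b 𝔠.Dx ∅ 𝔠.Pn 𝔠.fam u σ
  set a := ZD b 𝔠.D ∅ 𝔠.Pn 𝔠.fam u σ
  set c := ZD b 𝔠.D 𝔠.seam 𝔠.Pn 𝔠.fam u σ
  set a' := ZD b 𝔠.Dj ∅ 𝔠.Pn 𝔠.fam u σ
  set c' := ZD b 𝔠.Dj 𝔠.seam 𝔠.Pn 𝔠.fam u σ
  have : (a * c') * X = (a' * c) * X := by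
    calc (a * c') * X = (a * X) * c' := by ring
      _ = (c * Y) * c' := by rw [h1]
      _ = c * (c' * Y) := by ring
      _ = c * (a' * X) := by rw [h2]
      _ = (a' * c) * X := by ring
  exact mul_right_cancel₀ p1.ne' this

/-! ### the density bound, the average of the centred kernel, the result -/

/-- the constant `d` -/
def dd (b : ℝ) : ℝ := ZD b 𝔠.D ∅ 𝔠.Pn 𝔠.fam 0 0 / ZD b 𝔠.D 𝔠.seam 𝔠.Pn 𝔠.fam 0 0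

theorem dd_pos (b : ℝ) (hb : 0 < b) : 0 < 𝔠.dd b := div_pos (S46.ZD_pos b hb _ _ _ _ _ _) (S46.ZD_pos b hb _ _ _ _ _ _)

theorem dd_join (b : ℝ) (hb : 0 < b) : 𝔠.dd b = ZD b 𝔠.Dj ∅ 𝔠.Pn 𝔠.fam 0 0 / ZD b 𝔠.Dj 𝔠.seam 𝔠.Pn 𝔠.fam 0 0 := by
  have h := 𝔠.markov b hb 0 0
  have p1 := S46.ZD_pos b hb 𝔠.D 𝔠.seam 𝔠.Pn 𝔠.fam 0 0
  have p2 := S46.ZD_pos b hb 𝔠.Dj 𝔠.seam 𝔠.Pn 𝔠.fam 0 0
  rw [dd, div_eq_div_iff p1.ne' p2.ne']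
  exact h

theorem upper (b : ℝ) (hb : 0 < b) (u : ℤ × ℤ → ℤ) (σ : Bond → ℤ) :
    ZD b 𝔠.D ∅ 𝔠.Pn 𝔠.fam u σ ≤ 𝔠.dd b * ZD b 𝔠.D 𝔠.seam 𝔠.Pn 𝔠.fam u σ := by
  have h := S46.kernel_upper b hb 𝔠.D ∅ 𝔠.seam 𝔠.Pn 𝔠.fam u σ
  rw [Set.empty_union] at h
  have p0 := S46.ZD_pos b hb 𝔠.D ∅ 𝔠.Pn 𝔠.fam 0 0
  have p1 := S46.ZD_pos b hb 𝔠.D 𝔠.seam 𝔠.Pn 𝔠.fam 0 0
  rw [div_le_div_iff₀ p0 p1] at h
  rw [dd, div_mul_eq_mul_div, le_div_iff₀ p1]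
  linarith

theorem dens (b : ℝ) (hb : 0 < b) (σ : Bond → ℤ)
    (hLG : ∀ i, ∀ u : ℤ × ℤ → ℤ, ZD b (𝔠.N i) ∅ ∅ {𝔠.gd i} u σ / ZD b (𝔠.N i) ∅ ∅ ∅ 0 σ ≤ 2 * (ZD b (𝔠.A i) ∅ ∅ {𝔠.gd i} u σ / ZD b (𝔠.A i) ∅ ∅ ∅ 0 σ))
    (u : 𝔠.U) :
    ZD b 𝔠.D 𝔠.seam 𝔠.Pn 𝔠.fam u.1 σ / ZD b 𝔠.D 𝔠.seam 𝔠.Pn ∅ 0 σ
      ≤ 2 ^ (Fintype.card ι) * (ZD b 𝔠.Dj 𝔠.seam 𝔠.Pn 𝔠.fam u.1 σ / ZD b 𝔠.Dj 𝔠.seam 𝔠.Pn ∅ 0 σ) := by
  rw [𝔠.cut_full b hb, 𝔠.cut_full0 b hb, 𝔠.cut_join b hb, 𝔠.cut_join0 b hb]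
  have pe := S46.ZD_pos b hb 𝔠.De ∅ 𝔠.Pn ∅ 0 σ
  rw [mul_div_mul_left _ _ pe.ne', mul_div_mul_left _ _ pe.ne', ← Finset.prod_div_distrib, ← Finset.prod_div_distrib]
  have h2 : (2 : ℝ) ^ (Fintype.card ι) = ∏ _i : ι, (2 : ℝ) := by simp
  rw [h2, ← Finset.prod_mul_distrib]
  exact Finset.prod_le_prod (fun i _ => (div_pos (S46.ZD_pos b hb _ _ _ _ _ _) (S46.ZD_pos b hb _ _ _ _ _ _)).le) fun i _ => hLG i u.1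

omit [Fintype ι] in
theorem Dbar_seam (b : ℝ) (i : ι) : Dbar b (𝔠.A i) (∅ ∪ 𝔠.seam) (𝔠.H i) (𝔠.gd i) = Dbar b (𝔠.A i) ∅ (𝔠.H i) (𝔠.gd i) := by
  have h : ∀ 𝓕 : Set (Set (ℤ × ℤ)), ZD b (𝔠.A i) (∅ ∪ 𝔠.seam) ∅ 𝓕 0 0 = ZD b (𝔠.A i) ∅ ∅ 𝓕 0 0 := fun 𝓕 =>
    S46.ZD_congr_set b _ _ _ _ _ _ _ 0 0 (by rw [Set.empty_union]; exact 𝔠.block_bonds i (𝔠.A_sub_N i)) rfl
  simp only [Dbar, pFlat, h]

theorem lower (b : ℝ) (hb : 0 < b) :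
    Real.exp (-∑ i, Dbar b (𝔠.A i) ∅ (𝔠.H i) (𝔠.gd i)) * pFlat b 𝔠.Dj ∅ 𝔠.Pn 𝔠.fam ≤ pFlat b 𝔠.Dj 𝔠.seam 𝔠.Pn 𝔠.fam := by
  have h := S46.kernel_average_lower b hb 𝔠.Dj ∅ 𝔠.seam 𝔠.Pn 𝔠.A 𝔠.H 𝔠.gd (fun i => 𝔠.A_sub_Dj i) (fun i j hij => 𝔠.disA hij)
    (fun i => 𝔠.hHA i) (fun i z hz => by exact_mod_cast 𝔠.G_sub_A i (by exact_mod_cast hz))
    (fun i => 𝔠.gd_oneComp i (Finset.Subset.refl _) _ (by rw [Set.empty_union]))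
    (fun i => (𝔠.hP i).mono_right (by exact_mod_cast 𝔠.A_sub_N i))
    (fun i e he h1 h2 => Or.inr (𝔠.isoA i e he h1 h2)) ?_
  · simp only [𝔠.Dbar_seam b] at h
    rw [Set.empty_union] at h
    exact h
  · rintro i e ⟨j, hj⟩
    have key : (e.1 ∈ 𝔠.N i ∨ e.snd ∈ 𝔠.N i) → e ∈ bdry (↑(𝔠.N i) : Set (ℤ × ℤ)) := by
      intro hi
      by_cases hij : i = j
      · subst hij
        exact hj
      · rcases hi with hi | hi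
        · left
          refine ⟨by exact_mod_cast hi, fun h => ?_⟩
          rcases hj with ⟨a, _⟩ | ⟨_, a⟩
          · exact 𝔠.notMem_of_ne hij hi (by exact_mod_cast a)
          · exact 𝔠.notMem_of_ne hij (by exact_mod_cast h) (by exact_mod_cast a)
        · right
          refine ⟨fun h => ?_, by exact_mod_cast hi⟩
          rcases hj with ⟨a, _⟩ | ⟨_, a⟩
          · exact 𝔠.notMem_of_ne hij (by exact_mod_cast h) (by exact_mod_cast a)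
          · exact 𝔠.notMem_of_ne hij hi (by exact_mod_cast a)
    constructor
    · intro h
      exact (𝔠.hend i e (key (Or.inl (𝔠.A_sub_N i h)))).1 h
    · intro h
      exact (𝔠.hend i e (key (Or.inr (𝔠.A_sub_N i h)))).2 h

/-- **the attachment inequality for an abstract configuration of nests** -/
theorem attach (b : ℝ) (hb : 0 < b) (τ : Bond → ℤ)
    (hLG : ∀ σ : Bond → ℤ, σ = τ ∨ σ = 0 → ∀ i, ∀ u : ℤ × ℤ → ℤ,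
      ZD b (𝔠.N i) ∅ ∅ {𝔠.gd i} u σ / ZD b (𝔠.N i) ∅ ∅ ∅ 0 σ ≤ 2 * (ZD b (𝔠.A i) ∅ ∅ {𝔠.gd i} u σ / ZD b (𝔠.A i) ∅ ∅ ∅ 0 σ))
    (E qq ρ : ℝ) (hE : E = Real.exp (-∑ i, Dbar b (𝔠.A i) ∅ (𝔠.H i) (𝔠.gd i)))
    (hqq : qq = S46.Fsec b 𝔠.Dj ∅ 𝔠.Pn τ / (S46.Fsec b 𝔠.De ∅ 𝔠.Pn τ * ∏ i, S46.Fsec b (𝔠.A i) ∅ ∅ τ))
    (hρ : ρ = S46.Fsec b 𝔠.D ∅ 𝔠.Pn τ / (S46.Fsec b 𝔠.De ∅ 𝔠.Pn τ * ∏ i, S46.Fsec b (𝔠.N i) ∅ ∅ τ)) :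
    1 - 2 ^ (Fintype.card ι) * (1 - E * qq) ≤ ρ ∧ ρ * (1 - 2 ^ (Fintype.card ι) * (1 - E)) ≤ 1 := by
  have pos : ∀ (D' : Finset (ℤ × ℤ)) (cut : Set Bond) (P : Set (ℤ × ℤ)) (𝓕 : Set (Set (ℤ × ℤ))) (x : ℤ × ℤ → ℤ) (σ : Bond → ℤ), 0 < ZD b D' cut P 𝓕 x σ :=
    fun D' cut P 𝓕 x σ => S46.ZD_pos b hb D' cut P 𝓕 x σ
  have hd := 𝔠.dd_pos b hb
  have main : ∀ σ : Bond → ℤ, σ = τ ∨ σ = 0 →
      ZD b 𝔠.D ∅ 𝔠.Pn ∅ 0 σ / (ZD b 𝔠.D 𝔠.seam 𝔠.Pn ∅ 0 σ * 𝔠.dd b) ≤ 1 ∧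
      1 - ZD b 𝔠.D ∅ 𝔠.Pn ∅ 0 σ / (ZD b 𝔠.D 𝔠.seam 𝔠.Pn ∅ 0 σ * 𝔠.dd b)
        ≤ 2 ^ (Fintype.card ι) * (1 - ZD b 𝔠.Dj ∅ 𝔠.Pn ∅ 0 σ / (ZD b 𝔠.Dj 𝔠.seam 𝔠.Pn ∅ 0 σ * 𝔠.dd b)) := by
    intro σ hσ
    exact attach_abs (fun u : 𝔠.U => ZD b 𝔠.D ∅ 𝔠.Pn 𝔠.fam u.1 σ) (fun u : 𝔠.U => ZD b 𝔠.D 𝔠.seam 𝔠.Pn 𝔠.fam u.1 σ)
      (fun u : 𝔠.U => ZD b 𝔠.Dj ∅ 𝔠.Pn 𝔠.fam u.1 σ) (fun u : 𝔠.U => ZD b 𝔠.Dj 𝔠.seam 𝔠.Pn 𝔠.fam u.1 σ) _ _ _ _ (𝔠.dd b) _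
      (𝔠.total b hb 𝔠.D (fun i => (𝔠.A_sub_Dj i).trans 𝔠.Dj_sub_D) ∅ (Set.empty_subset _) σ)
      (𝔠.total b hb 𝔠.D (fun i => (𝔠.A_sub_Dj i).trans 𝔠.Dj_sub_D) 𝔠.seam (Set.Subset.refl _) σ)
      (𝔠.total b hb 𝔠.Dj (fun i => 𝔠.A_sub_Dj i) ∅ (Set.empty_subset _) σ)
      (𝔠.total b hb 𝔠.Dj (fun i => 𝔠.A_sub_Dj i) 𝔠.seam (Set.Subset.refl _) σ)
      (fun u => pos _ _ _ _ _ _) (pos _ _ _ _ _ _) (pos _ _ _ _ _ _) hd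
      (fun u => 𝔠.upper b hb u.1 σ) (fun u => 𝔠.markov b hb u.1 σ) (fun u => 𝔠.dens b hb σ (hLG σ hσ) u)
  obtain ⟨m1, m2⟩ := main τ (Or.inl rfl)
  obtain ⟨m3, m4⟩ := main 0 (Or.inr rfl)
  have pprod : ∀ (B : ι → Finset (ℤ × ℤ)) (σ : Bond → ℤ), 0 < ∏ i, ZD b (B i) ∅ ∅ ∅ 0 σ := fun B σ => Finset.prod_pos fun i _ => pos _ _ _ _ _ _
  refine attach_final (K := 2 ^ (Fintype.card ι)) (E := E) (qq := qq) (ρ := ρ) (by positivity) ?_ ?_ ?_ m1 m3 m2 m4 ?_ ?_ ?_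
  · rw [hqq]
    simp only [S46.Fsec]
    exact div_pos (div_pos (pos _ _ _ _ _ _) (pos _ _ _ _ _ _))
      (mul_pos (div_pos (pos _ _ _ _ _ _) (pos _ _ _ _ _ _)) (Finset.prod_pos fun i _ => div_pos (pos _ _ _ _ _ _) (pos _ _ _ _ _ _)))
  · exact div_pos (pos _ _ _ _ _ _) (mul_pos (pos _ _ _ _ _ _) hd)
  · exact div_pos (pos _ _ _ _ _ _) (mul_pos (pos _ _ _ _ _ _) hd)
  · rw [hqq, 𝔠.cut_join0 b hb, 𝔠.cut_join0 b hb]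
    simp only [S46.Fsec, Finset.prod_div_distrib]
    have q1 := pos 𝔠.De ∅ 𝔠.Pn ∅ 0 τ
    have q2 := pos 𝔠.De ∅ 𝔠.Pn ∅ 0 0
    have q3 := pprod 𝔠.A τ
    have q4 := pprod 𝔠.A 0
    have q5 := pos 𝔠.Dj ∅ 𝔠.Pn ∅ 0 0
    field_simp
  · have h := 𝔠.lower b hb
    rw [← hE] at h
    rw [𝔠.dd_join b hb]
    simp only [pFlat] at h
    have q1 := pos 𝔠.Dj ∅ 𝔠.Pn 𝔠.fam 0 0
    have q2 := pos 𝔠.Dj ∅ 𝔠.Pn ∅ 0 0
    have q3 := pos 𝔠.Dj 𝔠.seam 𝔠.Pn 𝔠.fam 0 0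
    have q4 := pos 𝔠.Dj 𝔠.seam 𝔠.Pn ∅ 0 0
    have e1 : ZD b 𝔠.Dj ∅ 𝔠.Pn ∅ 0 0 / (ZD b 𝔠.Dj 𝔠.seam 𝔠.Pn ∅ 0 0 * (ZD b 𝔠.Dj ∅ 𝔠.Pn 𝔠.fam 0 0 / ZD b 𝔠.Dj 𝔠.seam 𝔠.Pn 𝔠.fam 0 0))
        = (ZD b 𝔠.Dj 𝔠.seam 𝔠.Pn 𝔠.fam 0 0 / ZD b 𝔠.Dj 𝔠.seam 𝔠.Pn ∅ 0 0) / (ZD b 𝔠.Dj ∅ 𝔠.Pn 𝔠.fam 0 0 / ZD b 𝔠.Dj ∅ 𝔠.Pn ∅ 0 0) := by
      field_simp
    rw [e1, le_div_iff₀ (div_pos q1 q2)]
    exact h
  · rw [hρ, 𝔠.cut_full0 b hb, 𝔠.cut_full0 b hb]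
    simp only [S46.Fsec, Finset.prod_div_distrib]
    have q1 := pos 𝔠.De ∅ 𝔠.Pn ∅ 0 τ
    have q2 := pos 𝔠.De ∅ 𝔠.Pn ∅ 0 0
    have q3 := pprod 𝔠.N τ
    have q4 := pprod 𝔠.N 0
    have q5 := pos 𝔠.D ∅ 𝔠.Pn ∅ 0 0
    have q6 := pos 𝔠.D ∅ 𝔠.Pn ∅ 0 τ
    field_simp

end Cfg

end

end Claimed.Agent.R285.F23

/-!
# The concrete configuration: `k` translated staircase nests.   `attach' : Attach`.
Geometry inputs: `S46.guard_subset_ann`, `gbase_mem_guard`, `guard_oneComp`, `guard_separates`, `seam_endpoints`, `sq_subset_stair` (leaf L-S46-GEOMA).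
-/

namespace Claimed.Agent.R285.F23

open Claimed.Agent.R285.S46 (ZD OneComp bdry touch Dat Dbar pFlat admL)
open scoped Classical

noncomputable section

theorem snd_sub (e : Bond) (x : ℤ × ℤ) : Bond.snd (e.1 - x, e.2) = e.snd - x := by
  have := snd_add e (-x)
  simpa [sub_eq_add_neg] using this

theorem coe_shift (x : ℤ × ℤ) (A : Finset (ℤ × ℤ)) : {v : ℤ × ℤ | v - x ∈ (↑A : Set (ℤ × ℤ))} = ↑(shift x A) := by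
  ext v
  simp [mem_shift]

theorem shift_mono (x : ℤ × ℤ) {A B : Finset (ℤ × ℤ)} (h : A ⊆ B) : shift x A ⊆ shift x B := Finset.image_subset_image h

theorem shift_sdiff (x : ℤ × ℤ) (A B : Finset (ℤ × ℤ)) : shift x A \ shift x B = shift x (A \ B) := by
  ext v
  simp [mem_shift]

theorem Loc.mono {τ T : Bond → ℤ} {x : ℤ × ℤ} {A B : Finset (ℤ × ℤ)} (h : Loc τ x A T) (hB : B ⊆ A) : Loc τ x B T :=
  fun e h1 h2 => h e (shift_mono x hB h1) (shift_mono x hB h2)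

theorem Loc_zero (x : ℤ × ℤ) (A : Finset (ℤ × ℤ)) : Loc 0 x A 0 := fun _ _ _ => rfl

/-- translation of a free block sum -/
theorem ZD_shift' (b : ℝ) (x : ℤ × ℤ) (B : Finset (ℤ × ℤ)) (𝓕 : Set (Set (ℤ × ℤ))) (u : ℤ × ℤ → ℤ) (σ T : Bond → ℤ) (hL : Loc σ x B T) :
    ZD b (shift x B) ∅ ∅ ((fun F => {v | v - x ∈ F}) '' 𝓕) u σ = ZD b B ∅ ∅ 𝓕 (fun v => u (v + x)) T := by
  have h := S46.ZD_shift b B ∅ ∅ 𝓕 (fun v => u (v + x)) T x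
  simp only [Set.mem_empty_iff_false, Set.setOf_false, sub_add_cancel] at h
  rw [← h]
  refine S46.ZD_congr b _ _ _ _ _ _ _ _ fun e he => ?_
  obtain ⟨h1, h2, _⟩ := S46.mem_domBonds.1 he
  rw [hL e h1 h2]

theorem oneComp_shift (x : ℤ × ℤ) (G : Finset (ℤ × ℤ)) (h : OneComp G ∅ ↑G) : OneComp (shift x G) ∅ ↑(shift x G) := by
  intro f hf a ha c hc
  have h1 := h (fun v => f (v + x)) (fun e he => ?_) (a - x) (by exact_mod_cast mem_shift.1 (by exact_mod_cast ha))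
    (c - x) (by exact_mod_cast mem_shift.1 (by exact_mod_cast hc))
  · simpa using h1
  · obtain ⟨e1, e2, _⟩ := S46.mem_domBonds.1 he
    have := hf (e.1 + x, e.2) (S46.mem_domBonds.2 ⟨mem_shift.2 (by simpa using e1), by
      rw [snd_add]
      exact mem_shift.2 (by simpa using e2), fun h => h⟩)
    rw [snd_add] at this
    exact this

theorem bdry_shift {x : ℤ × ℤ} {A : Finset (ℤ × ℤ)} {e : Bond} (he : e ∈ bdry (↑(shift x A) : Set (ℤ × ℤ))) :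
    ((e.1 - x, e.2) : Bond) ∈ bdry (↑A : Set (ℤ × ℤ)) := by
  simp only [bdry, Set.mem_setOf_eq, Finset.mem_coe, mem_shift] at he ⊢
  rw [snd_sub]
  exact he

theorem touch_sq {n : ℕ} {e : Bond} (h : e.1 ∈ sq n ∨ e.snd ∈ sq n) : e.1 ∈ sq (n + 1) ∧ e.snd ∈ sq (n + 1) := by
  obtain ⟨⟨a, c⟩, d⟩ := e
  simp only [mem_sq, Bond.snd] at h ⊢
  push_cast
  cases d <;> simp only [if_true, if_false, Bool.false_eq_true] at h ⊢ <;> omega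

theorem inner_sq_subset (M p s : ℕ) (hM : 4 ≤ M) (hp : 4 ≤ p) (hs : 1 ≤ s) : sq (2 ^ p * (M * s) + 1) ⊆ S46.stair M (4 ^ p * s) := by
  have h4 : (4 : ℕ) ^ p = (2 ^ p) ^ 2 := by
    rw [← pow_mul, mul_comm, pow_mul]
    norm_num
  have ha : 16 ≤ 2 ^ p := by
    calc 16 = 2 ^ 4 := by norm_num
      _ ≤ 2 ^ p := Nat.pow_le_pow_right (by norm_num) hp
  set a := 2 ^ p with hadef
  refine S46.sq_subset_stair M (4 ^ p * s) _ (by rw [h4]; nlinarith) ?_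
  rw [h4]
  have key : 2 * (a * (M * s) + 1 + a ^ 2 * s) ≤ M * (a ^ 2 * s) := by
    have h1 : 4 * (a ^ 2 * s) ≤ M * (a ^ 2 * s) := Nat.mul_le_mul_right _ hM
    have h2 : 16 * (a * (M * s)) ≤ M * (a ^ 2 * s) := by
      have : a * (a * (M * s)) = M * (a ^ 2 * s) := by ring
      rw [← this]
      exact Nat.mul_le_mul_right _ ha
    have h3 : 1 ≤ a * (M * s) := by
      have : 1 ≤ M * s := by nlinarith
      nlinarith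
    omega
  calc 2 * (a * (M * s) + 1 + a ^ 2 * s) ^ 2 ≤ (2 * (a * (M * s) + 1 + a ^ 2 * s)) ^ 2 := by nlinarith
    _ ≤ (M * (a ^ 2 * s)) ^ 2 := Nat.pow_le_pow_left key 2

/-- `k` translated nests: outer disc `stair M (4^p s)`, inner disc `stair M s` -/
def nestCfg (M p s k : ℕ) (hM : 4 ≤ M) (hp : 4 ≤ p) (hs : 1 ≤ s) (x : Fin k → ℤ × ℤ) (D : Finset (ℤ × ℤ)) (Pn : Set (ℤ × ℤ))
    (hD : ∀ i, shift (x i) (sq (M * (4 ^ p * s))) ⊆ D)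
    (hdis : ∀ i j, i ≠ j → Disjoint (shift (x i) (sq (M * (4 ^ p * s)))) (shift (x j) (sq (M * (4 ^ p * s)))))
    (hPn : ∀ i, ∀ z ∈ shift (x i) (sq (M * (4 ^ p * s))), z ∉ Pn) : Cfg (Fin k) where
  D := D
  Pn := Pn
  N i := shift (x i) (S46.stair M (4 ^ p * s))
  C i := shift (x i) (S46.stair M s)
  In i := shift (x i) (sq (2 ^ p * (M * s)))
  G i := shift (x i) (S46.guard M p s)
  H i := ↑(shift (x i) (S46.endOut M p s))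
  o i := S46.gbase M p s + x i
  hND i := (shift_mono _ (stair_subset_sq M _)).trans (hD i)
  hdis i j hij := Finset.disjoint_of_subset_left (shift_mono _ (stair_subset_sq M _))
    (Finset.disjoint_of_subset_right (shift_mono _ (stair_subset_sq M _)) (hdis i j hij))
  hP i := by
    rw [Set.disjoint_left]
    intro z hz hz'
    exact hPn i z (shift_mono _ (stair_subset_sq M _) (by exact_mod_cast hz')) hz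
  hCIn i := shift_mono _ ((stair_subset_sq M s).trans (sq_mono (Nat.le_mul_of_pos_left _ (by positivity))))
  hInN i e he := by
    have h1 : ((e.1 - x i, e.2) : Bond).1 ∈ sq (2 ^ p * (M * s)) ∨ Bond.snd (e.1 - x i, e.2) ∈ sq (2 ^ p * (M * s)) := by
      rw [snd_sub]
      rcases he with h | h
      · exact Or.inl (mem_shift.1 h)
      · exact Or.inr (mem_shift.1 h)
    have h2 := touch_sq h1
    rw [snd_sub] at h2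
    exact ⟨mem_shift.2 (inner_sq_subset M p s hM hp hs h2.1), mem_shift.2 (inner_sq_subset M p s hM hp hs h2.2)⟩
  hGN i := shift_mono _ ((S46.guard_subset_ann M p s hM hp hs).trans Finset.sdiff_subset)
  hGIn i := by
    rw [Finset.disjoint_left]
    intro z hz hz'
    exact (Finset.mem_sdiff.1 (mem_shift.1 hz)).2 (mem_shift.1 hz')
  ho i := mem_shift.2 (by simpa using S46.gbase_mem_guard M p s hM hs)
  hGc i := oneComp_shift _ _ (S46.guard_oneComp M p s hM hs)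
  hsepG i e he := by
    have := S46.guard_separates M p s hM hs _ (bdry_shift he)
    rw [snd_sub] at this
    rcases this with h | h
    · exact Or.inl (mem_shift.2 h)
    · exact Or.inr (mem_shift.2 h)
  hHA i := by
    rw [shift_sdiff]
    exact_mod_cast shift_mono _ Finset.sdiff_subset
  hend i e he := by
    have := (S46.seam_endpoints M p s hM hp hs _ (bdry_shift he)).1
    rw [snd_sub] at this
    rw [shift_sdiff]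
    exact ⟨fun h => by exact_mod_cast mem_shift.2 (this.1 (mem_shift.1 h)), fun h => by exact_mod_cast mem_shift.2 (this.2 (mem_shift.1 h))⟩

theorem ZD_shift1 (b : ℝ) (x : ℤ × ℤ) (B G : Finset (ℤ × ℤ)) (u : ℤ × ℤ → ℤ) (σ T : Bond → ℤ) (hL : Loc σ x B T) :
    ZD b (shift x B) ∅ ∅ {↑(shift x G)} u σ = ZD b B ∅ ∅ {↑G} (fun v => u (v + x)) T := by
  have h := ZD_shift' b x B {↑G} u σ T hL
  rwa [Set.image_singleton, coe_shift] at h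

theorem ZD_shift0 (b : ℝ) (x : ℤ × ℤ) (B : Finset (ℤ × ℤ)) (σ T : Bond → ℤ) (hL : Loc σ x B T) :
    ZD b (shift x B) ∅ ∅ ∅ 0 σ = ZD b B ∅ ∅ ∅ 0 T := by
  have h := ZD_shift' b x B ∅ 0 σ T hL
  rwa [Set.image_empty] at h

theorem ZD_shift2 (b : ℝ) (x : ℤ × ℤ) (B H G : Finset (ℤ × ℤ)) :
    ZD b (shift x B) ∅ ∅ {↑(shift x H), ↑(shift x G)} 0 0 = ZD b B ∅ ∅ {↑H, ↑G} 0 0 := by
  have h := ZD_shift' b x B {↑H, ↑G} 0 0 0 (Loc_zero _ _)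
  rwa [Set.image_pair, coe_shift, coe_shift] at h

theorem Dbar_shift (b : ℝ) (x : ℤ × ℤ) (B H G : Finset (ℤ × ℤ)) :
    Dbar b (shift x B) ∅ ↑(shift x H) ↑(shift x G) = Dbar b B ∅ ↑H ↑G := by
  have h1 : ∀ G' : Finset (ℤ × ℤ), ZD b (shift x B) ∅ ∅ {↑(shift x G')} 0 0 = ZD b B ∅ ∅ {↑G'} 0 0 := fun G' =>
    ZD_shift1 b x B G' 0 0 0 (Loc_zero _ _)
  simp only [Dbar, pFlat, h1, ZD_shift2, ZD_shift0 b x B 0 0 (Loc_zero _ _)]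

theorem attach' : Attach := by
  intro b hb 𝔫 J hp hM hs0 k x D Pn τ T hD hdis hPn hSec hLoc hLG Db qq ρ hDb hqq hρ
  have hs : 1 ≤ 𝔫.s J := 𝔫.one_le_s hs0 J
  have hs1 : 𝔫.s (J + 1) = 4 ^ 𝔫.p * 𝔫.s J := 𝔫.s_succ J
  have hrad : 𝔫.rad (J + 1) = 𝔫.M * (4 ^ 𝔫.p * 𝔫.s J) := by rw [NP.rad, hs1]
  have hsub : sq (𝔫.M * (4 ^ 𝔫.p * 𝔫.s J)) ⊆ sq (𝔫.rad (J + 1) + 1) := by
    rw [hrad]
    exact sq_mono (Nat.le_succ _)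
  have hdisc1 : 𝔫.disc (J + 1) = S46.stair 𝔫.M (4 ^ 𝔫.p * 𝔫.s J) := by
    unfold NP.disc
    rw [hs1]
    rfl
  have hdisc : 𝔫.disc J = S46.stair 𝔫.M (𝔫.s J) := rfl
  set 𝔠 : Cfg (Fin k) := nestCfg 𝔫.M 𝔫.p (𝔫.s J) k hM hp hs x D Pn (fun i => (shift_mono _ hsub).trans (hD i))
    (fun i j hij => Finset.disjoint_of_subset_left (shift_mono _ hsub) (Finset.disjoint_of_subset_right (shift_mono _ hsub) (hdis i j hij)))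
    (fun i z hz => hPn i z (shift_mono _ hsub hz)) with h𝔠
  have hN : ∀ i, 𝔠.N i = shift (x i) (S46.stair 𝔫.M (4 ^ 𝔫.p * 𝔫.s J)) := fun i => rfl
  have hA : ∀ i, 𝔠.A i = shift (x i) (S46.ann 𝔫.M 𝔫.p (𝔫.s J)) := fun i => shift_sdiff _ _ _
  have hG : ∀ i, 𝔠.gd i = ↑(shift (x i) (S46.guard 𝔫.M 𝔫.p (𝔫.s J))) := fun i => rfl
  have hH : ∀ i, 𝔠.H i = ↑(shift (x i) (S46.endOut 𝔫.M 𝔫.p (𝔫.s J))) := fun i => rfl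
  have hannsub : S46.ann 𝔫.M 𝔫.p (𝔫.s J) ⊆ S46.stair 𝔫.M (4 ^ 𝔫.p * 𝔫.s J) := Finset.sdiff_subset
  have hDe : 𝔠.De = D \ uni x (𝔫.disc (J + 1)) := by
    rw [hdisc1]
    rfl
  have hDj : 𝔠.Dj = D \ uni x (𝔫.disc J) := rfl
  have hD' : 𝔠.D = D := rfl
  have hPn' : 𝔠.Pn = Pn := rfl
  rw [hdisc1] at hLoc
  have res := 𝔠.attach b hb τ ?_ (Real.exp (-(k : ℝ) * Db)) qq ρ ?_ ?_ ?_
  · simpa [Fintype.card_fin] using res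
  · intro σ hσ i u
    obtain ⟨T', hT', hL'⟩ : ∃ T', Sector (𝔫.rad (J + 1)) T' ∧ Loc σ (x i) (S46.stair 𝔫.M (4 ^ 𝔫.p * 𝔫.s J)) T' := by
      rcases hσ with rfl | rfl
      · exact ⟨T i, hSec i, hLoc i⟩
      · exact ⟨0, Or.inl rfl, Loc_zero _ _⟩
    have h := hLG T' hT' (fun v => u (v + x i))
    rw [gm_eq, gm_eq, hdisc1, ann_eq46, guard_eq46] at h
    rw [hN, hA, hG, ZD_shift1 b _ _ _ u σ T' hL', ZD_shift0 b _ _ σ T' hL', ZD_shift1 b _ _ _ u σ T' (hL'.mono hannsub),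
      ZD_shift0 b _ _ σ T' (hL'.mono hannsub)]
    exact h
  · congr 1
    have : ∀ i, Dbar b (𝔠.A i) ∅ (𝔠.H i) (𝔠.gd i) = Db := by
      intro i
      rw [hA, hH, hG, Dbar_shift, hDb, dFlat_out46 b hb]
    simp [this]
  · rw [hqq]
    have e1 : ∀ i, S46.Fsec b (𝔠.A i) ∅ ∅ τ = Phi b (𝔫.ann J) ∅ (T i) := by
      intro i
      rw [hA, ← Phi_eq_Fsec, ann_eq46]
      exact Phi_shift' b (x i) _ τ (T i) ((hLoc i).mono hannsub)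
    simp only [e1, ← Phi_eq_Fsec]
    rw [hDe, hDj, hPn']
  · rw [hρ]
    have e1 : ∀ i, S46.Fsec b (𝔠.N i) ∅ ∅ τ = Phi b (𝔫.disc (J + 1)) ∅ (T i) := by
      intro i
      rw [hN, ← Phi_eq_Fsec, hdisc1]
      exact Phi_shift' b (x i) _ τ (T i) (hLoc i)
    simp only [e1, ← Phi_eq_Fsec]
    rw [hDe, hD', hPn']

end

end Claimed.Agent.R285.F23
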