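import Claimed.Agent.R285.F3.Calc
import Claimed.Agent.R285.Read.S46
import Claimed.Agent.R285.TopC

/-!
# ROW 285, layer F3: BRIDGE between the vocabulary of `F3/Defs.lean` (`W`, `Phi`, `gm`, `dFlat`, `En`) and that of S46 (`ZD`, `Fsec`, `Dbar`, `Men`)   (owner helper12)     NO sorry in this file.
Consequences: `DFlatNonneg`, `FlatPin`, `LastGuardStmt`, `SectorAnn`, `PotAnn` from the contracts of S46.
-/

set_option autoImplicit false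

namespace Claimed.Agent.R285.F23

open Filter Topology Claims.C0459
open scoped Classical

noncomputable section

/-! ### the lattices -/

theorem W_eq_ZD (b : ℝ) (D : Finset (ℤ × ℤ)) (Λ : AddSubgroup ((domG D ∅).V → ℤ)) (P : Set (ℤ × ℤ)) (𝓕 : Set (Set (ℤ × ℤ)))
    (hΛ : Λ = S46.flatL (domG D ∅) (domSet P) (domSet '' 𝓕)) (u : ℤ × ℤ → ℤ) (τ : Bond → ℤ) :
    W b D Λ u τ = S46.ZD b D ∅ P 𝓕 u τ := by
  subst hΛ
  rfl

theorem pinL_eq (D : Finset (ℤ × ℤ)) (P : Set (ℤ × ℤ)) : pinL D P = S46.flatL (domG D ∅) (domSet P) (domSet '' ∅) := by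
  ext h
  constructor
  · intro hh
    exact ⟨hh, by simp⟩
  · intro hh
    exact hh.1

theorem top_eq (D : Finset (ℤ × ℤ)) : (⊤ : AddSubgroup ((domG D ∅).V → ℤ)) = S46.flatL (domG D ∅) (domSet ∅) (domSet '' ∅) := by
  ext h
  constructor
  · intro _
    exact ⟨fun v hv => absurd hv (Set.notMem_empty _), by simp⟩
  · intro _
    trivial

theorem flatL_eq (D : Finset (ℤ × ℤ)) (Pg : Set (ℤ × ℤ)) : flatL D Pg = S46.flatL (domG D ∅) (domSet ∅) (domSet '' {Pg}) := by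
  ext h
  constructor
  · intro hh
    refine ⟨fun v hv => absurd hv (Set.notMem_empty _), ?_⟩
    rintro F ⟨Q, hQ, rfl⟩
    rw [Set.mem_singleton_iff] at hQ
    subst hQ
    exact hh
  · intro hh
    exact hh.2 _ ⟨Pg, rfl, rfl⟩

theorem flatL2_eq (D : Finset (ℤ × ℤ)) (H Pg : Set (ℤ × ℤ)) :
    flatL D H ⊓ flatL D Pg = S46.flatL (domG D ∅) (domSet ∅) (domSet '' {H, Pg}) := by
  ext h
  constructor
  · rintro ⟨h1, h2⟩
    refine ⟨fun v hv => absurd hv (Set.notMem_empty _), ?_⟩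
    rintro F ⟨Q, hQ, rfl⟩
    rcases hQ with rfl | hQ
    · exact h1
    · rw [Set.mem_singleton_iff] at hQ
      subst hQ
      exact h2
  · intro hh
    exact ⟨hh.2 _ ⟨H, by simp, rfl⟩, hh.2 _ ⟨Pg, by simp, rfl⟩⟩

theorem W_pin (b : ℝ) (D : Finset (ℤ × ℤ)) (P : Set (ℤ × ℤ)) (u : ℤ × ℤ → ℤ) (τ : Bond → ℤ) :
    W b D (pinL D P) u τ = S46.ZD b D ∅ P ∅ u τ := W_eq_ZD b D _ P ∅ (pinL_eq D P) u τ

theorem W_top (b : ℝ) (D : Finset (ℤ × ℤ)) (u : ℤ × ℤ → ℤ) (τ : Bond → ℤ) :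
    W b D ⊤ u τ = S46.ZD b D ∅ ∅ ∅ u τ := W_eq_ZD b D _ ∅ ∅ (top_eq D) u τ

theorem W_flat (b : ℝ) (D : Finset (ℤ × ℤ)) (Pg : Set (ℤ × ℤ)) (u : ℤ × ℤ → ℤ) (τ : Bond → ℤ) :
    W b D (flatL D Pg) u τ = S46.ZD b D ∅ ∅ {Pg} u τ := W_eq_ZD b D _ ∅ {Pg} (flatL_eq D Pg) u τ

theorem W_flat2 (b : ℝ) (D : Finset (ℤ × ℤ)) (H Pg : Set (ℤ × ℤ)) (u : ℤ × ℤ → ℤ) (τ : Bond → ℤ) :
    W b D (flatL D H ⊓ flatL D Pg) u τ = S46.ZD b D ∅ ∅ {H, Pg} u τ := W_eq_ZD b D _ ∅ {H, Pg} (flatL2_eq D H Pg) u τ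

theorem Phi_eq_Fsec (b : ℝ) (D : Finset (ℤ × ℤ)) (P : Set (ℤ × ℤ)) (τ : Bond → ℤ) : Phi b D P τ = S46.Fsec b D ∅ P τ := by
  unfold Phi S46.Fsec
  rw [W_pin, W_pin]

theorem gm_eq (b : ℝ) (D : Finset (ℤ × ℤ)) (Pg : Set (ℤ × ℤ)) (τ : Bond → ℤ) (u : ℤ × ℤ → ℤ) :
    gm b D Pg τ u = S46.ZD b D ∅ ∅ {Pg} u τ / S46.ZD b D ∅ ∅ ∅ 0 τ := by
  unfold gm
  rw [W_flat, W_top]

theorem dFlat_eq_Dbar (b : ℝ) (hb : 0 < b) (D : Finset (ℤ × ℤ)) (H Pg : Set (ℤ × ℤ)) : dFlat b D H Pg = S46.Dbar b D ∅ H Pg := by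
  have p1 := W_pos b hb D (flatL D H ⊓ flatL D Pg) 0 0
  have p2 := W_pos b hb D ⊤ 0 0
  have p3 := W_pos b hb D (flatL D H) 0 0
  have p4 := W_pos b hb D (flatL D Pg) 0 0
  unfold dFlat S46.Dbar S46.pFlat
  rw [← W_flat2, ← W_top, ← W_flat, ← W_flat, Real.log_div (mul_pos p1 p2).ne' (mul_pos p3 p4).ne', Real.log_mul p1.ne' p2.ne',
    Real.log_mul p3.ne' p4.ne', Real.log_div p1.ne' p2.ne', Real.log_div p3.ne' p2.ne', Real.log_div p4.ne' p2.ne']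
  ring

theorem En_eq_Men (D : Finset (ℤ × ℤ)) (P : Set (ℤ × ℤ)) (τ : Bond → ℤ) : En D P τ = S46.Men D ∅ P τ := by
  have : ∀ Λ : AddSubgroup ((domG D ∅).V → ℤ), Λ = S46.flatL (domG D ∅) (domSet P) (domSet '' ∅) →
      (lawOf D Λ).gEn 1 (fun e => 2 * Real.pi * ((domFnE τ e : ℤ) : ℝ)) (fun o => Empty.elim o) = S46.Men D ∅ P τ := by
    intro Λ hΛ
    subst hΛ
    rfl
  exact this _ (pinL_eq D P)

/-- only the sites of `D` matter in a flat pin -/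
theorem flatL_congr (D : Finset (ℤ × ℤ)) {H H' : Set (ℤ × ℤ)} (h : ∀ z ∈ D, z ∈ H ↔ z ∈ H') : flatL D H = flatL D H' := by
  have : (domSet H : Set (domG D ∅).V) = domSet H' := by
    ext v
    exact h v.1 v.2
  unfold flatL
  rw [this]

theorem dFlat_congr (b : ℝ) (D : Finset (ℤ × ℤ)) {H H' Pg Pg' : Set (ℤ × ℤ)} (h : ∀ z ∈ D, z ∈ H ↔ z ∈ H')
    (h' : ∀ z ∈ D, z ∈ Pg ↔ z ∈ Pg') : dFlat b D H Pg = dFlat b D H' Pg' := by
  unfold dFlat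
  rw [flatL_congr D h, flatL_congr D h']

theorem En_congr (D : Finset (ℤ × ℤ)) (P : Set (ℤ × ℤ)) (τ τ' : Bond → ℤ)
    (h : ∀ e : Bond, e.1 ∈ D → e.snd ∈ D → τ e = τ' e) : En D P τ = En D P τ' := by
  have : (domFnE τ : (domG D ∅).E → ℤ) = domFnE τ' := by
    funext e
    have he := mem_domBonds.1 e.2
    exact h _ he.1 he.2
  unfold En
  rw [this]

/-! ### the geometry -/

theorem sq_eq (n : ℕ) : sq n = S46.sq n := rfl
theorem stair_eq (M s : ℕ) : stair M s = S46.stair M s := rfl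

theorem ann_eq46 (𝔫 : NP) (J : ℕ) : 𝔫.ann J = S46.ann 𝔫.M 𝔫.p (𝔫.s J) := 𝔫.ann_eq J

theorem guard_eq46 (𝔫 : NP) (J : ℕ) : 𝔫.guard J = ↑(S46.guard 𝔫.M 𝔫.p (𝔫.s J)) := by
  unfold NP.guard S46.guard
  rw [Finset.coe_sdiff]
  rfl

/-- on the staircase disc of radius `M s` the ray to the right is the half line -/
theorem rayR_eq_ray (ρ : ℕ) {e : Bond} (he : e.1 ∈ sq ρ) : rayR ρ e = S46.ray e := by
  have h1 := (mem_sq.1 he).1.2
  simp only [rayR, segConn, S46.ray, zero_add]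
  congr 1
  apply propext
  constructor
  · rintro ⟨a, c, d, _⟩
    exact ⟨a, by omega, d⟩
  · rintro ⟨a, c, d⟩
    exact ⟨a, by omega, d, h1⟩

/-! ### more calculus of `W` -/

/-- only `∇u + τ` on the bonds of `D` matters -/
theorem W_congr2 (b : ℝ) (D : Finset (ℤ × ℤ)) (Λ : AddSubgroup ((domG D ∅).V → ℤ)) (u u' : ℤ × ℤ → ℤ) (τ τ' : Bond → ℤ)
    (h : ∀ e : Bond, e.1 ∈ D → e.snd ∈ D → u e.snd - u e.1 + τ e = u' e.snd - u' e.1 + τ' e) : W b D Λ u τ = W b D Λ u' τ' := by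
  unfold W
  congr 1
  apply Prod.ext
  · funext e
    have he := mem_domBonds.1 e.2
    exact h _ he.1 he.2
  · funext o
    exact isEmptyElim (α := Empty) o

/-- data in the constraint lattice can be removed -/
theorem W_reindex (b : ℝ) (D : Finset (ℤ × ℤ)) (Λ : AddSubgroup ((domG D ∅).V → ℤ)) (u g : ℤ × ℤ → ℤ) (τ : Bond → ℤ)
    (hg : (domFn g : (domG D ∅).V → ℤ) ∈ Λ) : W b D Λ (u + g) τ = W b D Λ u τ := by
  unfold W
  rw [← lsys_gauge _ (HLaw.Aff.amb (H := lawOf D Λ) ⟨domFn u, domFnE τ, fun o => Empty.elim o⟩ b)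
    ⟨(lawOf D Λ).coordA b (domFn g), HLaw.coordA_mem _ b hg⟩]
  congr 1
  apply Prod.ext
  · funext e
    show (u + g) _ - (u + g) _ + τ _ = (u _ - u _ + τ _) + (g _ - g _)
    simp only [Pi.add_apply]
    ring
  · funext o
    exact isEmptyElim (α := Empty) o

/-- the indicator of the upper half plane -/
def upper : ℤ × ℤ → ℤ := fun z => if 0 ≤ z.2 then 1 else 0

theorem rayL_eq (ρ : ℕ) {e : Bond} (he : e.1 ∈ sq ρ) : rayL ρ e = upper e.snd - upper e.1 + ((-1 : ℤ) • S46.ray) e := by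
  have h1 := (mem_sq.1 he).1.1
  obtain ⟨⟨a, c⟩, d⟩ := e
  simp only at h1
  cases d
  · simp only [rayL, segConn, S46.ray, upper, Bond.snd, Pi.smul_apply, smul_eq_mul, Bool.false_eq_true, if_false, true_and]
    by_cases h2 : c = -1
    · subst h2
      by_cases h3 : 0 ≤ a
      · have : ¬ (a < -(ρ : ℤ) + ρ) := by omega
        simp [h3, this]
      · have : a < -(ρ : ℤ) + ρ := by omega
        simp [h3, this, h1]
    · have h4 : ¬ (c + 1 = 0) := by omega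
      by_cases h5 : 0 ≤ c
      · have : 0 ≤ c + 1 := by omega
        simp [h2, h4, h5, this]
      · have : ¬ (0 ≤ c + 1) := by omega
        simp [h2, h4, h5, this]
  · simp [rayL, segConn, S46.ray, upper, Bond.snd]

/-- the three sectors in the vocabulary of S46 -/
theorem gm_sector (b : ℝ) (D : Finset (ℤ × ℤ)) (Pg : Set (ℤ × ℤ)) (ρ : ℕ) (hD : D ⊆ sq ρ) (T : Bond → ℤ) (hT : Sector ρ T)
    (u : ℤ × ℤ → ℤ) : ∃ (q : ℤ) (x : ℤ × ℤ → ℤ), (q = 0 ∨ q = 1 ∨ q = -1) ∧ ∀ D' : Finset (ℤ × ℤ), D' ⊆ D →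
      gm b D' Pg T u = S46.ZD b D' ∅ ∅ {Pg} x (q • S46.ray) / S46.ZD b D' ∅ ∅ ∅ 0 (q • S46.ray) := by
  rcases hT with rfl | rfl | rfl
  · refine ⟨0, u, Or.inl rfl, fun D' _ => ?_⟩
    rw [gm_eq, zero_smul]
  · refine ⟨1, u, Or.inr (Or.inl rfl), fun D' hD' => ?_⟩
    rw [← gm_eq, one_smul]
    unfold gm
    rw [W_congr b D' _ u _ _ (fun e he _ => rayR_eq_ray ρ (hD (hD' he))), W_congr b D' _ 0 _ _ (fun e he _ => rayR_eq_ray ρ (hD (hD' he)))]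
  · refine ⟨-1, u + upper, Or.inr (Or.inr rfl), fun D' hD' => ?_⟩
    rw [← gm_eq]
    unfold gm
    congr 1
    · apply W_congr2
      intro e he _
      rw [rayL_eq ρ (hD (hD' he))]
      simp only [Pi.add_apply]
      ring
    · rw [← W_reindex b D' ⊤ 0 upper ((-1 : ℤ) • S46.ray) (AddSubgroup.mem_top _)]
      apply W_congr2
      intro e he _
      rw [rayL_eq ρ (hD (hD' he))]
      simp only [Pi.add_apply, Pi.zero_apply]
      ring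

/-! ### consequences -/

theorem NP.s_eq46 (𝔫 : NP) (J : ℕ) : 𝔫.s J = 4 ^ (𝔫.p * J) * 𝔫.s0 := by
  simp only [NP.s, NP.lam, pow_mul]
  ring

theorem NP.one_le_s (𝔫 : NP) (hs : 1 ≤ 𝔫.s0) (J : ℕ) : 1 ≤ 𝔫.s J := hs.trans (𝔫.s_ge J)

theorem dFlat_out46 (b : ℝ) (hb : 0 < b) (𝔫 : NP) (J : ℕ) : dFlat b (𝔫.ann J) (𝔫.endOut J) (𝔫.guard J)
    = S46.Dbar b (S46.ann 𝔫.M 𝔫.p (𝔫.s J)) ∅ ↑(S46.endOut 𝔫.M 𝔫.p (𝔫.s J)) ↑(S46.guard 𝔫.M 𝔫.p (𝔫.s J)) := by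
  rw [← dFlat_eq_Dbar b hb, ← ann_eq46, ← guard_eq46]
  refine dFlat_congr b _ (fun z hz => ?_) (fun _ _ => Iff.rfl)
  rw [ann_eq46] at hz
  simp only [NP.endOut, S46.endOut, Set.mem_compl_iff, Finset.mem_coe, Finset.mem_sdiff, hz, true_and]
  rfl

theorem dFlat_in46 (b : ℝ) (hb : 0 < b) (𝔫 : NP) (J : ℕ) : dFlat b (𝔫.ann J) (𝔫.endIn J) (𝔫.guard J)
    = S46.Dbar b (S46.ann 𝔫.M 𝔫.p (𝔫.s J)) ∅ ↑(S46.endIn 𝔫.M 𝔫.p (𝔫.s J)) ↑(S46.guard 𝔫.M 𝔫.p (𝔫.s J)) := by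
  rw [← dFlat_eq_Dbar b hb, ← ann_eq46, ← guard_eq46]
  refine dFlat_congr b _ (fun z hz => ?_) (fun _ _ => Iff.rfl)
  rw [ann_eq46] at hz
  simp only [NP.endIn, S46.endIn, Finset.mem_coe, Finset.mem_inter, hz, true_and]
  rfl

theorem domBonds_mono {D D' : Finset (ℤ × ℤ)} (h : D ⊆ D') : domBonds D ∅ ⊆ domBonds D' ∅ := by
  intro e he
  have := mem_domBonds.1 he
  exact mem_domBonds.2 ⟨h this.1, h this.2⟩

theorem dFlat_nonneg' : DFlatNonneg := by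
  intro b hb 𝔫 J hp hM hs
  rw [dFlat_out46 b hb]
  refine S46.Dbar_nonneg b hb _ ∅ _ _ ?_
  exact (S46.guard_oneComp 𝔫.M 𝔫.p (𝔫.s J) hM (𝔫.one_le_s hs J)).mono
    (domBonds_mono (S46.guard_subset_ann 𝔫.M 𝔫.p (𝔫.s J) hM hp (𝔫.one_le_s hs J))) Set.inter_subset_left

theorem aLim_crit_pos : 0 < aLim xyCritical := by
  rw [aLim_critical]
  positivity

theorem flat_pin' : FlatPin := by
  intro M hM δ hδ
  obtain ⟨l0, h⟩ := S46.flat_interaction xyCritical xy_critical_pos aLim_crit_pos M hM δ hδ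
  refine ⟨l0, fun p hp => ?_⟩
  obtain ⟨s0, hs0⟩ := h p hp
  filter_upwards [eventually_ge_atTop s0] with s hs
  have := hs0 s hs
  have e : (⟨M, p, s⟩ : NP).s 0 = s := by simp [NP.s]
  rw [dFlat_out46 _ xy_critical_pos, dFlat_in46 _ xy_critical_pos, e]
  exact ⟨this.2, this.1⟩

theorem last_guard' : LastGuardStmt := by
  obtain ⟨M0, h⟩ := S46.average_loss xyCritical xy_critical_pos aLim_crit_pos (1 / 128) (by norm_num)
  refine ⟨max M0 4, fun M hM => ?_⟩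
  obtain ⟨l0, h⟩ := h M (le_of_max_le_left hM)
  refine ⟨max l0 4, fun p hp => ?_⟩
  obtain ⟨s1, h⟩ := h p (le_of_max_le_left hp)
  refine ⟨max s1 1, fun s0 hs0 => ?_⟩
  have hM4 : 4 ≤ M := le_of_max_le_right hM
  have hp4 : 4 ≤ p := le_of_max_le_right hp
  have hs1 : 1 ≤ s0 := le_of_max_le_right hs0
  have hloss : ∀ q : ℤ, (q = 0 ∨ q = 1 ∨ q = -1) → ∀ i : ℕ, 1 - S46.avgK xyCritical M p (4 ^ (p * i) * s0) q ≤ 1 / 128 := by
    intro q hq i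
    refine h _ ?_ q hq
    calc s1 ≤ s0 := le_of_max_le_left hs0
      _ ≤ 4 ^ (p * i) * s0 := Nat.le_mul_of_pos_left _ (by positivity)
  obtain ⟨N0, hN0⟩ := S46.last_guard xyCritical xy_critical_pos M p s0 hM4 hp4 hs1 (1 / 128) (by norm_num) 0 (hloss 0 (by simp))
  obtain ⟨N1, hN1⟩ := S46.last_guard xyCritical xy_critical_pos M p s0 hM4 hp4 hs1 (1 / 128) (by norm_num) 1 (hloss 1 (by simp))
  obtain ⟨N2, hN2⟩ := S46.last_guard xyCritical xy_critical_pos M p s0 hM4 hp4 hs1 (1 / 128) (by norm_num) (-1)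
    (hloss (-1) (by simp))
  refine ⟨max N0 (max N1 N2), fun J hJ T hT u => ?_⟩
  have hJ0 : N0 ≤ J := le_of_max_le_left hJ
  have hJ1 : N1 ≤ J := le_of_max_le_left (le_of_max_le_right hJ)
  have hJ2 : N2 ≤ J := le_of_max_le_right (le_of_max_le_right hJ)
  set 𝔫 : NP := ⟨M, p, s0⟩ with h𝔫
  obtain ⟨q, x, hq, hgm⟩ := gm_sector xyCritical (𝔫.disc (J + 1)) (𝔫.guard J) (𝔫.rad (J + 1)) (stair_subset_sq _ _) T hT u
  rw [hgm _ (Finset.Subset.refl _), hgm (𝔫.ann J) Finset.sdiff_subset, guard_eq46, ann_eq46]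
  have e1 : 𝔫.s J = 4 ^ (p * J) * s0 := 𝔫.s_eq46 J
  have e2 : 𝔫.disc (J + 1) = S46.stair M (4 ^ (p * (J + 1)) * s0) := by
    show stair M (𝔫.s (J + 1)) = _
    rw [𝔫.s_eq46 (J + 1)]
    rfl
  rw [e1, e2]
  rcases hq with rfl | rfl | rfl
  · exact hN0 J hJ0 x
  · exact hN1 J hJ1 x
  · exact hN2 J hJ2 x

theorem sector_ann' : SectorAnn := by
  intro M p hM hp
  have := S46.ann_sector1 xyCritical xy_critical_pos aLim_crit_pos M p hM hp 1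
  refine this.congr fun s => ?_
  have hsub : ∀ e : Bond, e.1 ∈ stair M (4 ^ p * s) \ stair M s → e.snd ∈ stair M (4 ^ p * s) \ stair M s →
      rayR (M * (4 ^ p * s)) e = S46.ray e :=
    fun e he _ => rayR_eq_ray _ (stair_subset_sq _ _ (Finset.mem_sdiff.1 he).1)
  unfold secDef
  rw [Phi_congr' xyCritical _ ∅ _ _ hsub, En_congr _ ∅ _ _ hsub, Phi_eq_Fsec, En_eq_Men, one_smul, aLim_critical]
  show _ = -2 * Real.log (S46.Fsec xyCritical (S46.ann M p s) ∅ ∅ S46.ray) - S46.Men (S46.ann M p s) ∅ ∅ S46.ray / (8 * Real.pi)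
  rw [div_eq_inv_mul]

theorem pot_ann' : PotAnn := by
  obtain ⟨C, hC⟩ := S46.ann_energy
  refine ⟨C, fun M p hM hp => ?_⟩
  obtain ⟨s0, hs0⟩ := hC M hM p hp
  filter_upwards [eventually_ge_atTop s0] with s hs
  have hsub : ∀ e : Bond, e.1 ∈ stair M (4 ^ p * s) \ stair M s → e.snd ∈ stair M (4 ^ p * s) \ stair M s →
      rayR (M * (4 ^ p * s)) e = S46.ray e :=
    fun e he _ => rayR_eq_ray _ (stair_subset_sq _ _ (Finset.mem_sdiff.1 he).1)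
  rw [En_congr _ ∅ _ _ hsub, En_eq_Men]
  have := hs0 s hs
  push_cast
  exact this

end

end Claimed.Agent.R285.F23
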