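import Claimed.Agent.R285.F3.Defs

set_option autoImplicit false

/-!
# ROW 285, [F]P3.1: the three outputs from `NestStmt`   (owner helper12)      NO sorry in this file.
`f3_center_unif` (locally uniform regular variation of `M_n`), `f3_geometry_center` (= `geometry_center` of Top.lean), `f3_geometry_bulk` (= `geometry_bulk`), `f3_center_rough` (`M_n = n^{-1/8+o(1)}`).
-/


namespace Claimed.Agent.R285.F23

open Filter Topology Claims.C0459

/-- a geometric sequence meets every interval `[x, lam x]`, `x ≥ ϱ 0` -/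
theorem f3_pick (lam : ℕ) (ϱ : ℕ → ℕ) (hl : 2 ≤ lam) (h0 : 0 < ϱ 0) (hϱ : ∀ J, ϱ (J + 1) = lam * ϱ J) (x : ℝ)
    (hx : (ϱ 0 : ℝ) ≤ x) : ∃ J, x ≤ ϱ J ∧ (ϱ J : ℝ) ≤ lam * x := by
  have hge : ∀ J, J ≤ ϱ J := by
    intro J
    induction J with
    | zero => exact Nat.zero_le _
    | succ J ih =>
      rw [hϱ]
      have h1 : 0 < ϱ J := by
        clear ih
        induction J with
        | zero => exact h0
        | succ J ih => rw [hϱ]; positivity
      nlinarith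
  have hex : ∃ J, x ≤ ϱ J := by
    obtain ⟨N, hN⟩ := exists_nat_ge x
    exact ⟨N, hN.trans (by exact_mod_cast hge N)⟩
  classical
  have hsp := Nat.find_spec hex
  refine ⟨Nat.find hex, hsp, ?_⟩
  have hl1 : (1 : ℝ) ≤ lam := by exact_mod_cast (by omega : 1 ≤ lam)
  have hx0 : 0 ≤ x := le_trans (Nat.cast_nonneg _) hx
  rcases Nat.eq_zero_or_pos (Nat.find hex) with h | h
  · rw [h]
    calc (ϱ 0 : ℝ) ≤ x := hx
      _ ≤ lam * x := by nlinarith
  · obtain ⟨m, hm⟩ : ∃ m, Nat.find hex = m + 1 := ⟨Nat.find hex - 1, by omega⟩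
    have h2 := Nat.find_min hex (m := m) (by omega)
    rw [hm, hϱ]
    push_cast
    have h3 : (ϱ m : ℝ) ≤ x := (not_le.1 h2).le
    exact mul_le_mul_of_nonneg_left h3 (by linarith)

/-- locally uniform regular variation of the centre magnetisation -/
theorem f3_center_unif (hNest : NestStmt) (δ : ℝ) (hδ : 0 < δ) (K : ℝ) (hK : 1 ≤ K) : ∀ᶠ n : ℕ in atTop, ∀ n' : ℕ, n ≤ n' → (n' : ℝ) ≤ K * n →
    |Real.log (centerMag xyCritical n') - Real.log (centerMag xyCritical n) + Real.log ((n' : ℝ) / n) / 8| ≤ δ := by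
  obtain ⟨κ, h⟩ := hNest
  obtain ⟨lam, ϱ, 𝒩, c₁, c₂, hl, h0, hϱ, hc1, hc, hev⟩ := h (δ / 2) (by linarith) K hK
  obtain ⟨N, hN⟩ := eventually_atTop.1 hev
  obtain ⟨N1, hN1⟩ := exists_nat_ge ((ϱ 0 : ℝ) / c₁)
  filter_upwards [eventually_ge_atTop (max (max N N1) 1)] with n hn n' hnn' hn'K
  have hnN : N ≤ n := le_trans (le_trans (le_max_left _ _) (le_max_left _ _)) hn
  have hnN1 : N1 ≤ n := le_trans (le_trans (le_max_right _ _) (le_max_left _ _)) hn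
  have hn1 : 1 ≤ n := le_trans (le_max_right _ _) hn
  have hnpos : (0 : ℝ) < n := by exact_mod_cast hn1
  have hn'pos : (0 : ℝ) < n' := lt_of_lt_of_le hnpos (by exact_mod_cast hnn')
  have hnn'R : (n : ℝ) ≤ n' := by exact_mod_cast hnn'
  have hlpos : (0 : ℝ) < lam := by exact_mod_cast (by omega : 0 < lam)
  have hx : (ϱ 0 : ℝ) ≤ c₁ * n' := by
    have h1 : (ϱ 0 : ℝ) / c₁ ≤ n := hN1.trans (by exact_mod_cast hnN1)
    rw [div_le_iff₀ hc1] at h1
    nlinarith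
  obtain ⟨J, hJ1, hJ2⟩ := f3_pick lam ϱ hl h0 hϱ _ hx
  have hϱpos : (0 : ℝ) < ϱ J := lt_of_lt_of_le (by positivity) hJ1
  have hup : (ϱ J : ℝ) ≤ c₂ * n := by
    calc (ϱ J : ℝ) ≤ lam * (c₁ * n') := hJ2
      _ ≤ lam * (c₁ * (K * n)) := by gcongr
      _ = K * lam * c₁ * n := by ring
      _ ≤ c₂ * n := by gcongr
  have hc2 : 0 ≤ c₂ := le_trans (by positivity) hc
  have a1 := (hN n hnN J (le_trans (by gcongr) hJ1) hup).1
  have a2 := (hN n' (hnN.trans hnn') J hJ1 (hup.trans (by gcongr))).1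
  have e : Real.log ((n' : ℝ) / n) = Real.log ((n' : ℝ) / ϱ J) - Real.log ((n : ℝ) / ϱ J) := by
    rw [Real.log_div hn'pos.ne' hnpos.ne', Real.log_div hn'pos.ne' hϱpos.ne', Real.log_div hnpos.ne' hϱpos.ne']
    ring
  rw [e]
  rw [abs_le] at a1 a2 ⊢
  constructor <;> linarith [a1.1, a1.2, a2.1, a2.2]

/-- **[F] (3.1)** = `geometry_center` of Top.lean -/
theorem f3_geometry_center (hNest : NestStmt) (hpos : ∀ n, 0 < centerMag xyCritical n) (d : ℝ) (hd : 0 < d) (n n' : ℕ → ℕ) (h1 : Tendsto n atTop atTop)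
    (h2 : Tendsto (fun k => (n' k : ℝ) / n k) atTop (𝓝 d)) :
    Tendsto (fun k => centerMag xyCritical (n' k) / centerMag xyCritical (n k)) atTop
      (𝓝 (d ^ (-(1 / 8) : ℝ))) := by
  -- the logarithms
  have key : Tendsto (fun k => Real.log (centerMag xyCritical (n' k)) - Real.log (centerMag xyCritical (n k))
      + Real.log ((n' k : ℝ) / n k) / 8) atTop (𝓝 0) := by
    rw [Metric.tendsto_nhds]
    intro ε hε
    set K : ℝ := max (2 * d) (2 / d) + 1 with hKdef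
    have hK1 : 1 ≤ K := by
      have : 0 < max (2 * d) (2 / d) := lt_of_lt_of_le (by positivity) (le_max_left _ _)
      linarith
    have hU := f3_center_unif hNest (ε / 2) (by linarith) K hK1
    have hlo : ∀ᶠ k in atTop, d / 2 < (n' k : ℝ) / n k := h2.eventually (lt_mem_nhds (by linarith))
    have hhi : ∀ᶠ k in atTop, (n' k : ℝ) / n k < 2 * d := h2.eventually (gt_mem_nhds (by linarith))
    have hn1 : ∀ᶠ k in atTop, 1 ≤ n k := h1.eventually (eventually_ge_atTop 1)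
    -- `n' → ∞`
    have h1' : Tendsto n' atTop atTop := by
      rw [tendsto_atTop]
      intro B
      obtain ⟨B', hB'⟩ := exists_nat_ge ((B : ℝ) / (d / 2))
      filter_upwards [hlo, h1.eventually (eventually_ge_atTop (max B' 1))] with k hk hk2
      have hnk : (0 : ℝ) < n k := by exact_mod_cast lt_of_lt_of_le one_pos (le_trans (le_max_right _ _) hk2)
      rw [lt_div_iff₀ hnk] at hk
      have h3 : (B : ℝ) / (d / 2) ≤ n k := hB'.trans (by exact_mod_cast le_trans (le_max_left _ _) hk2)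
      rw [div_le_iff₀ (by positivity)] at h3
      have : (B : ℝ) < n' k := by nlinarith
      exact_mod_cast this.le
    filter_upwards [hlo, hhi, hn1, h1.eventually hU, h1'.eventually hU] with k hk1 hk2 hk3 hk4 hk5
    have hnk : (0 : ℝ) < n k := by exact_mod_cast hk3
    have hn'k : (0 : ℝ) < n' k := by
      rw [lt_div_iff₀ hnk] at hk1
      nlinarith
    rw [Real.dist_eq, sub_zero]
    rcases le_total (n k) (n' k) with hle | hle
    · have := hk4 (n' k) hle (by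
        rw [div_lt_iff₀ hnk] at hk2
        have : 2 * d ≤ K := le_trans (le_max_left _ _) (by linarith)
        nlinarith)
      linarith
    · have := hk5 (n k) hle (by
        rw [lt_div_iff₀ hnk] at hk1
        have h4 : 2 / d ≤ K := le_trans (le_max_right _ _) (by linarith)
        have h5 : (n k : ℝ) ≤ 2 / d * n' k := by
          rw [div_mul_eq_mul_div, le_div_iff₀ hd]
          nlinarith
        nlinarith)
      have e : Real.log ((n k : ℝ) / n' k) = - Real.log ((n' k : ℝ) / n k) := by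
        rw [← Real.log_inv, inv_div]
      rw [e] at this
      rw [abs_le] at this
      rw [abs_lt]
      constructor <;> linarith [this.1, this.2]
  have hlog : Tendsto (fun k => Real.log ((n' k : ℝ) / n k)) atTop (𝓝 (Real.log d)) :=
    (Real.continuousAt_log hd.ne').tendsto.comp h2
  have h3 : Tendsto (fun k => Real.log (centerMag xyCritical (n' k)) - Real.log (centerMag xyCritical (n k))) atTop
      (𝓝 (-(1 / 8) * Real.log d)) := by
    have := key.sub (hlog.div_const 8)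
    simp only [add_sub_cancel_right, zero_sub] at this
    convert this using 2
    ring
  have h4 := (Real.continuous_exp.tendsto _).comp h3
  rw [Real.rpow_def_of_pos hd, mul_comm (Real.log d)]
  refine h4.congr fun k => ?_
  simp only [Function.comp]
  rw [Real.exp_sub, Real.exp_log (hpos _), Real.exp_log (hpos _)]

/-- **[F] (3.2)** = `geometry_bulk` of Top.lean -/
theorem f3_geometry_bulk (hNest : NestStmt) (hpos : ∀ n, 0 < centerMag xyCritical n)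
    (hC : ∀ r : ℕ, 1 ≤ r → 0 < xyCorr xyCritical r) : ∃ c : ℝ, 0 < c ∧
    Tendsto (fun r : ℕ => xyCorr xyCritical r / centerMag xyCritical r ^ 2) atTop (𝓝 c) := by
  obtain ⟨κ, h⟩ := hNest
  refine ⟨Real.exp (2 * κ), Real.exp_pos _, ?_⟩
  have key : Tendsto (fun r : ℕ => Real.log (xyCorr xyCritical r) - 2 * Real.log (centerMag xyCritical r)) atTop
      (𝓝 (2 * κ)) := by
    rw [Metric.tendsto_nhds]
    intro ε hε
    obtain ⟨lam, ϱ, 𝒩, c₁, c₂, hl, h0, hϱ, hc1, hc, hev⟩ := h (ε / 4) (by linarith) 1 le_rfl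
    obtain ⟨N1, hN1⟩ := exists_nat_ge ((ϱ 0 : ℝ) / c₁)
    filter_upwards [hev, eventually_ge_atTop (max N1 1)] with r hr hr2
    have hrpos : (0 : ℝ) < r := by exact_mod_cast lt_of_lt_of_le one_pos (le_trans (le_max_right _ _) hr2)
    have hx : (ϱ 0 : ℝ) ≤ c₁ * r := by
      have h1 : (ϱ 0 : ℝ) / c₁ ≤ r := hN1.trans (by exact_mod_cast le_trans (le_max_left _ _) hr2)
      rw [div_le_iff₀ hc1] at h1
      linarith
    obtain ⟨J, hJ1, hJ2⟩ := f3_pick lam ϱ hl h0 hϱ _ hx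
    have hup : (ϱ J : ℝ) ≤ c₂ * r := by
      calc (ϱ J : ℝ) ≤ lam * (c₁ * r) := hJ2
        _ = 1 * lam * c₁ * r := by ring
        _ ≤ c₂ * r := by gcongr
    obtain ⟨a1, a2⟩ := hr J hJ1 hup
    rw [Real.dist_eq, abs_lt]
    rw [abs_le] at a1 a2
    constructor <;> linarith [a1.1, a1.2, a2.1, a2.2]
  have h4 := (Real.continuous_exp.tendsto _).comp key
  refine h4.congr' ?_
  filter_upwards [eventually_ge_atTop 1] with r hr
  have hC : 0 < xyCorr xyCritical r := hC r hr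
  simp only [Function.comp]
  rw [Real.exp_sub, Real.exp_log hC, two_mul, Real.exp_add, Real.exp_log (hpos _), pow_two]

/-- **[F]P3.1, last line**: `M_n = n^{-1/8+o(1)}` -/
theorem f3_center_rough (hNest : NestStmt) :
    Tendsto (fun n : ℕ => Real.log (centerMag xyCritical n) / Real.log n) atTop (𝓝 (-(1 / 8))) := by
  set f : ℕ → ℝ := fun n => Real.log (centerMag xyCritical n) + Real.log n / 8 with hf
  have key : Tendsto (fun n : ℕ => f n / Real.log n) atTop (𝓝 0) := by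
    rw [Metric.tendsto_nhds]
    intro ε hε
    set δ : ℝ := ε / 4 with hδdef
    have hδ : 0 < δ := by positivity
    obtain ⟨N0, hN0⟩ := eventually_atTop.1 (f3_center_unif hNest δ hδ 3 (by norm_num))
    set N : ℕ := max N0 1 with hN
    have hN1 : 1 ≤ N := le_max_right _ _
    have step : ∀ n n' : ℕ, N ≤ n → n ≤ n' → n' ≤ 3 * n → |f n' - f n| ≤ δ := by
      intro n n' h1 h2 h3
      have hnpos : (0 : ℝ) < n := by exact_mod_cast lt_of_lt_of_le one_pos (hN1.trans h1)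
      have hn'pos : (0 : ℝ) < n' := lt_of_lt_of_le hnpos (by exact_mod_cast h2)
      have := hN0 n ((le_max_left _ _).trans h1) n' h2 (by exact_mod_cast h3)
      rw [Real.log_div hn'pos.ne' hnpos.ne'] at this
      have e : f n' - f n = Real.log (centerMag xyCritical n') - Real.log (centerMag xyCritical n)
          + (Real.log n' - Real.log n) / 8 := by
        simp only [hf]; ring
      rw [e]; exact this
    have bound : ∀ n : ℕ, N ≤ n → |f n - f N| ≤ δ * (Nat.log 2 n + 1) := by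
      intro n
      induction n using Nat.strong_induction_on with
      | _ n ih =>
        intro hn
        rcases lt_or_ge n (2 * N) with h | h
        · have := step N n le_rfl hn (by omega)
          have h0 : (0 : ℝ) ≤ Nat.log 2 n := Nat.cast_nonneg _
          nlinarith
        · have hm : N ≤ n / 2 := by omega
          have h1 := ih (n / 2) (by omega) hm
          have h2 := step (n / 2) n hm (Nat.div_le_self _ _) (by omega)
          have h3 : Nat.log 2 n = Nat.log 2 (n / 2) + 1 := by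
            rw [Nat.log_div_base]
            have : 1 ≤ Nat.log 2 n := Nat.log_pos (by norm_num) (by omega)
            omega
          rw [h3]
          push_cast
          have h4 : |f n - f N| ≤ |f n - f (n / 2)| + |f (n / 2) - f N| := by
            have := abs_add_le (f n - f (n / 2)) (f (n / 2) - f N)
            simpa using this
          linarith
    have hlogT : Tendsto (fun n : ℕ => Real.log n) atTop atTop := Real.tendsto_log_atTop.comp tendsto_natCast_atTop_atTop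
    filter_upwards [eventually_ge_atTop (max N 2), hlogT.eventually (eventually_ge_atTop ((|f N| + δ) / δ + 1))] with n hn hlg
    have hnN : N ≤ n := (le_max_left _ _).trans hn
    have hn2 : 2 ≤ n := (le_max_right _ _).trans hn
    have hb := bound n hnN
    have hlogpos : 0 < Real.log n := lt_of_lt_of_le (by positivity) hlg
    have hnl : (Nat.log 2 n : ℝ) ≤ Real.log n / Real.log 2 := by
      rw [le_div_iff₀ (Real.log_pos (by norm_num))]
      have h1 : (2 : ℝ) ^ Nat.log 2 n ≤ n := by exact_mod_cast Nat.pow_log_le_self 2 (by omega)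
      have h2 := Real.log_le_log (by positivity) h1
      rwa [Real.log_pow] at h2
    have hl2 : (1 : ℝ) / 2 < Real.log 2 := by
      have := Real.log_two_gt_d9
      norm_num at this ⊢
      linarith
    have hnl2 : (Nat.log 2 n : ℝ) ≤ 2 * Real.log n := by
      refine hnl.trans ?_
      rw [div_le_iff₀ (by linarith)]
      nlinarith
    have h5 : |f n| ≤ |f N| + δ * (Nat.log 2 n + 1) := by
      have := abs_add_le (f n - f N) (f N)
      simp only [sub_add_cancel] at this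
      linarith
    have h6 : |f N| + δ ≤ δ * Real.log n := by
      have : (|f N| + δ) / δ ≤ Real.log n := by linarith
      rw [div_le_iff₀ hδ] at this
      linarith
    rw [Real.dist_eq, sub_zero, abs_div, abs_of_pos hlogpos, div_lt_iff₀ hlogpos]
    have h7 : δ * (Nat.log 2 n : ℝ) ≤ δ * (2 * Real.log n) := by gcongr
    calc |f n| ≤ |f N| + δ * (Nat.log 2 n + 1) := h5
      _ = (|f N| + δ) + δ * (Nat.log 2 n : ℝ) := by ring
      _ ≤ δ * Real.log n + δ * (2 * Real.log n) := by linarith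
      _ = 3 * δ * Real.log n := by ring
      _ < ε * Real.log n := by
        have : 3 * δ < ε := by rw [hδdef]; linarith
        exact mul_lt_mul_of_pos_right this hlogpos
  have h2 := key.sub_const (1 / 8)
  rw [zero_sub] at h2
  refine h2.congr' ?_
  filter_upwards [eventually_ge_atTop 2] with n hn
  have hlogpos : 0 < Real.log n := Real.log_pos (by exact_mod_cast hn)
  simp only [hf]
  field_simp
  ring

end Claimed.Agent.R285.F23

/-!
# ROW 285, layer F3: elementary lattice facts for the glue `F3/Nest.lean`   (owner helper12)     NO sorry.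
-/


namespace Claimed.Agent.R285.F23

open Filter Topology Claims.C0459
open scoped Classical

theorem mem_sq {n : ℕ} {z : ℤ × ℤ} : z ∈ sq n ↔ (-(n : ℤ) ≤ z.1 ∧ z.1 < n) ∧ (-(n : ℤ) ≤ z.2 ∧ z.2 < n) := by
  simp [sq, Finset.mem_product]

theorem sq_mono {n m : ℕ} (h : n ≤ m) : sq n ⊆ sq m := by
  intro z hz
  rw [mem_sq] at hz ⊢
  have : (n : ℤ) ≤ m := by exact_mod_cast h
  omega

theorem mem_shift {x z : ℤ × ℤ} {A : Finset (ℤ × ℤ)} : z ∈ shift x A ↔ z - x ∈ A := by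
  simp only [shift, Finset.mem_image]
  constructor
  · rintro ⟨w, hw, rfl⟩
    simpa using hw
  · intro h
    exact ⟨z - x, h, by simp⟩

theorem shift_zero (A : Finset (ℤ × ℤ)) : shift (0, 0) A = A := by
  ext z
  rw [mem_shift]
  have : z - ((0 : ℤ), (0 : ℤ)) = z := by ext <;> simp
  rw [this]

theorem stair_subset_sq (M s : ℕ) : stair M s ⊆ sq (M * s) := Finset.filter_subset _ _

theorem uni_one (A : Finset (ℤ × ℤ)) : uni (fun _ : Fin 1 => ((0 : ℤ), (0 : ℤ))) A = A := by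
  simp [uni, shift_zero]

theorem uni_two (r : ℤ) (A : Finset (ℤ × ℤ)) : uni ![((0 : ℤ), (0 : ℤ)), (r, 0)] A = A ∪ shift (r, 0) A := by
  ext z
  simp [uni, Fin.exists_fin_two, shift_zero]

/-- the staircase disk is symmetric under `i ↦ -1-i` -/
theorem stair_refl (M s : ℕ) (hs : 0 < s) {z : ℤ × ℤ} (hz : z ∈ stair M s) : (-1 - z.1, z.2) ∈ stair M s := by
  simp only [stair, Finset.mem_filter, mem_sq] at hz ⊢
  obtain ⟨⟨⟨h1, h2⟩, h3⟩, h4⟩ := hz
  refine ⟨⟨⟨by omega, by omega⟩, h3⟩, ?_⟩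
  have hs' : (0 : ℤ) < s := by exact_mod_cast hs
  have e : (-1 - z.1) / (s : ℤ) = -(z.1 / (s : ℤ)) - 1 := by
    have h5 := Int.emod_add_mul_ediv z.1 (s : ℤ)
    have h6 := Int.emod_nonneg z.1 hs'.ne'
    have h7 := Int.emod_lt_of_pos z.1 hs'
    have h8 : ((s : ℤ) - 1 - z.1 % (s : ℤ)) + (s : ℤ) * (-(z.1 / (s : ℤ)) - 1) = -1 - z.1 := by
      linear_combination -h5
    exact ((Int.ediv_emod_unique hs').2 ⟨h8, by omega, by omega⟩).1
  rw [e]
  have e2 : (-(z.1 / (s : ℤ)) - 1) ^ 2 = (z.1 / (s : ℤ) + 1) ^ 2 := by ring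
  have e3 : (-(z.1 / (s : ℤ)) - 1 + 1) ^ 2 = (z.1 / (s : ℤ)) ^ 2 := by ring
  rw [e2, e3, max_comm]
  exact h4

/-! ### nest parameters -/

theorem NP.s_succ (𝔫 : NP) (J : ℕ) : 𝔫.s (J + 1) = 𝔫.lam * 𝔫.s J := by
  simp only [NP.s, pow_succ]; ring

theorem NP.rad_succ (𝔫 : NP) (J : ℕ) : 𝔫.rad (J + 1) = 𝔫.lam * 𝔫.rad J := by
  simp only [NP.rad, NP.s_succ]; ring

theorem NP.rad_succ' (𝔫 : NP) (J : ℕ) : 𝔫.rad (J + 1) = 𝔫.M * (𝔫.lam * 𝔫.s J) := by
  simp only [NP.rad, NP.s_succ]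

theorem NP.ann_eq (𝔫 : NP) (J : ℕ) : 𝔫.ann J = stair 𝔫.M (𝔫.lam * 𝔫.s J) \ stair 𝔫.M (𝔫.s J) := by
  simp only [NP.ann, NP.disc, NP.s_succ]

theorem NP.base_s0 (𝔫 : NP) (J : ℕ) : (⟨𝔫.M, 𝔫.p, 𝔫.s J⟩ : NP).s 0 = 𝔫.s J := by simp [NP.s]

theorem NP.base_s1 (𝔫 : NP) (J : ℕ) : (⟨𝔫.M, 𝔫.p, 𝔫.s J⟩ : NP).s 1 = 𝔫.s (J + 1) := by
  simp only [NP.s, NP.lam, pow_succ, pow_zero, one_mul]; ring

theorem NP.base_ann (𝔫 : NP) (J : ℕ) : (⟨𝔫.M, 𝔫.p, 𝔫.s J⟩ : NP).ann 0 = 𝔫.ann J := by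
  simp only [NP.ann, NP.disc, NP.base_s0, zero_add, NP.base_s1]

theorem NP.base_rad (𝔫 : NP) (J : ℕ) : (⟨𝔫.M, 𝔫.p, 𝔫.s J⟩ : NP).rad 0 = 𝔫.rad J := by
  simp only [NP.rad, NP.base_s0]

theorem NP.base_guard (𝔫 : NP) (J : ℕ) : (⟨𝔫.M, 𝔫.p, 𝔫.s J⟩ : NP).guard 0 = 𝔫.guard J := by
  simp only [NP.guard, NP.base_rad]

theorem NP.base_endOut (𝔫 : NP) (J : ℕ) : (⟨𝔫.M, 𝔫.p, 𝔫.s J⟩ : NP).endOut 0 = 𝔫.endOut J := by
  simp only [NP.endOut, NP.base_rad]

theorem NP.lam_pos (𝔫 : NP) : 0 < 𝔫.lam := by simp [NP.lam]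

theorem NP.s_ge (𝔫 : NP) (J : ℕ) : 𝔫.s0 ≤ 𝔫.s J := by
  simp only [NP.s]
  exact Nat.le_mul_of_pos_right _ (pow_pos 𝔫.lam_pos _)

theorem NP.rad_mono (𝔫 : NP) {J J' : ℕ} (h : J ≤ J') : 𝔫.rad J ≤ 𝔫.rad J' := by
  simp only [NP.rad, NP.s]
  exact Nat.mul_le_mul_left _ (Nat.mul_le_mul_left _ (Nat.pow_le_pow_right 𝔫.lam_pos h))

theorem NP.ann_refl (𝔫 : NP) (J : ℕ) (hs : 0 < 𝔫.s0) {z : ℤ × ℤ} (hz : z ∈ 𝔫.ann J) : (-1 - z.1, z.2) ∈ 𝔫.ann J := by
  simp only [NP.ann, NP.disc, Finset.mem_sdiff] at hz ⊢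
  refine ⟨stair_refl _ _ (lt_of_lt_of_le hs (𝔫.s_ge _)) hz.1, fun h => hz.2 ?_⟩
  have := stair_refl _ _ (lt_of_lt_of_le hs (𝔫.s_ge _)) h
  simpa using this

/-! ### connections -/

theorem loc_center (M s n : ℕ) (h : M * s ≤ n) : Loc (segConn (0, 0) n) (0, 0) (stair M s) (rayR (M * s)) := by
  intro e he _
  rw [shift_zero] at he
  have h1 := (mem_sq.1 (stair_subset_sq M s he)).1.2
  have h2 : ((M * s : ℕ) : ℤ) ≤ n := by exact_mod_cast h
  simp only [segConn, rayR, Prod.fst_sub, Prod.snd_sub, sub_zero, zero_add]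
  congr 1
  apply propext
  constructor
  · rintro ⟨a, b, c, _⟩
    exact ⟨a, b, c, h1⟩
  · rintro ⟨a, b, c, _⟩
    exact ⟨a, b, c, by omega⟩

theorem loc_right (M s r : ℕ) (h : M * s ≤ r) : Loc (segConn (0, 0) r) ((r : ℤ), 0) (stair M s) (rayL (M * s)) := by
  intro e he _
  rw [mem_shift] at he
  have h1 := (mem_sq.1 (stair_subset_sq M s he)).1.1
  have h2 : ((M * s : ℕ) : ℤ) ≤ r := by exact_mod_cast h
  simp only [Prod.fst_sub] at h1
  simp only [segConn, rayL, Prod.fst_sub, Prod.snd_sub, sub_zero, zero_add]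
  congr 1
  apply propext
  constructor
  · rintro ⟨a, b, _, d⟩
    exact ⟨a, b, h1, by omega⟩
  · rintro ⟨a, b, _, d⟩
    exact ⟨a, b, by omega, by omega⟩

/-! ### positions -/

theorem shift_sq_subset (x : ℤ × ℤ) (a N : ℕ) (h1 : |x.1| + a ≤ N) (h2 : |x.2| + a ≤ N) : shift x (sq a) ⊆ sq N := by
  intro z hz
  rw [mem_shift, mem_sq] at hz
  rw [mem_sq]
  simp only [Prod.fst_sub, Prod.snd_sub] at hz
  have := abs_le.1 (le_refl |x.1|)
  have := abs_le.1 (le_refl |x.2|)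
  omega

theorem shift_sq_disjoint (r : ℤ) (a : ℕ) (h : 2 * (a : ℤ) ≤ r) : Disjoint (shift (0, 0) (sq a)) (shift (r, 0) (sq a)) := by
  rw [Finset.disjoint_left]
  intro z hz hz'
  rw [mem_shift, mem_sq] at hz hz'
  simp only [Prod.fst_sub, Prod.snd_sub] at hz hz'
  omega

theorem not_mem_rim (q r : ℕ) {z : ℤ × ℤ} (h : z ∈ sq (6 * q * r)) : z ∉ rim q r := by
  intro hz
  exact hz (by exact_mod_cast h)

end Claimed.Agent.R285.F23

/-!
# ROW 285, layer F3: `NestStmt` from `Inputs`  ([F] s3.4, proof of P3.1 up to the last real analysis)   (owner helper12)     NO sorry.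
-/


namespace Claimed.Agent.R285.F23

open Filter Topology Claims.C0459
open scoped Classical

/-! ### real analysis -/

theorem f3_log_of_two {ρ y : ℝ} (hρ : 0 < ρ) (hy0 : 0 ≤ y) (hy : y ≤ 1 / 2) (h1 : 1 - y ≤ ρ) (h2 : ρ * (1 - y) ≤ 1) :
    |Real.log ρ| ≤ 2 * y := by
  have hpos : 0 < 1 - y := by linarith
  have hl : -(2 * y) ≤ Real.log (1 - y) := by
    have h3 := Real.one_sub_inv_le_log_of_pos hpos
    have h4 : (1 - y)⁻¹ ≤ 1 + 2 * y := by
      rw [inv_le_comm₀ hpos (by linarith)]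
      rw [inv_le_iff_one_le_mul₀ (by linarith)]
      nlinarith
    linarith
  rw [abs_le]
  constructor
  · exact hl.trans (Real.log_le_log hpos h1)
  · have h5 : ρ ≤ (1 - y)⁻¹ := by
      rw [le_inv_comm₀ hρ hpos, ← one_div, le_div_iff₀ hρ]
      linarith
    have h6 := Real.log_le_log hρ h5
    rw [Real.log_inv] at h6
    linarith

theorem f3_attach_log {k : ℕ} {Db qq ρ z : ℝ} (hρ : 0 < ρ) (hq : 0 < qq) (hD : 0 ≤ Db)
    (h : 1 - 2 ^ k * (1 - Real.exp (-(k : ℝ) * Db) * qq) ≤ ρ ∧ ρ * (1 - 2 ^ k * (1 - Real.exp (-(k : ℝ) * Db))) ≤ 1)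
    (hz1 : k * Db - Real.log qq ≤ z) (hz2 : k * Db ≤ z) (hz : 2 ^ k * z ≤ 1 / 2) : |Real.log ρ| ≤ 2 * (2 ^ k * z) := by
  have hk : (0 : ℝ) < 2 ^ k := by positivity
  have hz0 : 0 ≤ z := le_trans (by positivity) hz2
  have e1 : 1 - z ≤ Real.exp (-(k : ℝ) * Db) * qq := by
    have : Real.exp (-(k : ℝ) * Db) * qq = Real.exp (-(k : ℝ) * Db + Real.log qq) := by
      rw [Real.exp_add, Real.exp_log hq]
    rw [this]
    have := Real.add_one_le_exp (-(k : ℝ) * Db + Real.log qq)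
    linarith
  have e2 : 1 - z ≤ Real.exp (-(k : ℝ) * Db) := by
    have := Real.add_one_le_exp (-(k : ℝ) * Db)
    linarith
  refine f3_log_of_two hρ (by positivity) hz ?_ ?_
  · refine le_trans ?_ h.1
    have : 2 ^ k * (1 - Real.exp (-(k : ℝ) * Db) * qq) ≤ 2 ^ k * z := by
      apply mul_le_mul_of_nonneg_left _ hk.le
      linarith
    linarith
  · refine le_trans ?_ h.2
    apply mul_le_mul_of_nonneg_left _ hρ.le
    have : 2 ^ k * (1 - Real.exp (-(k : ℝ) * Db)) ≤ 2 ^ k * z := by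
      apply mul_le_mul_of_nonneg_left _ hk.le
      linarith
    linarith

theorem f3_pi16 : (1 : ℝ) ≤ 16 * Real.pi := by
  have := Real.pi_gt_three
  linarith

theorem f3_abs_div16 {A η : ℝ} (h : |A| ≤ η) : |A / (16 * Real.pi)| ≤ η := by
  have hp : (0 : ℝ) < 16 * Real.pi := lt_of_lt_of_le one_pos f3_pi16
  rw [abs_div, abs_of_pos hp, div_le_iff₀ hp]
  have h0 : 0 ≤ η := le_trans (abs_nonneg _) h
  nlinarith [f3_pi16]

/-- from the sector defect and the reference energy to `log Φ` -/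
theorem f3_logPhi {D : Finset (ℤ × ℤ)} {P : Set (ℤ × ℤ)} {τ : Bond → ℤ} {X η : ℝ} (h1 : |secDef D P τ| ≤ η)
    (h2 : |En D P τ - X| ≤ η) : |Real.log (Phi xyCritical D P τ) + X / (16 * Real.pi)| ≤ 3 / 2 * η := by
  have hp : (0 : ℝ) < Real.pi := Real.pi_pos
  have e : Real.log (Phi xyCritical D P τ) + X / (16 * Real.pi) = -(secDef D P τ) / 2 - (En D P τ - X) / (16 * Real.pi) := by
    simp only [secDef]
    field_simp
    ring
  have h3 := f3_abs_div16 h2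
  rw [e]
  rw [abs_le] at h1 h3 ⊢
  constructor <;> linarith [h1.1, h1.2, h3.1, h3.2]

/-- one-sided version -/
theorem f3_logPhi_ge {D : Finset (ℤ × ℤ)} {P : Set (ℤ × ℤ)} {τ : Bond → ℤ} {X η : ℝ} (hη : 0 ≤ η) (h1 : secDef D P τ ≤ η)
    (h2 : En D P τ ≤ X + η) : -(X / (16 * Real.pi)) - 3 / 2 * η ≤ Real.log (Phi xyCritical D P τ) := by
  have hp : (0 : ℝ) < Real.pi := Real.pi_pos
  have hp16 : (0 : ℝ) < 16 * Real.pi := by positivity
  have e : Real.log (Phi xyCritical D P τ) + X / (16 * Real.pi) = -(secDef D P τ) / 2 - (En D P τ - X) / (16 * Real.pi) := by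
    simp only [secDef]
    field_simp
    ring
  have h3 : (En D P τ - X) / (16 * Real.pi) ≤ η := by
    rw [div_le_iff₀ hp16]
    nlinarith [f3_pi16]
  linarith

theorem NP.rad_pos (𝔫 : NP) (hM : 4 ≤ 𝔫.M) (hs : 1 ≤ 𝔫.s0) (J : ℕ) : 0 < 𝔫.rad J := by
  have := 𝔫.s_ge J
  simp only [NP.rad]
  exact Nat.mul_pos (by omega) (by omega)

theorem f3_log_rad (𝔫 : NP) (hM : 4 ≤ 𝔫.M) (hs : 1 ≤ 𝔫.s0) (J n : ℕ) (hn : 0 < n) :
    Real.log ((n : ℝ) / 𝔫.rad J) = Real.log ((n : ℝ) / 𝔫.rad (J + 1)) + Real.log 𝔫.lam := by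
  have h1 : (0 : ℝ) < 𝔫.rad J := by exact_mod_cast 𝔫.rad_pos hM hs J
  have h2 : (0 : ℝ) < 𝔫.lam := by exact_mod_cast 𝔫.lam_pos
  have h3 : (0 : ℝ) < n := by exact_mod_cast hn
  rw [NP.rad_succ]
  push_cast
  rw [Real.log_div h3.ne' h1.ne', Real.log_div h3.ne' (by positivity), Real.log_mul h2.ne' h1.ne']
  ring

/-- the centre square: [F] (3.12) with one nest -/
theorem f3_center_est (I : Inputs) (hbc : 0 < xyCritical) (𝔫 : NP) (hp : 4 ≤ 𝔫.p) (hM : 4 ≤ 𝔫.M) (hs : 1 ≤ 𝔫.s0) (J n : ℕ)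
    (η κ' : ℝ) (hη : 0 < η) (hη' : η ≤ 1 / 100) (hfit : 𝔫.rad (J + 1) + 1 ≤ n) (hK2 : LastGuard xyCritical 𝔫 J)
    (hDb : dFlat xyCritical (𝔫.ann J) (𝔫.endOut J) (𝔫.guard J) ≤ η)
    (he : |Real.log (Phi xyCritical (extC 𝔫.M n (𝔫.s (J + 1))) ∅ (segConn (0, 0) n))
      + Real.log ((n : ℝ) / 𝔫.rad (J + 1)) / 8 + κ'| ≤ 3 / 2 * η)
    (hj : |Real.log (Phi xyCritical (extC 𝔫.M n (𝔫.s J)) ∅ (segConn (0, 0) n))
      + Real.log ((n : ℝ) / 𝔫.rad J) / 8 + κ'| ≤ 3 / 2 * η)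
    (hl : |Real.log (Phi xyCritical (𝔫.ann J) ∅ (rayR (𝔫.rad (J + 1)))) + Real.log 𝔫.lam / 8| ≤ 3 / 2 * η) :
    |Real.log (centerMag xyCritical n) - logN xyCritical 𝔫 (J + 1) + Real.log ((n : ℝ) / 𝔫.rad (J + 1)) / 8 + κ'|
      ≤ 24 * η := by
  have hn : 0 < n := by omega
  have hA := I.attach xyCritical hbc 𝔫 J hp hM hs 1 (fun _ => ((0 : ℤ), (0 : ℤ))) (sq n) ∅ (segConn (0, 0) n)
    (fun _ => rayR (𝔫.rad (J + 1)))
    (fun _ => by rw [shift_zero]; exact sq_mono hfit)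
    (fun i j h => absurd (Subsingleton.elim i j) h)
    (fun _ z _ => Set.notMem_empty z)
    (fun _ => Or.inr (Or.inl rfl))
    (fun _ => loc_center 𝔫.M (𝔫.s (J + 1)) n (by have := hfit; simp only [NP.rad] at this; omega))
    hK2 _ _ _ rfl rfl rfl
  simp only [uni_one, Finset.univ_unique, Finset.prod_const, Finset.card_singleton, pow_one, Nat.cast_one] at hA
  rw [I.bridge xyCritical n hn]
  have pf := I.pos xyCritical hbc (sq n) ∅ (segConn (0, 0) n)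
  have pe := I.pos xyCritical hbc (sq n \ 𝔫.disc (J + 1)) ∅ (segConn (0, 0) n)
  have pj := I.pos xyCritical hbc (sq n \ 𝔫.disc J) ∅ (segConn (0, 0) n)
  have pl := I.pos xyCritical hbc (𝔫.ann J) ∅ (rayR (𝔫.rad (J + 1)))
  have pN := I.pos xyCritical hbc (𝔫.disc (J + 1)) ∅ (rayR (𝔫.rad (J + 1)))
  have hD0 := I.dnn xyCritical hbc 𝔫 J hp hM hs
  have hL := f3_log_rad 𝔫 hM hs J n hn
  change |Real.log (Phi xyCritical (sq n \ 𝔫.disc (J + 1)) ∅ (segConn (0, 0) n)) + _ + _| ≤ _ at he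
  change |Real.log (Phi xyCritical (sq n \ 𝔫.disc J) ∅ (segConn (0, 0) n)) + _ + _| ≤ _ at hj
  have lq : Real.log (Phi xyCritical (sq n \ 𝔫.disc J) ∅ (segConn (0, 0) n) /
      (Phi xyCritical (sq n \ 𝔫.disc (J + 1)) ∅ (segConn (0, 0) n) * Phi xyCritical (𝔫.ann J) ∅ (rayR (𝔫.rad (J + 1)))))
      = Real.log (Phi xyCritical (sq n \ 𝔫.disc J) ∅ (segConn (0, 0) n))
        - Real.log (Phi xyCritical (sq n \ 𝔫.disc (J + 1)) ∅ (segConn (0, 0) n))
        - Real.log (Phi xyCritical (𝔫.ann J) ∅ (rayR (𝔫.rad (J + 1)))) := by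
    rw [Real.log_div pj.ne' (mul_pos pe pl).ne', Real.log_mul pe.ne' pl.ne']
    ring
  have lr : Real.log (Phi xyCritical (sq n) ∅ (segConn (0, 0) n) /
      (Phi xyCritical (sq n \ 𝔫.disc (J + 1)) ∅ (segConn (0, 0) n) * Phi xyCritical (𝔫.disc (J + 1)) ∅ (rayR (𝔫.rad (J + 1)))))
      = Real.log (Phi xyCritical (sq n) ∅ (segConn (0, 0) n))
        - Real.log (Phi xyCritical (sq n \ 𝔫.disc (J + 1)) ∅ (segConn (0, 0) n))
        - logN xyCritical 𝔫 (J + 1) := by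
    rw [Real.log_div pf.ne' (mul_pos pe pN).ne', Real.log_mul pe.ne' pN.ne', logN]
    ring
  rw [abs_le] at he hj hl
  have hB := f3_attach_log (k := 1) (z := 11 / 2 * η) (div_pos pf (mul_pos pe pN)) (div_pos pj (mul_pos pe pl)) hD0
    (by simpa using hA) (by rw [lq]; push_cast; linarith [he.1, he.2, hj.1, hj.2, hl.1, hl.2]) (by push_cast; linarith)
    (by norm_num; linarith)
  rw [lr, abs_le] at hB
  rw [abs_le]
  constructor <;> norm_num at hB <;> linarith [hB.1, hB.2, he.1, he.2]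

/-- the pair comparators (free walls or pinned rim): [F] (3.12) with two nests -/
theorem f3_pair_est (I : Inputs) (hbc : 0 < xyCritical) (𝔫 : NP) (hp : 4 ≤ 𝔫.p) (hM : 4 ≤ 𝔫.M) (hs : 1 ≤ 𝔫.s0) (J q r : ℕ)
    (hq : 1 ≤ q) (Pn : Set (ℤ × ℤ)) (hPn : Pn = ∅ ∨ Pn = rim q r)
    (η : ℝ) (hη : 0 < η) (hη' : η ≤ 1 / 100) (hfit : 4 * (𝔫.rad (J + 1) + 1) ≤ r) (hK2 : LastGuard xyCritical 𝔫 J)
    (hDb : dFlat xyCritical (𝔫.ann J) (𝔫.endOut J) (𝔫.guard J) ≤ η)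
    (he : |Real.log (Phi xyCritical (extP 𝔫.M q r (𝔫.s (J + 1))) Pn (segConn (0, 0) r))
      + Real.log ((r : ℝ) / 𝔫.rad (J + 1)) / 4| ≤ 3 / 2 * η)
    (hj : -(Real.log ((r : ℝ) / 𝔫.rad J) / 4) - 3 / 2 * η
      ≤ Real.log (Phi xyCritical (extP 𝔫.M q r (𝔫.s J)) Pn (segConn (0, 0) r)))
    (hl : |Real.log (Phi xyCritical (𝔫.ann J) ∅ (rayR (𝔫.rad (J + 1)))) + Real.log 𝔫.lam / 8| ≤ 3 / 2 * η) :
    |Real.log (Phi xyCritical (sq (8 * q * r)) Pn (segConn (0, 0) r)) - 2 * logN xyCritical 𝔫 (J + 1)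
      + Real.log ((r : ℝ) / 𝔫.rad (J + 1)) / 4| ≤ 66 * η := by
  have hr : 0 < r := by omega
  have h8 : 8 * r ≤ 8 * q * r := by nlinarith
  have h6 : 6 * r ≤ 6 * q * r := by nlinarith
  have hs0 : 0 < 𝔫.s0 := hs
  have hsub : ∀ N : ℕ, 6 * r ≤ N → ∀ i : Fin 2, shift (![((0 : ℤ), (0 : ℤ)), ((r : ℤ), 0)] i) (sq (𝔫.rad (J + 1) + 1)) ⊆ sq N := by
    intro N hN
    rw [Fin.forall_fin_two]
    constructor
    · exact shift_sq_subset _ _ _ (by simp; omega) (by simp; omega)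
    · exact shift_sq_subset _ _ _ (by simp; omega) (by simp; omega)
  have hA := I.attach xyCritical hbc 𝔫 J hp hM hs 2 ![((0 : ℤ), (0 : ℤ)), ((r : ℤ), 0)] (sq (8 * q * r)) Pn (segConn (0, 0) r)
    ![rayR (𝔫.rad (J + 1)), rayL (𝔫.rad (J + 1))]
    (hsub _ (by omega))
    (by
      have hd := shift_sq_disjoint (r : ℤ) (𝔫.rad (J + 1) + 1) (by push_cast; omega)
      intro i j hij
      fin_cases i <;> fin_cases j
      · exact absurd rfl hij
      · exact hd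
      · exact hd.symm
      · exact absurd rfl hij)
    (by
      intro i z hz
      rcases hPn with rfl | rfl
      · exact Set.notMem_empty z
      · exact not_mem_rim q r (hsub _ h6 i hz))
    (by
      rw [Fin.forall_fin_two]
      exact ⟨Or.inr (Or.inl rfl), Or.inr (Or.inr rfl)⟩)
    (by
      rw [Fin.forall_fin_two]
      have h1 : 𝔫.M * 𝔫.s (J + 1) ≤ r := by have := hfit; simp only [NP.rad] at this; omega
      exact ⟨loc_center 𝔫.M (𝔫.s (J + 1)) r h1, loc_right 𝔫.M (𝔫.s (J + 1)) r h1⟩)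
    hK2 _ _ _ rfl rfl rfl
  simp only [uni_two, Fin.prod_univ_two, Matrix.cons_val_zero, Matrix.cons_val_one] at hA
  rw [I.refl xyCritical (𝔫.ann J) _ (fun z hz => 𝔫.ann_refl J hs0 hz),
    I.refl xyCritical (𝔫.disc (J + 1)) _ (fun z hz => stair_refl _ _ (lt_of_lt_of_le hs0 (𝔫.s_ge _)) hz)] at hA
  have pf := I.pos xyCritical hbc (sq (8 * q * r)) Pn (segConn (0, 0) r)
  have pe := I.pos xyCritical hbc (extP 𝔫.M q r (𝔫.s (J + 1))) Pn (segConn (0, 0) r)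
  have pj := I.pos xyCritical hbc (extP 𝔫.M q r (𝔫.s J)) Pn (segConn (0, 0) r)
  have pl := I.pos xyCritical hbc (𝔫.ann J) ∅ (rayR (𝔫.rad (J + 1)))
  have pN := I.pos xyCritical hbc (𝔫.disc (J + 1)) ∅ (rayR (𝔫.rad (J + 1)))
  have hD0 := I.dnn xyCritical hbc 𝔫 J hp hM hs
  have hL := f3_log_rad 𝔫 hM hs J r hr
  change 1 - 2 ^ 2 * (1 - Real.exp (-((2 : ℕ) : ℝ) * _) * (Phi xyCritical (extP 𝔫.M q r (𝔫.s J)) Pn (segConn (0, 0) r) /
      (Phi xyCritical (extP 𝔫.M q r (𝔫.s (J + 1))) Pn (segConn (0, 0) r) * _))) ≤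
      Phi xyCritical (sq (8 * q * r)) Pn (segConn (0, 0) r) / (Phi xyCritical (extP 𝔫.M q r (𝔫.s (J + 1))) Pn (segConn (0, 0) r) * _) ∧
      Phi xyCritical (sq (8 * q * r)) Pn (segConn (0, 0) r) / (Phi xyCritical (extP 𝔫.M q r (𝔫.s (J + 1))) Pn (segConn (0, 0) r) * _) * _ ≤ 1 at hA
  have lq : Real.log (Phi xyCritical (extP 𝔫.M q r (𝔫.s J)) Pn (segConn (0, 0) r) /
      (Phi xyCritical (extP 𝔫.M q r (𝔫.s (J + 1))) Pn (segConn (0, 0) r) *
        (Phi xyCritical (𝔫.ann J) ∅ (rayR (𝔫.rad (J + 1))) * Phi xyCritical (𝔫.ann J) ∅ (rayR (𝔫.rad (J + 1))))))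
      = Real.log (Phi xyCritical (extP 𝔫.M q r (𝔫.s J)) Pn (segConn (0, 0) r))
        - Real.log (Phi xyCritical (extP 𝔫.M q r (𝔫.s (J + 1))) Pn (segConn (0, 0) r))
        - 2 * Real.log (Phi xyCritical (𝔫.ann J) ∅ (rayR (𝔫.rad (J + 1)))) := by
    rw [Real.log_div pj.ne' (mul_pos pe (mul_pos pl pl)).ne', Real.log_mul pe.ne' (mul_pos pl pl).ne',
      Real.log_mul pl.ne' pl.ne']
    ring
  have lr : Real.log (Phi xyCritical (sq (8 * q * r)) Pn (segConn (0, 0) r) /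
      (Phi xyCritical (extP 𝔫.M q r (𝔫.s (J + 1))) Pn (segConn (0, 0) r) *
        (Phi xyCritical (𝔫.disc (J + 1)) ∅ (rayR (𝔫.rad (J + 1))) * Phi xyCritical (𝔫.disc (J + 1)) ∅ (rayR (𝔫.rad (J + 1))))))
      = Real.log (Phi xyCritical (sq (8 * q * r)) Pn (segConn (0, 0) r))
        - Real.log (Phi xyCritical (extP 𝔫.M q r (𝔫.s (J + 1))) Pn (segConn (0, 0) r))
        - 2 * logN xyCritical 𝔫 (J + 1) := by
    rw [Real.log_div pf.ne' (mul_pos pe (mul_pos pN pN)).ne', Real.log_mul pe.ne' (mul_pos pN pN).ne',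
      Real.log_mul pN.ne' pN.ne', logN]
    ring
  rw [abs_le] at he hl
  have hB := f3_attach_log (k := 2) (z := 8 * η) (div_pos pf (mul_pos pe (mul_pos pN pN)))
    (div_pos pj (mul_pos pe (mul_pos pl pl))) hD0 hA
    (by rw [lq]; push_cast; linarith [he.1, he.2, hl.1, hl.2]) (by push_cast; linarith)
    (by norm_num; linarith)
  rw [lr, abs_le] at hB
  rw [abs_le]
  constructor <;> norm_num at hB <;> linarith [hB.1, hB.2, he.1, he.2]

/-- the six exterior estimates at block side `s` -/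
def ExtGood (M q : ℕ) (η κD : ℝ) (n s : ℕ) : Prop :=
  |secDef (extC M n s) ∅ (segConn (0, 0) n)| ≤ η ∧
  |En (extC M n s) ∅ (segConn (0, 0) n) - 2 * Real.pi * Real.log ((n : ℝ) / (M * s : ℕ)) - κD| ≤ η ∧
  |secDef (extP M q n s) ∅ (segConn (0, 0) n)| ≤ η ∧
  secDef (extP M q n s) (rim q n) (segConn (0, 0) n) ≤ η ∧
  |En (extP M q n s) ∅ (segConn (0, 0) n) - 4 * Real.pi * Real.log ((n : ℝ) / (M * s : ℕ))| ≤ η ∧
  En (extP M q n s) (rim q n) (segConn (0, 0) n) ≤ 4 * Real.pi * Real.log ((n : ℝ) / (M * s : ℕ)) + η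

theorem ExtGood.center {M q : ℕ} {η κD : ℝ} {n s : ℕ} (h : ExtGood M q η κD n s) :
    |Real.log (Phi xyCritical (extC M n s) ∅ (segConn (0, 0) n)) + Real.log ((n : ℝ) / (M * s : ℕ)) / 8
      + κD / (16 * Real.pi)| ≤ 3 / 2 * η := by
  have h2 : |En (extC M n s) ∅ (segConn (0, 0) n) - (2 * Real.pi * Real.log ((n : ℝ) / (M * s : ℕ)) + κD)| ≤ η := by
    rw [← sub_sub]; exact h.2.1
  have := f3_logPhi h.1 h2
  have hp : (0 : ℝ) < Real.pi := Real.pi_pos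
  have e : (2 * Real.pi * Real.log ((n : ℝ) / (M * s : ℕ)) + κD) / (16 * Real.pi)
      = Real.log ((n : ℝ) / (M * s : ℕ)) / 8 + κD / (16 * Real.pi) := by
    field_simp
    ring
  rw [e, ← add_assoc] at this
  exact this

theorem f3_quarter (L : ℝ) : 4 * Real.pi * L / (16 * Real.pi) = L / 4 := by
  have hp : (0 : ℝ) < Real.pi := Real.pi_pos
  field_simp
  ring

theorem ExtGood.pair {M q : ℕ} {η κD : ℝ} {n s : ℕ} (h : ExtGood M q η κD n s) :
    |Real.log (Phi xyCritical (extP M q n s) ∅ (segConn (0, 0) n)) + Real.log ((n : ℝ) / (M * s : ℕ)) / 4| ≤ 3 / 2 * η := by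
  have := f3_logPhi h.2.2.1 h.2.2.2.2.1
  rwa [f3_quarter] at this

theorem ExtGood.pin_ge {M q : ℕ} {η κD : ℝ} {n s : ℕ} (hη : 0 ≤ η) (h : ExtGood M q η κD n s) :
    -(Real.log ((n : ℝ) / (M * s : ℕ)) / 4) - 3 / 2 * η ≤ Real.log (Phi xyCritical (extP M q n s) (rim q n) (segConn (0, 0) n)) := by
  have := f3_logPhi_ge hη h.2.2.2.1 h.2.2.2.2.2
  rwa [f3_quarter] at this

theorem ExtGood.pin (I : Inputs) (hbc : 0 < xyCritical) {M q : ℕ} {η κD : ℝ} {n s : ℕ} (hη : 0 ≤ η) (h : ExtGood M q η κD n s) :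
    |Real.log (Phi xyCritical (extP M q n s) (rim q n) (segConn (0, 0) n)) + Real.log ((n : ℝ) / (M * s : ℕ)) / 4| ≤ 3 / 2 * η := by
  have h1 := h.pin_ge hη
  have h2 := abs_le.1 h.pair
  have h3 := I.mono xyCritical hbc (extP M q n s) (extP M q n s) (rim q n) ∅ (segConn (0, 0) n) (Finset.Subset.refl _)
    (Set.empty_subset _)
  have h4 := Real.log_le_log (I.pos xyCritical hbc _ _ _) h3
  rw [abs_le]
  constructor <;> linarith [h2.1, h2.2]

/-- one scale: both estimates of `NestStmt` -/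
theorem f3_step (I : Inputs) (hbc : 0 < xyCritical) (𝔫 : NP) (hp : 4 ≤ 𝔫.p) (hM : 4 ≤ 𝔫.M) (hs : 1 ≤ 𝔫.s0) (J n q : ℕ)
    (hq : 1 ≤ q) (η κD : ℝ) (hη : 0 < η) (hη' : η ≤ 1 / 100) (hfit : 4 * (𝔫.rad (J + 1) + 1) ≤ n)
    (hK2 : LastGuard xyCritical 𝔫 J) (hDb : dFlat xyCritical (𝔫.ann J) (𝔫.endOut J) (𝔫.guard J) ≤ η)
    (g0 : ExtGood 𝔫.M q η κD n (𝔫.s J)) (g1 : ExtGood 𝔫.M q η κD n (𝔫.s (J + 1)))
    (a1 : |secDef (𝔫.ann J) ∅ (rayR (𝔫.rad (J + 1)))| ≤ η)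
    (a2 : |En (𝔫.ann J) ∅ (rayR (𝔫.rad (J + 1))) - 2 * Real.pi * Real.log 𝔫.lam| ≤ η) :
    |Real.log (centerMag xyCritical n) - logN xyCritical 𝔫 (J + 1) + Real.log ((n : ℝ) / 𝔫.rad (J + 1)) / 8
      + κD / (16 * Real.pi)| ≤ 66 * η ∧
    |Real.log (xyCorr xyCritical n) - 2 * logN xyCritical 𝔫 (J + 1) + Real.log ((n : ℝ) / 𝔫.rad (J + 1)) / 4| ≤ 66 * η := by
  have hl : |Real.log (Phi xyCritical (𝔫.ann J) ∅ (rayR (𝔫.rad (J + 1)))) + Real.log 𝔫.lam / 8| ≤ 3 / 2 * η := by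
    have := f3_logPhi a1 a2
    have hp : (0 : ℝ) < Real.pi := Real.pi_pos
    have e : 2 * Real.pi * Real.log 𝔫.lam / (16 * Real.pi) = Real.log 𝔫.lam / 8 := by
      field_simp
      ring
    rwa [e] at this
  have hn : 1 ≤ n := by omega
  constructor
  · have := f3_center_est I hbc 𝔫 hp hM hs J n η (κD / (16 * Real.pi)) hη hη' (by omega) hK2 hDb g1.center g0.center hl
    linarith
  · have hf := f3_pair_est I hbc 𝔫 hp hM hs J q n hq ∅ (Or.inl rfl) η hη hη' hfit hK2 hDb g1.pair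
      (by have := abs_le.1 g0.pair; show _ ≤ _; simp only [NP.rad]; linarith [this.1]) hl
    have hpn := f3_pair_est I hbc 𝔫 hp hM hs J q n hq (rim q n) (Or.inr rfl) η hη hη' hfit hK2 hDb (g1.pin I hbc hη.le)
      (g0.pin_ge hη.le) hl
    have hb := I.bracket xyCritical hbc q n hq hn
    have p1 := I.pos xyCritical hbc (sq (8 * q * n)) (rim q n) (segConn (0, 0) n)
    have l1 := Real.log_le_log p1 hb.1
    have l2 := Real.log_le_log (lt_of_lt_of_le p1 hb.1) hb.2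
    rw [abs_le] at hf hpn ⊢
    constructor <;> linarith [hf.1, hf.2, hpn.1, hpn.2]

/-- eventually all the exterior estimates hold on the whole range of block sides -/
theorem f3_ext_eventually (I : Inputs) {κD : ℝ}
    {M q : ℕ} (hM : 4 ≤ M) (hq : 1 ≤ q) {η c₁ c₂ c₂' c₂'' : ℝ} (hη : 0 < η) (hc₁ : 0 < c₁) (hc₂ : c₂ < 1 / 4) (hcc : c₂ ≤ c₂')
    (hcc' : c₂ ≤ c₂'')
    (hCen : ∀ᶠ n : ℕ in atTop, ∀ s : ℕ, c₁ * n ≤ (M * s : ℕ) → ((M * s : ℕ) : ℝ) ≤ c₂'' * n →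
      |En (extC M n s) ∅ (segConn (0, 0) n) - 2 * Real.pi * Real.log ((n : ℝ) / (M * s : ℕ)) - κD| ≤ η)
    (hPair : ∀ᶠ r : ℕ in atTop, ∀ s : ℕ, c₁ * r ≤ (M * s : ℕ) → ((M * s : ℕ) : ℝ) ≤ c₂' * r →
      |En (extP M q r s) ∅ (segConn (0, 0) r) - 4 * Real.pi * Real.log ((r : ℝ) / (M * s : ℕ))| ≤ η ∧
      En (extP M q r s) (rim q r) (segConn (0, 0) r) ≤ 4 * Real.pi * Real.log ((r : ℝ) / (M * s : ℕ)) + η) :
    ∀ᶠ n : ℕ in atTop, ∀ s : ℕ, c₁ * n ≤ (M * s : ℕ) → ((M * s : ℕ) : ℝ) ≤ c₂ * n → ExtGood M q η κD n s := by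
  filter_upwards [I.secCen M hM c₁ c₂ hc₁ (by linarith) η hη, hCen,
    I.secPair M q hM hq c₁ c₂ hc₁ hc₂ η hη, I.secPin M q hM hq c₁ c₂ hc₁ hc₂ η hη, hPair] with n h1 h2 h3 h4 h5 s hs1 hs2
  have hs3 : ((M * s : ℕ) : ℝ) ≤ c₂' * n := hs2.trans (mul_le_mul_of_nonneg_right hcc (Nat.cast_nonneg n))
  have hs4 : ((M * s : ℕ) : ℝ) ≤ c₂'' * n := hs2.trans (mul_le_mul_of_nonneg_right hcc' (Nat.cast_nonneg n))
  exact ⟨h1 s hs1 hs2, h2 s hs1 hs4, h3 s hs1 hs2, h4 s hs1 hs2, (h5 s hs1 hs3).1, (h5 s hs1 hs3).2⟩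

/-- **[F]P3.1, analytic content**, from the inputs of the layer -/
theorem f3_nest_of (I : Inputs) (hbc : 0 < xyCritical) : NestStmt := by
  obtain ⟨κD, hCen⟩ := I.potCen
  obtain ⟨Ca, hAnn⟩ := I.potAnn
  obtain ⟨Mg, hG⟩ := I.lastGuard
  refine ⟨κD / (16 * Real.pi), fun δ hδ K hK => ?_⟩
  -- the tolerance
  obtain ⟨η, hη, hη', hηδ⟩ : ∃ η : ℝ, 0 < η ∧ η ≤ 1 / 100 ∧ 66 * η ≤ δ := by
    refine ⟨min δ 1 / 100, by positivity, ?_, ?_⟩
    · have := min_le_right δ 1; linarith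
    · have := min_le_left δ 1; linarith
  -- the pair geometry
  obtain ⟨q₀, hq₀⟩ := I.potPair η hη
  obtain ⟨c₂', Mp, hc₂'0, hc₂'4, hPair⟩ := hq₀ (max q₀ 1) (le_max_left _ _)
  have hq : 1 ≤ max q₀ 1 := le_max_right _ _
  generalize max q₀ 1 = q at hq hPair
  obtain ⟨c₂'', Mc, hc₂''0, _, hCen⟩ := hCen η hη
  -- constants
  set c₂ : ℝ := min (min c₂' c₂'') (1 / 8) with hc₂
  have hc₂0 : 0 < c₂ := by
    refine lt_min (lt_min hc₂'0 hc₂''0) (by norm_num)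
  have hc₂a : c₂ ≤ c₂' := (min_le_left _ _).trans (min_le_left _ _)
  have hc₂b : c₂ ≤ c₂'' := (min_le_left _ _).trans (min_le_right _ _)
  have hc₂c : c₂ ≤ 1 / 8 := min_le_right _ _
  obtain ⟨M, hM4, hMp, hMg, hM1, hM2⟩ : ∃ M : ℕ, 4 ≤ M ∧ Mp ≤ M ∧ Mg ≤ M ∧ Mc ≤ M ∧ (|Ca| + 1) / η ≤ M := by
    refine ⟨max (max 4 Mp) (max Mg (max Mc ⌈(|Ca| + 1) / η⌉₊)), ?_, ?_, ?_, ?_, ?_⟩
    · exact (le_max_left _ _).trans (le_max_left _ _)
    · exact (le_max_right _ _).trans (le_max_left _ _)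
    · exact (le_max_left _ _).trans (le_max_right _ _)
    · exact (le_max_left _ _).trans ((le_max_right _ _).trans (le_max_right _ _))
    · refine (Nat.le_ceil _).trans ?_
      exact_mod_cast (le_max_right _ _).trans ((le_max_right _ _).trans (le_max_right _ _))
  have hM0 : (0 : ℝ) < M := by
    have : 0 < M := by omega
    exact_mod_cast this
  have hCaM : Ca / M ≤ η := by
    rw [div_le_iff₀ hM0]
    rw [div_le_iff₀ hη] at hM2
    have := le_abs_self Ca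
    linarith
  obtain ⟨pg, hG⟩ := hG M hMg
  obtain ⟨pf, hF⟩ := I.flatPin M hM4 η hη
  obtain ⟨p, hp3, hpg, hpf⟩ : ∃ p : ℕ, 4 ≤ p ∧ pg ≤ p ∧ pf ≤ p :=
    ⟨max 4 (max pg pf), le_max_left _ _, (le_max_left _ _).trans (le_max_right _ _),
      (le_max_right _ _).trans (le_max_right _ _)⟩
  obtain ⟨sg, hG⟩ := hG p hpg
  have hlam2 : 2 ≤ 4 ^ p := by
    calc 2 ≤ 4 ^ 1 := by norm_num
      _ ≤ 4 ^ p := Nat.pow_le_pow_right (by norm_num) (by omega)
  have hsec : ∀ᶠ s : ℕ in atTop, |secDef (stair M (4 ^ p * s) \ stair M s) ∅ (rayR (M * (4 ^ p * s)))| ≤ η := by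
    have := I.secAnn M p hM4 (by omega)
    rw [Metric.tendsto_atTop] at this
    obtain ⟨N, hN⟩ := this η hη
    filter_upwards [eventually_ge_atTop N] with s hs
    have := hN s hs
    rw [Real.dist_eq, sub_zero] at this
    exact this.le
  obtain ⟨sa, hsa⟩ := eventually_atTop.1 ((hF p hpf).and (hsec.and (hAnn M p hM4 (by omega))))
  obtain ⟨s0, hs01, hs0g, hs0a⟩ : ∃ s0 : ℕ, 1 ≤ s0 ∧ sg ≤ s0 ∧ sa ≤ s0 :=
    ⟨max 1 (max sg sa), le_max_left _ _, (le_max_left _ _).trans (le_max_right _ _),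
      (le_max_right _ _).trans (le_max_right _ _)⟩
  obtain ⟨J₀, hG⟩ := hG s0 hs0g
  set 𝔫 : NP := ⟨M, p, s0⟩ with h𝔫
  have hlamR : (0 : ℝ) < 𝔫.lam := by exact_mod_cast 𝔫.lam_pos
  have hK0 : (0 : ℝ) < K := by linarith
  set c₁ : ℝ := c₂ / (K * 𝔫.lam) with hc₁
  have hc₁0 : 0 < c₁ := by positivity
  refine ⟨𝔫.lam, fun J => 𝔫.rad (J + 1), fun J => logN xyCritical 𝔫 (J + 1), c₁, c₂, hlam2, 𝔫.rad_pos hM4 hs01 1,
    fun J => 𝔫.rad_succ (J + 1), hc₁0, ?_, ?_⟩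
  · rw [hc₁]
    apply le_of_eq
    field_simp
  have hE := f3_ext_eventually I hM4 hq hη (div_pos hc₁0 hlamR) (by linarith : c₂ < 1 / 4) hc₂a hc₂b
    (hCen M hM1 (c₁ / 𝔫.lam) (div_pos hc₁0 hlamR)) (hPair M hMp (c₁ / 𝔫.lam) (div_pos hc₁0 hlamR))
  have hbig : ∀ᶠ n : ℕ in atTop, (𝔫.rad (J₀ + 1) : ℝ) < c₁ * n := by
    have : Tendsto (fun n : ℕ => c₁ * (n : ℝ)) atTop atTop := tendsto_natCast_atTop_atTop.const_mul_atTop hc₁0
    exact this.eventually_gt_atTop _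
  filter_upwards [hE, hbig, eventually_ge_atTop 8] with n hE hbig hn8 J hJ1 hJ2
  have hnR : (0 : ℝ) ≤ n := Nat.cast_nonneg n
  -- `J ≥ J₀`
  have hJ : J₀ ≤ J := by
    by_contra hlt
    have h1 : 𝔫.rad (J + 1) ≤ 𝔫.rad (J₀ + 1) := 𝔫.rad_mono (by omega)
    have h2 : (𝔫.rad (J + 1) : ℝ) ≤ 𝔫.rad (J₀ + 1) := by exact_mod_cast h1
    linarith
  -- the nests fit
  have hfit : 4 * (𝔫.rad (J + 1) + 1) ≤ n := by
    have h1 : (𝔫.rad (J + 1) : ℝ) ≤ (n : ℝ) / 8 := by nlinarith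
    have h2 : (8 : ℝ) ≤ n := by exact_mod_cast hn8
    have h3 : ((4 * (𝔫.rad (J + 1) + 1) : ℕ) : ℝ) ≤ n := by
      push_cast
      linarith
    exact_mod_cast h3
  have hsJ : sa ≤ 𝔫.s J := hs0a.trans (𝔫.s_ge J)
  obtain ⟨⟨f1, _⟩, f2, f3⟩ := hsa (𝔫.s J) hsJ
  have hrad : (𝔫.rad (J + 1) : ℝ) = 𝔫.lam * 𝔫.rad J := by
    rw [NP.rad_succ]; push_cast; ring
  have g1 : ExtGood 𝔫.M q η κD n (𝔫.s (J + 1)) := by
    refine hE _ ?_ hJ2
    refine le_trans ?_ hJ1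
    apply mul_le_mul_of_nonneg_right _ hnR
    rw [div_le_iff₀ hlamR]
    have : (1 : ℝ) ≤ 𝔫.lam := by exact_mod_cast 𝔫.lam_pos
    nlinarith
  have g0 : ExtGood 𝔫.M q η κD n (𝔫.s J) := by
    have hr0 : (0 : ℝ) ≤ 𝔫.rad J := Nat.cast_nonneg _
    have h1l : (1 : ℝ) ≤ 𝔫.lam := by exact_mod_cast 𝔫.lam_pos
    refine hE _ ?_ ?_
    · show c₁ / 𝔫.lam * n ≤ (𝔫.rad J : ℝ)
      rw [hrad] at hJ1
      rw [div_mul_eq_mul_div, div_le_iff₀ hlamR]
      linarith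
    · show (𝔫.rad J : ℝ) ≤ c₂ * n
      rw [hrad] at hJ2
      nlinarith
  have := f3_step I hbc 𝔫 hp3 hM4 hs01 J n q hq η κD hη hη' hfit (hG J hJ)
    (by rw [← 𝔫.base_ann J, ← 𝔫.base_endOut J, ← 𝔫.base_guard J]; exact f1) g0 g1
    (by rw [𝔫.ann_eq, 𝔫.rad_succ']; exact f2)
    (by
      rw [𝔫.ann_eq, 𝔫.rad_succ']
      refine le_trans ?_ hCaM
      have := f3
      simpa [NP.lam] using this)
  exact ⟨this.1.trans hηδ, this.2.trans hηδ⟩

end Claimed.Agent.R285.F23
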