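import Claimed.Agent.R285.Base.HeightDefs
import Claimed.Agent.R285.Rsd.Bes
import Claimed.Agent.R285.F3.Nest
import Claimed.Agent.R285.TopXY
import Claimed.Agent.R285.Xy.Dual

set_option autoImplicit false

/-!
# ROW 285, layer F3: TRANSPORT of partition sums between height systems   (owner helper12)     NO sorry.   Paper-free; any unit may import this file.

`lsys_transport`: `S'.w α' = (∏_{extra bonds} p_b(0)) * S.w α` for an injection `i : S.E → S'.E` of the bond sets with signs `ε = ±1` such that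
the extra coordinates vanish identically (on `S'.L` and on `α'`) and `z ↦ (ε_e z_{i e})_e` maps `S'.L` ONTO `S.L`.
`hlaw_transport`: the same in graph form (heights).   Uses: translations, reflections, graph isomorphisms, deletion of pinned regions, contraction of a pinned layer to one exterior vertex.
-/


namespace Claimed.Agent.R285.F23

open scoped Classical

noncomputable section

theorem bes_sign (b : ℝ) {ε : ℤ} (hε : ε = 1 ∨ ε = -1) (k : ℤ) : bes b (ε * k) = bes b k := by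
  rcases hε with rfl | rfl
  · rw [one_mul]
  · rw [neg_one_mul, bes_neg]

/-- the weight without Gaussian coordinates -/
theorem lsys_W_of_isEmpty (S : LSys) [IsEmpty S.O] (z : S.Amb) : S.W z = ∏ e, bes (S.b e) (z.1 e) := by
  unfold LSys.W
  rw [Finset.sum_eq_zero (fun o _ => isEmptyElim o), neg_zero, zero_div, Real.exp_zero, mul_one]

/-- a product over the target of an injection -/
theorem prod_split_range {E E' : Type} [Fintype E] [Fintype E'] (i : E → E') (hi : Function.Injective i) (g : E' → ℝ) :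
    ∏ e', g e' = (∏ e' ∈ Finset.univ.filter (fun e' => e' ∉ Set.range i), g e') * ∏ e, g (i e) := by
  rw [← Finset.prod_filter_mul_prod_filter_not Finset.univ (fun e' => e' ∈ Set.range i) g, mul_comm]
  congr 1
  have : Finset.univ.filter (fun e' => e' ∈ Set.range i) = Finset.univ.image i := by
    ext e'
    simp
  rw [this, Finset.prod_image (fun x _ y _ h => hi h)]

theorem lsys_transport (S S' : LSys) [IsEmpty S.O] [IsEmpty S'.O] (i : S.E → S'.E) (hi : Function.Injective i) (ε : S.E → ℤ)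
    (hε : ∀ e, ε e = 1 ∨ ε e = -1) (hb : ∀ e, S'.b (i e) = S.b e)
    (α : S.Amb) (α' : S'.Amb) (hα : ∀ e, α.1 e = ε e * α'.1 (i e)) (hα0 : ∀ e', e' ∉ Set.range i → α'.1 e' = 0)
    (hL0 : ∀ z ∈ S'.L, ∀ e', e' ∉ Set.range i → z.1 e' = 0)
    (hmap : ∀ z ∈ S'.L, ∃ y ∈ S.L, ∀ e, y.1 e = ε e * z.1 (i e))
    (hsurj : ∀ y ∈ S.L, ∃ z ∈ S'.L, ∀ e, y.1 e = ε e * z.1 (i e)) :
    S'.w α' = (∏ e' ∈ Finset.univ.filter (fun e' => e' ∉ Set.range i), bes (S'.b e') 0) * S.w α := by
  choose f hf1 hf2 using hmap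
  let F : S'.L → S.L := fun z => ⟨f z z.2, hf1 z z.2⟩
  have hF : ∀ (z : S'.L) (e : S.E), ((F z : S.L) : S.Amb).1 e = ε e * (z : S'.Amb).1 (i e) := fun z e => hf2 z z.2 e
  have hinj : Function.Injective F := by
    intro z z' h
    apply Subtype.ext
    apply Prod.ext
    · funext e'
      by_cases he : e' ∈ Set.range i
      · obtain ⟨e, rfl⟩ := he
        have h1 := hF z e
        have h2 := hF z' e
        rw [h] at h1
        rw [h1] at h2
        rcases hε e with h3 | h3 <;> rw [h3] at h2 <;> omega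
      · rw [hL0 z z.2 e' he, hL0 z' z'.2 e' he]
    · funext o
      exact isEmptyElim o
  have hsur : Function.Surjective F := by
    rintro ⟨y, hy⟩
    obtain ⟨z, hz, h⟩ := hsurj y hy
    refine ⟨⟨z, hz⟩, ?_⟩
    apply Subtype.ext
    apply Prod.ext
    · funext e
      rw [hF ⟨z, hz⟩ e, h e]
    · funext o
      exact isEmptyElim o
  unfold LSys.w LSys.Zf
  rw [← (Equiv.ofBijective F ⟨hinj, hsur⟩).tsum_eq, ← tsum_mul_left]
  refine tsum_congr fun z => ?_
  rw [one_mul, one_mul, lsys_W_of_isEmpty, lsys_W_of_isEmpty, prod_split_range i hi]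
  congr 1
  · refine Finset.prod_congr rfl fun e' he' => ?_
    have he : e' ∉ Set.range i := (Finset.mem_filter.1 he').2
    show bes (S'.b e') ((z : S'.Amb).1 e' + α'.1 e') = _
    rw [hL0 z z.2 e' he, hα0 e' he, add_zero]
  · refine Finset.prod_congr rfl fun e _ => ?_
    show bes (S'.b (i e)) ((z : S'.Amb).1 (i e) + α'.1 (i e)) = bes (S.b e) (((F z : S.L) : S.Amb).1 e + α.1 e)
    rw [hF z e, hα e, ← mul_add, bes_sign _ (hε e), hb e]

/-- the first component of the affine datum of a height law -/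
theorem amb_fst {G : HGraph} {H : HLaw G} (a : H.Aff) (b : ℝ) (e : G.E) :
    (a.amb b).1 e = a.x (G.tgt e) - a.x (G.src e) + a.τ e := rfl

/-- **transport in graph form** -/
theorem hlaw_transport {G G' : HGraph} (H : HLaw G) (H' : HLaw G') [IsEmpty H.O] [IsEmpty H'.O] (b : ℝ)
    (i : G.E → G'.E) (hi : Function.Injective i) (ε : G.E → ℤ) (hε : ∀ e, ε e = 1 ∨ ε e = -1) (a : H.Aff) (a' : H'.Aff)
    (hα : ∀ e, a.x (G.tgt e) - a.x (G.src e) + a.τ e = ε e * (a'.x (G'.tgt (i e)) - a'.x (G'.src (i e)) + a'.τ (i e)))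
    (hα0 : ∀ e', e' ∉ Set.range i → a'.x (G'.tgt e') - a'.x (G'.src e') + a'.τ e' = 0)
    (hL0 : ∀ h' ∈ H'.Λ, ∀ e', e' ∉ Set.range i → h' (G'.tgt e') = h' (G'.src e'))
    (hmap : ∀ h' ∈ H'.Λ, ∃ h ∈ H.Λ, ∀ e, h (G.tgt e) - h (G.src e) = ε e * (h' (G'.tgt (i e)) - h' (G'.src (i e))))
    (hsurj : ∀ h ∈ H.Λ, ∃ h' ∈ H'.Λ, ∀ e, h (G.tgt e) - h (G.src e) = ε e * (h' (G'.tgt (i e)) - h' (G'.src (i e)))) :
    (H'.sys b).w (a'.amb b) = bes b 0 ^ (Finset.univ.filter (fun e' => e' ∉ Set.range i)).card * (H.sys b).w (a.amb b) := by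
  haveI : IsEmpty (H.sys b).O := ‹IsEmpty H.O›
  haveI : IsEmpty (H'.sys b).O := ‹IsEmpty H'.O›
  have := lsys_transport (H.sys b) (H'.sys b) i hi ε hε (fun _ => rfl) (a.amb b) (a'.amb b) hα hα0
    (by
      rintro z ⟨h', hh', rfl⟩ e' he'
      show h' (G'.tgt e') - h' (G'.src e') = 0
      rw [hL0 h' hh' e' he', sub_self])
    (by
      rintro z ⟨h', hh', rfl⟩
      obtain ⟨h, hh, hE⟩ := hmap h' hh'
      exact ⟨H.coord h, ⟨h, hh, rfl⟩, hE⟩)
    (by
      rintro y ⟨h, hh, rfl⟩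
      obtain ⟨h', hh', hE⟩ := hsurj h hh
      exact ⟨H'.coord h', ⟨h', hh', rfl⟩, hE⟩)
  rw [this]
  congr 1
  exact Finset.prod_const (bes b 0)

end

end Claimed.Agent.R285.F23

/-!
# ROW 285, layer F3: the calculus of `W`, `Phi` on subsets of `ℤ²`   (owner helper12)     NO sorry.
`PhiPos`, `PhiCongr`, `PhiMono`, `PhiShift`, `PhiRefl`, deletion of pinned regions `Phi_pin_ext`.
-/


namespace Claimed.Agent.R285.F23

open Filter Topology Claims.C0459
open scoped Classical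

noncomputable section

/-! ### basics on `domG` -/

theorem mem_domBonds {D : Finset (ℤ × ℤ)} {e : Bond} : e ∈ domBonds D ∅ ↔ e.1 ∈ D ∧ e.snd ∈ D := by
  simp [domBonds, Finset.mem_filter, Finset.mem_product]

instance lawOf_isEmpty (D : Finset (ℤ × ℤ)) (Λ : AddSubgroup ((domG D ∅).V → ℤ)) : IsEmpty (lawOf D Λ).O :=
  inferInstanceAs (IsEmpty Empty)

theorem lawOf_ok (b : ℝ) (hb : 0 < b) (D : Finset (ℤ × ℤ)) (Λ : AddSubgroup ((domG D ∅).V → ℤ)) : ((lawOf D Λ).sys b).Ok :=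
  HLaw.ok_of_isEmpty (lawOf D Λ) b hb

theorem lsys_wT_zero (S : LSys) (α : S.Amb) : S.wT α 0 = S.w α := by
  simp [LSys.wT, LSys.w]

theorem W_pos (b : ℝ) (hb : 0 < b) (D : Finset (ℤ × ℤ)) (Λ : AddSubgroup ((domG D ∅).V → ℤ)) (u : ℤ × ℤ → ℤ) (τ : Bond → ℤ) :
    0 < W b D Λ u τ := by
  unfold W
  rw [← lsys_wT_zero]
  exact lsys_pos _ (lawOf_ok b hb D Λ) _ _

theorem Phi_pos' : PhiPos := fun b hb D P τ => div_pos (W_pos b hb D _ _ _) (W_pos b hb D _ _ _)

theorem W_congr (b : ℝ) (D : Finset (ℤ × ℤ)) (Λ : AddSubgroup ((domG D ∅).V → ℤ)) (u : ℤ × ℤ → ℤ) (τ τ' : Bond → ℤ)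
    (h : ∀ e : Bond, e.1 ∈ D → e.snd ∈ D → τ e = τ' e) : W b D Λ u τ = W b D Λ u τ' := by
  have : (domFnE τ : (domG D ∅).E → ℤ) = domFnE τ' := by
    funext e
    have he := mem_domBonds.1 e.2
    exact h _ he.1 he.2
  unfold W
  rw [this]

theorem Phi_congr' : PhiCongr := fun b D P τ τ' h => by
  unfold Phi
  rw [W_congr b D _ 0 τ τ' h]

/-- the zero datum -/
theorem W_zero (b : ℝ) (D : Finset (ℤ × ℤ)) (Λ : AddSubgroup ((domG D ∅).V → ℤ)) : W b D Λ 0 0 = ((lawOf D Λ).sys b).w 0 := by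
  unfold W
  congr 1
  apply Prod.ext
  · funext e
    show (0 : ℤ) - 0 + 0 = 0
    norm_num
  · funext o
    exact isEmptyElim (α := Empty) o

/-! ### monotonicity -/

/-- the refinement `(D', Λ') ⟶ (D, Λ)`, `D' ⊆ D`, restrictions of `Λ` lie in `Λ'` -/
def refOf (b : ℝ) {D D' : Finset (ℤ × ℤ)} (hD : D' ⊆ D) (Λ : AddSubgroup ((domG D ∅).V → ℤ)) (Λ' : AddSubgroup ((domG D' ∅).V → ℤ))
    (hΛ : ∀ h ∈ Λ, (fun v : (domG D' ∅).V => h ⟨v.1, hD v.2⟩) ∈ Λ') : LSys.Ref ((lawOf D' Λ').sys b) ((lawOf D Λ).sys b) where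
  iE := ⟨fun e => ⟨e.1, mem_domBonds.2 ⟨hD (mem_domBonds.1 e.2).1, hD (mem_domBonds.1 e.2).2⟩⟩, fun e e' h => by
    apply Subtype.ext
    exact congrArg (fun x : (domG D ∅).E => x.1) h⟩
  iO := ⟨fun o => o, fun _ _ h => h⟩
  hb := fun _ => rfl
  map_mem := by
    rintro z ⟨h, hh, rfl⟩
    refine ⟨_, hΛ h hh, ?_⟩
    apply Prod.ext
    · rfl
    · funext o
      exact isEmptyElim (α := Empty) o

theorem W_ratio_mono (b : ℝ) (hb : 0 < b) {D D' : Finset (ℤ × ℤ)} (hD : D' ⊆ D) (Λ : AddSubgroup ((domG D ∅).V → ℤ))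
    (Λ' : AddSubgroup ((domG D' ∅).V → ℤ)) (hΛ : ∀ h ∈ Λ, (fun v : (domG D' ∅).V => h ⟨v.1, hD v.2⟩) ∈ Λ')
    (u : ℤ × ℤ → ℤ) (τ : Bond → ℤ) : W b D Λ u τ / W b D Λ 0 0 ≤ W b D' Λ' u τ / W b D' Λ' 0 0 := by
  have := lsys_ratio_mono (refOf b hD Λ Λ' hΛ) (lawOf_ok b hb D' Λ') (lawOf_ok b hb D Λ)
    (HLaw.Aff.amb (H := lawOf D Λ) ⟨domFn u, domFnE τ, fun o => Empty.elim o⟩ b) 0
  rw [AddMonoidHom.zero_comp, lsys_wT_zero, lsys_wT_zero] at this
  rw [W_zero, W_zero]
  refine le_trans this (le_of_eq ?_)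
  congr 1

theorem Phi_mono' : PhiMono := fun b hb D D' P P' τ hD hP =>
  W_ratio_mono b hb hD (pinL D P) (pinL D' P') (fun h hh v hv => hh ⟨v.1, hD v.2⟩ (hP hv)) 0 τ

/-! ### transport between subsets of `ℤ²` -/

theorem dom_val_congr {D : Finset (ℤ × ℤ)} (h : (domG D ∅).V → ℤ) {z z' : ℤ × ℤ} (hz : z ∈ D) (hz' : z' ∈ D) (e : z = z') :
    h ⟨z, hz⟩ = h ⟨z', hz'⟩ := by
  subst e
  rfl

/-- **transport**: a site map `φ : D → D'`, a bond map `i` (injective on the bonds of `D`) covering `φ` up to orientation (`ε = ±1`);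
the heights of `Λ'` are constant along the extra bonds; `h' ↦ h' ∘ φ` maps `Λ'` onto `Λ`. -/
theorem W_transport (b : ℝ) (D D' : Finset (ℤ × ℤ)) (Λ : AddSubgroup ((domG D ∅).V → ℤ)) (Λ' : AddSubgroup ((domG D' ∅).V → ℤ))
    (φ : ℤ × ℤ → ℤ × ℤ) (hφ : ∀ z ∈ D, φ z ∈ D') (i : Bond → Bond) (ε : Bond → ℤ)
    (hi : ∀ e e', e ∈ domBonds D ∅ → e' ∈ domBonds D ∅ → i e = i e' → e = e')
    (hε : ∀ e ∈ domBonds D ∅, (ε e = 1 ∧ (i e).1 = φ e.1 ∧ (i e).snd = φ e.snd) ∨ (ε e = -1 ∧ (i e).1 = φ e.snd ∧ (i e).snd = φ e.1))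
    (hL0 : ∀ h' ∈ Λ', ∀ e' : (domG D' ∅).E, (∀ e ∈ domBonds D ∅, i e ≠ e'.1) →
      h' ((domG D' ∅).tgt e') = h' ((domG D' ∅).src e'))
    (hmap : ∀ h' ∈ Λ', (fun v : (domG D ∅).V => h' ⟨φ v.1, hφ v.1 v.2⟩) ∈ Λ)
    (hsurj : ∀ h ∈ Λ, ∃ h' ∈ Λ', ∀ v : (domG D ∅).V, h' ⟨φ v.1, hφ v.1 v.2⟩ = h v) :
    ∃ N : ℕ, ∀ (u u' : ℤ × ℤ → ℤ) (τ τ' : Bond → ℤ),
      (∀ e ∈ domBonds D ∅, u e.snd - u e.1 + τ e = ε e * (u' (i e).snd - u' (i e).1 + τ' (i e))) →
      (∀ e' ∈ domBonds D' ∅, (∀ e ∈ domBonds D ∅, i e ≠ e') → u' e'.snd - u' e'.1 + τ' e' = 0) →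
      W b D' Λ' u' τ' = bes b 0 ^ N * W b D Λ u τ := by
  have hmem : ∀ e ∈ domBonds D ∅, i e ∈ domBonds D' ∅ := by
    intro e he
    have h1 := mem_domBonds.1 he
    rw [mem_domBonds]
    rcases hε e he with ⟨_, h2, h3⟩ | ⟨_, h2, h3⟩
    · rw [h2, h3]; exact ⟨hφ _ h1.1, hφ _ h1.2⟩
    · rw [h2, h3]; exact ⟨hφ _ h1.2, hφ _ h1.1⟩
  let iE : (domG D ∅).E → (domG D' ∅).E := fun e => ⟨i e.1, hmem e.1 e.2⟩
  have hiE : Function.Injective iE := by
    intro e e' h
    apply Subtype.ext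
    exact hi _ _ e.2 e'.2 (congrArg (fun x : (domG D' ∅).E => x.1) h)
  have hnr : ∀ e' : (domG D' ∅).E, e' ∉ Set.range iE → ∀ e ∈ domBonds D ∅, i e ≠ e'.1 := by
    intro e' he' e he h
    exact he' ⟨⟨e, he⟩, Subtype.ext h⟩
  have hgrad : ∀ (h' : (domG D' ∅).V → ℤ) (e : (domG D ∅).E),
      h' ⟨φ e.1.snd, hφ _ (mem_domBonds.1 e.2).2⟩ - h' ⟨φ e.1.1, hφ _ (mem_domBonds.1 e.2).1⟩
        = ε e.1 * (h' ((domG D' ∅).tgt (iE e)) - h' ((domG D' ∅).src (iE e))) := by
    intro h' e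
    show _ = ε e.1 * (h' ⟨(i e.1).snd, _⟩ - h' ⟨(i e.1).1, _⟩)
    rcases hε e.1 e.2 with ⟨h1, h2, h3⟩ | ⟨h1, h2, h3⟩
    · rw [h1, one_mul, dom_val_congr h' _ (hφ _ (mem_domBonds.1 e.2).2) h3, dom_val_congr h' _ (hφ _ (mem_domBonds.1 e.2).1) h2]
    · rw [h1, dom_val_congr h' _ (hφ _ (mem_domBonds.1 e.2).1) h3, dom_val_congr h' _ (hφ _ (mem_domBonds.1 e.2).2) h2]
      ring
  refine ⟨(Finset.univ.filter (fun e' => e' ∉ Set.range iE)).card, fun u u' τ τ' hα hα0 => ?_⟩
  exact hlaw_transport (lawOf D Λ) (lawOf D' Λ') b iE hiE (fun e => ε e.1)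
    (fun e => by rcases hε e.1 e.2 with h | h; exacts [Or.inl h.1, Or.inr h.1])
    ⟨domFn u, domFnE τ, fun o => Empty.elim o⟩ ⟨domFn u', domFnE τ', fun o => Empty.elim o⟩
    (fun e => hα e.1 e.2) (fun e' he' => hα0 e'.1 e'.2 (hnr e' he'))
    (fun h' hh' e' he' => hL0 h' hh' e' (hnr e' he'))
    (fun h' hh' => ⟨_, hmap h' hh', fun e => hgrad h' e⟩)
    (fun h hh => by
      obtain ⟨h', hh', hv⟩ := hsurj h hh
      refine ⟨h', hh', fun e => ?_⟩
      rw [← hgrad h' e, hv ⟨e.1.snd, _⟩, hv ⟨e.1.1, _⟩]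
      rfl)

theorem bes_zero_pos (b : ℝ) : 0 < bes b 0 := by
  unfold bes
  refine mul_pos (Real.exp_pos _) ?_
  refine (bes_inner_summable b 0).tsum_pos (fun m => ?_) 0 (by simp)
  have : (b / 2) ^ (2 * m + (0 : ℤ).natAbs) = ((b / 2) ^ 2) ^ m := by
    rw [Int.natAbs_zero, add_zero, pow_mul]
  rw [this]
  positivity

/-- from a transport to the equality of the ratios -/
theorem ratio_of_transport {b : ℝ} {N : ℕ} {x y x' y' : ℝ} (h1 : x' = bes b 0 ^ N * x) (h2 : y' = bes b 0 ^ N * y) :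
    x' / y' = x / y := by
  have : bes b 0 ^ N ≠ 0 := (pow_pos (bes_zero_pos b) N).ne'
  rw [h1, h2, mul_div_mul_left _ _ this]

theorem snd_add (e : Bond) (x : ℤ × ℤ) : Bond.snd (e.1 + x, e.2) = e.snd + x := by
  obtain ⟨⟨a, c⟩, d⟩ := e
  obtain ⟨x1, x2⟩ := x
  cases d <;> simp [Bond.snd] <;> ring

theorem mem_pinL_empty {D : Finset (ℤ × ℤ)} (h : (domG D ∅).V → ℤ) : h ∈ pinL D ∅ := fun _ hv => absurd hv (Set.notMem_empty _)

theorem Phi_shift' : PhiShift := by
  intro b x A τ T hloc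
  have hφ : ∀ z ∈ A, z + x ∈ shift x A := fun z hz => mem_shift.2 (by simpa using hz)
  obtain ⟨N, hN⟩ := W_transport b A (shift x A) (pinL A ∅) (pinL (shift x A) ∅) (fun z => z + x) hφ
    (fun e => (e.1 + x, e.2)) (fun _ => 1)
    (by
      intro e e' _ _ h
      have h1 := congrArg Prod.fst h
      have h2 := congrArg Prod.snd h
      simp only [add_left_inj] at h1
      exact Prod.ext h1 h2)
    (fun e _ => Or.inl ⟨rfl, rfl, snd_add e x⟩)
    (by
      intro h' _ e' he'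
      exfalso
      have h1 := mem_domBonds.1 e'.2
      refine he' (e'.1.1 - x, e'.1.2) (mem_domBonds.2 ⟨mem_shift.1 h1.1, ?_⟩) (by simp)
      have := snd_add (e'.1.1 - x, e'.1.2) x
      simp only [sub_add_cancel] at this
      have h2 : Bond.snd (e'.1.1 - x, e'.1.2) = e'.1.snd - x := by
        rw [eq_sub_iff_add_eq, ← this]
      rw [h2]
      exact mem_shift.1 h1.2)
    (fun _ _ => mem_pinL_empty _)
    (by
      intro h _
      refine ⟨fun v => h ⟨v.1 - x, mem_shift.1 v.2⟩, mem_pinL_empty _, fun v => ?_⟩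
      exact dom_val_congr h _ _ (by simp))
  unfold Phi
  refine ratio_of_transport (hN 0 0 T τ ?_ ?_) (hN 0 0 0 0 ?_ ?_)
  · intro e he
    have h1 := mem_domBonds.1 he
    have := hloc (e.1 + x, e.2) (hφ _ h1.1) (by rw [snd_add]; exact hφ _ h1.2)
    simp only [add_sub_cancel_right] at this
    simp [this]
  · intro e' he' hne
    exfalso
    have h1 := mem_domBonds.1 he'
    refine hne (e'.1 - x, e'.2) (mem_domBonds.2 ⟨mem_shift.1 h1.1, ?_⟩) (by simp)
    have := snd_add (e'.1 - x, e'.2) x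
    simp only [sub_add_cancel] at this
    have h2 : Bond.snd (e'.1 - x, e'.2) = e'.snd - x := by
      rw [eq_sub_iff_add_eq, ← this]
    rw [h2]
    exact mem_shift.1 h1.2
  · intro e _
    simp
  · intro e' _ _
    simp

/-! ### reflection -/

/-- the reflection `i ↦ -1-i` on sites and on bonds -/
def reflS (z : ℤ × ℤ) : ℤ × ℤ := (-1 - z.1, z.2)
def reflB (e : Bond) : Bond := if e.2 then ((-2 - e.1.1, e.1.2), true) else ((-1 - e.1.1, e.1.2), false)

theorem reflS_reflS (z : ℤ × ℤ) : reflS (reflS z) = z := by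
  obtain ⟨a, c⟩ := z
  simp [reflS]

theorem reflB_reflB (e : Bond) : reflB (reflB e) = e := by
  obtain ⟨⟨a, c⟩, d⟩ := e
  cases d <;> simp [reflB]

theorem reflB_true (e : Bond) (h : e.2 = true) : (reflB e).1 = reflS e.snd ∧ (reflB e).snd = reflS e.1 := by
  obtain ⟨⟨a, c⟩, d⟩ := e
  simp only at h
  subst h
  simp only [reflB, reflS, Bond.snd, if_true, Prod.mk.injEq, and_true]
  constructor <;> ring

theorem reflB_false (e : Bond) (h : e.2 = false) : (reflB e).1 = reflS e.1 ∧ (reflB e).snd = reflS e.snd := by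
  obtain ⟨⟨a, c⟩, d⟩ := e
  simp only at h
  subst h
  simp [reflB, reflS, Bond.snd]

theorem reflB_mem {D : Finset (ℤ × ℤ)} (hD : ∀ z : ℤ × ℤ, z ∈ D → reflS z ∈ D) {e : Bond} (he : e ∈ domBonds D ∅) :
    reflB e ∈ domBonds D ∅ := by
  have h1 := mem_domBonds.1 he
  rw [mem_domBonds]
  cases h : e.2
  · rw [(reflB_false e h).1, (reflB_false e h).2]; exact ⟨hD _ h1.1, hD _ h1.2⟩
  · rw [(reflB_true e h).1, (reflB_true e h).2]; exact ⟨hD _ h1.2, hD _ h1.1⟩

theorem Phi_refl' : PhiRefl := by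
  intro b D ρ hD
  have hD' : ∀ z : ℤ × ℤ, z ∈ D → reflS z ∈ D := hD
  obtain ⟨N, hN⟩ := W_transport b D D (pinL D ∅) (pinL D ∅) reflS hD' reflB (fun e => if e.2 then -1 else 1)
    (by
      intro e e' _ _ h
      rw [← reflB_reflB e, h, reflB_reflB])
    (by
      intro e _
      cases h : e.2
      · exact Or.inl ⟨by simp, reflB_false e h⟩
      · exact Or.inr ⟨by simp, reflB_true e h⟩)
    (by
      intro h' _ e' he'
      exact absurd (reflB_reflB e'.1) (he' _ (reflB_mem hD' e'.2)))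
    (fun _ _ => mem_pinL_empty _)
    (by
      intro h _
      refine ⟨fun v => h ⟨reflS v.1, hD' _ v.2⟩, mem_pinL_empty _, fun v => ?_⟩
      exact dom_val_congr h _ _ (reflS_reflS _))
  unfold Phi
  refine ratio_of_transport (hN 0 0 (rayR ρ) (rayL ρ) ?_ ?_) (hN 0 0 0 0 ?_ ?_)
  · intro e _
    obtain ⟨⟨a, c⟩, d⟩ := e
    cases d
    · simp only [rayR, rayL, segConn, reflB, Pi.zero_apply, sub_self, zero_add, Bool.false_eq_true, if_false, one_mul,
        true_and]
      congr 1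
      apply propext
      constructor
      · rintro ⟨h1, h2, h3⟩
        exact ⟨h1, by omega, by omega⟩
      · rintro ⟨h1, h2, h3⟩
        exact ⟨h1, by omega, by omega⟩
    · simp [rayR, rayL, segConn, reflB]
  · intro e' he' hne
    exact absurd (reflB_reflB e') (hne _ (reflB_mem hD' he'))
  · intro e _
    simp
  · intro e' _ _
    simp

/-! ### deletion of pinned regions -/

/-- the bonds between pinned sites carry the same factor `p_b(0)` in both sums -/
theorem Phi_pin_ext (b : ℝ) (D D' : Finset (ℤ × ℤ)) (P : Set (ℤ × ℤ)) (τ : Bond → ℤ) (hD : D' ⊆ D)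
    (hx : ∀ e : Bond, e.1 ∈ D → e.snd ∈ D → ¬ (e.1 ∈ D' ∧ e.snd ∈ D') → e.1 ∈ P ∧ e.snd ∈ P ∧ τ e = 0) :
    Phi b D P τ = Phi b D' P τ := by
  obtain ⟨N, hN⟩ := W_transport b D' D (pinL D' P) (pinL D P) id (fun z hz => hD hz) id (fun _ => 1)
    (fun _ _ _ _ h => h)
    (fun _ _ => Or.inl ⟨rfl, rfl, rfl⟩)
    (by
      intro h' hh' e' he'
      have h1 := mem_domBonds.1 e'.2
      have h2 := hx e'.1 h1.1 h1.2 (fun h => he' e'.1 (mem_domBonds.2 h) rfl)
      rw [hh' ((domG D ∅).tgt e') h2.2.1, hh' ((domG D ∅).src e') h2.1])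
    (fun h' hh' v hv => hh' ⟨v.1, hD v.2⟩ hv)
    (by
      intro h hh
      refine ⟨fun v => if hv : v.1 ∈ D' then h ⟨v.1, hv⟩ else 0, ?_, fun v => ?_⟩
      · intro v hv
        by_cases hv' : v.1 ∈ D'
        · simp only [hv', dif_pos]
          exact hh ⟨v.1, hv'⟩ hv
        · simp only [hv', dif_neg, not_false_iff]
      · have : v.1 ∈ D' := v.2
        simp only [id, this, dif_pos]
        rfl)
  unfold Phi
  refine ratio_of_transport (hN 0 0 τ τ ?_ ?_) (hN 0 0 0 0 ?_ ?_)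
  · intro e _
    simp
  · intro e' he' hne
    have h1 := mem_domBonds.1 he'
    have h2 := hx e' h1.1 h1.2 (fun h => hne e' (mem_domBonds.2 h) rfl)
    simp [h2.2.2]
  · intro e _
    simp
  · intro e' _ _
    simp

end

end Claimed.Agent.R285.F23

/-!
# ROW 285, layer F3: the thermodynamic bracket [F] (3.14) from the box duality   (owner helper12)     NO sorry.
-/


namespace Claimed.Agent.R285.F23

open Filter Topology Claims.C0459
open scoped Classical

theorem seg_support {r N : ℕ} (hr : r ≤ N) (hN : 1 ≤ N) {e : Bond} (h : segConn (0, 0) r e ≠ 0) : e.1 ∈ sq N ∧ e.snd ∈ sq N := by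
  obtain ⟨⟨a, c⟩, d⟩ := e
  simp only [segConn, ne_eq, ite_eq_right_iff, one_ne_zero, imp_false, not_not] at h
  obtain ⟨h1, h2, h3, h4⟩ := h
  subst h1
  simp only [mem_sq, Bond.snd, Bool.false_eq_true, if_false]
  have : (r : ℤ) ≤ N := by exact_mod_cast hr
  have : (1 : ℤ) ≤ N := by exact_mod_cast hN
  omega

theorem nbr_sq (m : ℕ) (e : Bond) (h : e.1 ∈ sq m ∨ e.snd ∈ sq m) : e.1 ∈ sq (m + 1) ∧ e.snd ∈ sq (m + 1) := by
  obtain ⟨⟨a, c⟩, d⟩ := e
  cases d <;> simp only [mem_sq, Bond.snd, Bool.false_eq_true, if_false, if_true] at h ⊢ <;> push_cast <;> omega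

/-- the pinned comparator does not depend on the box -/
theorem Phi_rim_box (b : ℝ) (q r K : ℕ) (hq : 1 ≤ q) (hr : 1 ≤ r) (hK : 6 * q * r + 1 ≤ K) :
    Phi b (sq K) (rim q r) (segConn (0, 0) r) = Phi b (sq (6 * q * r + 1)) (rim q r) (segConn (0, 0) r) := by
  have hm : r ≤ 6 * q * r := by nlinarith
  refine Phi_pin_ext b _ _ _ _ (sq_mono hK) fun e _ _ hne => ?_
  have h0 : segConn (0, 0) r e = 0 := by
    by_contra h
    have := seg_support hm (by omega) h
    exact hne ⟨sq_mono (Nat.le_succ _) this.1, sq_mono (Nat.le_succ _) this.2⟩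
  refine ⟨?_, ?_, h0⟩
  · intro h
    exact hne (nbr_sq _ e (Or.inl (by exact_mod_cast h)))
  · intro h
    exact hne (nbr_sq _ e (Or.inr (by exact_mod_cast h)))

theorem bracket_of (hBD : BoxDuality) : Bracket := by
  intro b hb q r hq hr
  have hlim := xy_corr_tendsto b hb.le r
  have h8 : r ≤ 8 * q * r := by nlinarith
  have h68 : 6 * q * r + 1 ≤ 8 * q * r := by nlinarith
  constructor
  · refine ge_of_tendsto hlim ?_
    filter_upwards [eventually_ge_atTop (8 * q * r)] with R hR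
    rw [hBD b hb R r (by omega), Phi_rim_box b q r _ hq hr h68, ← Phi_rim_box b q r (R + 1) hq hr (by omega)]
    refine Phi_mono' b hb _ _ _ _ _ (Finset.Subset.refl _) ?_
    intro z hz h6
    exact hz.2 (by
      have : z ∈ sq (6 * q * r) := by exact_mod_cast h6
      exact_mod_cast sq_mono (by omega : 6 * q * r ≤ R) this)
  · refine le_of_tendsto hlim ?_
    filter_upwards [eventually_ge_atTop (8 * q * r)] with R hR
    rw [hBD b hb R r (by omega)]
    exact Phi_mono' b hb _ _ _ _ _ (sq_mono (by omega)) (Set.empty_subset _)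

end Claimed.Agent.R285.F23

/-!
# ROW 285, layer F3: `CenterBridge`: the free square `square (2n)` of `Defs.lean` is `domG (sq n) ∅`   (owner helper12)     NO sorry.
-/


namespace Claimed.Agent.R285.F23

open Filter Topology Claims.C0459
open scoped Classical

noncomputable section

/-- position of a vertex of `square (2n)` in `sq n` -/
def toZ (n : ℕ) (v : (square (2 * n)).V) : ℤ × ℤ := ((v.1.1 : ℤ) - n, (v.2.1 : ℤ) - n)

theorem toZ_mem (n : ℕ) (v : (square (2 * n)).V) : toZ n v ∈ sq n := by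
  rw [mem_sq]
  have h1 := v.1.2
  have h2 := v.2.2
  simp only [toZ]
  omega

/-- the inverse map -/
def ofZ (n : ℕ) (z : ℤ × ℤ) (hz : z ∈ sq n) : (square (2 * n)).V :=
  (⟨(z.1 + n).toNat, by rw [mem_sq] at hz; omega⟩, ⟨(z.2 + n).toNat, by rw [mem_sq] at hz; omega⟩)

theorem toZ_ofZ (n : ℕ) (z : ℤ × ℤ) (hz : z ∈ sq n) : toZ n (ofZ n z hz) = z := by
  rw [mem_sq] at hz
  apply Prod.ext
  · simp only [toZ, ofZ]
    omega
  · simp only [toZ, ofZ]
    omega

theorem toZ_injective (n : ℕ) : Function.Injective (toZ n) := by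
  intro v w h
  have h1 := congrArg Prod.fst h
  have h2 := congrArg Prod.snd h
  simp only [toZ] at h1 h2
  apply Prod.ext
  · apply Fin.ext; omega
  · apply Fin.ext; omega

theorem toZ_tgt (n : ℕ) (e : (square (2 * n)).E) :
    toZ n ((square (2 * n)).tgt e) = Bond.snd (toZ n ((square (2 * n)).src e), e.1.2) := by
  obtain ⟨⟨⟨x, y⟩, d⟩, he⟩ := e
  cases d
  · simp only [square, toZ, Bond.snd]
    simp
    ring
  · simp only [square, toZ, Bond.snd]
    simp
    ring

/-- the bond of an edge of the square -/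
def toB (n : ℕ) (e : (square (2 * n)).E) : (domG (sq n) ∅).E :=
  ⟨(toZ n ((square (2 * n)).src e), e.1.2), mem_domBonds.2 ⟨toZ_mem n _, by rw [← toZ_tgt]; exact toZ_mem n _⟩⟩

theorem toB_injective (n : ℕ) : Function.Injective (toB n) := by
  intro e e' h
  have h0 : ((toZ n ((square (2 * n)).src e), e.1.2) : Bond) = (toZ n ((square (2 * n)).src e'), e'.1.2) :=
    congrArg (fun x : (domG (sq n) ∅).E => x.1) h
  have h1 : toZ n ((square (2 * n)).src e) = toZ n ((square (2 * n)).src e') := (Prod.mk.inj h0).1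
  have h2 : e.1.2 = e'.1.2 := (Prod.mk.inj h0).2
  apply Subtype.ext
  exact Prod.ext (toZ_injective n h1) h2

theorem toB_surjective (n : ℕ) : Function.Surjective (toB n) := by
  rintro ⟨⟨z, d⟩, he⟩
  have h1 := mem_domBonds.1 he
  have hz : z ∈ sq n := h1.1
  have hs : Bond.snd (z, d) ∈ sq n := h1.2
  refine ⟨⟨(ofZ n z hz, d), ?_⟩, ?_⟩
  · rw [mem_sq] at hz hs
    cases d
    · simp only [Bond.snd, Bool.false_eq_true, if_false] at hs
      simp only [ofZ, Bool.false_eq_true, if_false]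
      omega
    · simp only [Bond.snd, if_true] at hs
      simp only [ofZ, if_true]
      omega
  · apply Subtype.ext
    show (toZ n (ofZ n z hz), d) = (z, d)
    rw [toZ_ofZ]

/-- the square pinned at a corner is proper -/
theorem square_proper (m : ℕ) (hm : 0 < m) :
    (HLaw.plain (square m) {((⟨0, hm⟩ : Fin m), (⟨0, hm⟩ : Fin m))}).Proper := by
  intro h hh hc
  have hg : ∀ e : (square m).E, h ((square m).tgt e) = h ((square m).src e) := by
    intro e
    have := congrFun (congrArg Prod.fst hc) e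
    have h2 : h ((square m).tgt e) - h ((square m).src e) = 0 := this
    omega
  have h0 : h ((⟨0, hm⟩ : Fin m), (⟨0, hm⟩ : Fin m)) = 0 := hh _ rfl
  have hx : ∀ (x : ℕ) (hx : x < m), h ((⟨x, hx⟩ : Fin m), (⟨0, hm⟩ : Fin m)) = 0 := by
    intro x
    induction x with
    | zero => intro _; exact h0
    | succ k ih =>
      intro hk
      have := hg ⟨(((⟨k, by omega⟩ : Fin m), (⟨0, hm⟩ : Fin m)), true), by simpa using hk⟩
      simp only [square] at this
      rw [ih (by omega)] at this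
      simpa using this
  have hy : ∀ (y : ℕ) (hy : y < m) (x : Fin m), h (x, (⟨y, hy⟩ : Fin m)) = 0 := by
    intro y
    induction y with
    | zero => intro _ x; exact hx x.1 x.2
    | succ k ih =>
      intro hk x
      have := hg ⟨((x, (⟨k, by omega⟩ : Fin m)), false), by simpa using hk⟩
      simp only [square] at this
      rw [ih (by omega)] at this
      simpa using this
  funext v
  exact hy v.2.1 v.2.2 v.1

theorem center_bridge' : CenterBridge := by
  intro b n hn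
  have hn0 : n ≠ 0 := by omega
  have h2n : 0 < 2 * n := by omega
  unfold centerMag
  rw [dif_neg hn0]
  unfold HGraph.ratio
  rw [hgraph_Zs_eq, hgraph_Zs_eq, HLaw.Z_eq_w _ (square_proper (2 * n) h2n), HLaw.Z_eq_w _ (square_proper (2 * n) h2n)]
  have : IsEmpty (HLaw.plain (square (2 * n)) {((⟨0, h2n⟩ : Fin (2 * n)), (⟨0, h2n⟩ : Fin (2 * n)))}).O :=
    inferInstanceAs (IsEmpty Empty)
  have hT := fun (a : (HLaw.plain (square (2 * n)) {((⟨0, h2n⟩ : Fin (2 * n)), (⟨0, h2n⟩ : Fin (2 * n)))}).Aff)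
      (a' : (lawOf (sq n) (pinL (sq n) ∅)).Aff) h1 h2 =>
    hlaw_transport (HLaw.plain (square (2 * n)) {((⟨0, h2n⟩ : Fin (2 * n)), (⟨0, h2n⟩ : Fin (2 * n)))})
      (lawOf (sq n) (pinL (sq n) ∅)) b (toB n) (toB_injective n) (fun _ => 1) (fun _ => Or.inl rfl) a a' h1 h2
      (fun h' _ e' he' => absurd (toB_surjective n e') he')
      (by
        intro h' _
        refine ⟨fun v => h' ⟨toZ n v, toZ_mem n v⟩ - h' ⟨toZ n (⟨0, h2n⟩, ⟨0, h2n⟩), toZ_mem n _⟩, ?_, fun e => ?_⟩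
        · intro v hv
          have hv' : v = (⟨0, h2n⟩, ⟨0, h2n⟩) := hv
          subst hv'
          exact sub_self _
        · rw [one_mul]
          beta_reduce
          have : h' ⟨toZ n ((square (2 * n)).tgt e), toZ_mem n _⟩ = h' ((domG (sq n) ∅).tgt (toB n e)) :=
            dom_val_congr h' _ _ (toZ_tgt n e)
          rw [this]
          show _ = h' ((domG (sq n) ∅).tgt (toB n e)) - h' ⟨toZ n ((square (2 * n)).src e), toZ_mem n _⟩
          ring)
      (by
        intro h _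
        refine ⟨fun v => h (ofZ n v.1 v.2), mem_pinL_empty _, fun e => ?_⟩
        rw [one_mul]
        have e1 : ofZ n ((domG (sq n) ∅).tgt (toB n e)).1 ((domG (sq n) ∅).tgt (toB n e)).2 = (square (2 * n)).tgt e := by
          apply toZ_injective n
          rw [toZ_ofZ]
          exact (toZ_tgt n e).symm
        have e2 : ofZ n ((domG (sq n) ∅).src (toB n e)).1 ((domG (sq n) ∅).src (toB n e)).2 = (square (2 * n)).src e := by
          apply toZ_injective n
          rw [toZ_ofZ]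
          rfl
        beta_reduce
        rw [e1, e2])
  unfold Phi W
  symm
  refine ratio_of_transport (hT _ _ ?_ ?_) (hT _ _ ?_ ?_)
  · intro e
    obtain ⟨⟨⟨x, y⟩, d⟩, he⟩ := e
    have hx := x.2
    show (0 : ℤ) - 0 + _ = 1 * ((0 : ℤ) - 0 + segConn (0, 0) n (toZ n (x, y), d))
    simp only [segConn, toZ, sub_self, zero_add, one_mul]
    congr 1
    apply propext
    constructor
    · rintro ⟨h1, h2, h3⟩
      exact ⟨h1, by omega, by omega, by omega⟩
    · rintro ⟨h1, h2, h3, _⟩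
      exact ⟨h1, by omega, by omega⟩
  · intro e' he'
    exact absurd (toB_surjective n e') he'
  · intro e
    show (0 : ℤ) - 0 + 0 = 1 * ((0 : ℤ) - 0 + 0)
    norm_num
  · intro e' he'
    exact absurd (toB_surjective n e') he'

end

end Claimed.Agent.R285.F23

/-!
# ROW 285, layer F3: `BoxDuality` from `xy_duality_box` (helper177): the dual graph `rectD` (bounded faces + ONE exterior face) is `domG (sq (R+1)) ∅` with the layer `sq (R+1) \ sq R` pinned.
(owner helper12)     NO sorry in this file.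
-/


namespace Claimed.Agent.R285.F23

open Filter Topology Claims.C0459
open scoped Classical

noncomputable section

/-- abbreviation -/
abbrev bxD (R : ℕ) : HGraph := rectD (-(R : ℤ)) R (-(R : ℤ)) R

theorem mem_rectF {R : ℕ} {z : ℤ × ℤ} : z ∈ rectF (-(R : ℤ)) R (-(R : ℤ)) R ↔ z ∈ sq R := Iff.rfl

/-- the layer -/
def layer (R : ℕ) : Set (ℤ × ℤ) := ↑(sq (R + 1)) \ ↑(sq R)

/-- the dual bond of a primal edge -/
def bxB (R : ℕ) (e : (bxD R).E) : Bond :=
  match e with
  | Sum.inl p => ((p.1.1, p.1.2 - 1), false)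
  | Sum.inr p => ((p.1.1 - 1, p.1.2), true)

def bxS (R : ℕ) (e : (bxD R).E) : ℤ :=
  match e with
  | Sum.inl _ => 1
  | Sum.inr _ => -1

theorem bxB_mem (R : ℕ) (e : (bxD R).E) : bxB R e ∈ domBonds (sq (R + 1)) ∅ := by
  rw [mem_domBonds]
  rcases e with p | p
  · have := p.2
    simp only [rectH, Finset.mem_product, Finset.mem_Ico, Finset.mem_Icc] at this
    simp only [bxB, Bond.snd, mem_sq, Bool.false_eq_true, if_false]
    push_cast
    omega
  · have := p.2
    simp only [rectV, Finset.mem_product, Finset.mem_Ico, Finset.mem_Icc] at this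
    simp only [bxB, Bond.snd, mem_sq, if_true]
    push_cast
    omega

def bxE (R : ℕ) (e : (bxD R).E) : (domG (sq (R + 1)) ∅).E := ⟨bxB R e, bxB_mem R e⟩

theorem bxE_injective (R : ℕ) : Function.Injective (bxE R) := by
  intro e e' h
  have h0 : bxB R e = bxB R e' := congrArg (fun x : (domG (sq (R + 1)) ∅).E => x.1) h
  rcases e with p | p <;> rcases e' with p' | p' <;> simp only [bxB, Prod.mk.injEq] at h0
  · congr 1
    apply Subtype.ext
    apply Prod.ext <;> omega
  · simp at h0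
  · simp at h0
  · congr 1
    apply Subtype.ext
    apply Prod.ext <;> omega

/-- a bond which is not the dual of a primal edge joins two sites of the layer -/
theorem bxE_range (R : ℕ) (e' : (domG (sq (R + 1)) ∅).E) (he' : e' ∉ Set.range (bxE R)) :
    e'.1.1 ∈ layer R ∧ e'.1.snd ∈ layer R := by
  obtain ⟨⟨⟨a, c⟩, d⟩, he⟩ := e'
  have h1 := mem_domBonds.1 he
  have h2 := h1.1
  have h3 := h1.2
  simp only [layer, Set.mem_sdiff, Finset.mem_coe]
  refine ⟨⟨h2, fun h4 => he' ?_⟩, ⟨h3, fun h4 => he' ?_⟩⟩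
  all_goals
    cases d
    · simp only [Bond.snd, mem_sq, Bool.false_eq_true, if_false] at h2 h3 h4
      push_cast at h2 h3
      refine ⟨Sum.inl ⟨(a, c + 1), ?_⟩, ?_⟩
      · simp only [rectH, Finset.mem_product, Finset.mem_Ico, Finset.mem_Icc]
        omega
      · apply Subtype.ext
        simp [bxE, bxB]
    · simp only [Bond.snd, mem_sq, if_true] at h2 h3 h4
      push_cast at h2 h3
      refine ⟨Sum.inr ⟨(a + 1, c), ?_⟩, ?_⟩
      · simp only [rectV, Finset.mem_product, Finset.mem_Ico, Finset.mem_Icc]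
        omega
      · apply Subtype.ext
        simp [bxE, bxB]

/-- the face of a site -/
abbrev bxF (R : ℕ) (z : ℤ × ℤ) : (bxD R).V := rectFace (-(R : ℤ)) R (-(R : ℤ)) R z

theorem bxF_layer {R : ℕ} {z : ℤ × ℤ} (hz : z ∈ layer R) : bxF R z = none := by
  have : z ∉ rectF (-(R : ℤ)) R (-(R : ℤ)) R := fun h => hz.2 (by exact_mod_cast mem_rectF.1 h)
  simp [bxF, rectFace, this]

/-- endpoints -/
theorem bx_ends (R : ℕ) (e : (bxD R).E) :
    (bxS R e = 1 ∧ (bxD R).src e = bxF R (bxB R e).1 ∧ (bxD R).tgt e = bxF R (bxB R e).snd) ∨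
    (bxS R e = -1 ∧ (bxD R).src e = bxF R (bxB R e).snd ∧ (bxD R).tgt e = bxF R (bxB R e).1) := by
  rcases e with p | p
  · left
    refine ⟨rfl, rfl, ?_⟩
    show bxF R p.1 = bxF R (p.1.1, p.1.2 - 1 + 1)
    rw [sub_add_cancel]
  · right
    refine ⟨rfl, ?_, rfl⟩
    show bxF R p.1 = bxF R (p.1.1 - 1 + 1, p.1.2)
    rw [sub_add_cancel]

theorem bxD_proper (R : ℕ) : (HLaw.plain (bxD R) {none}).Proper := by
  intro h hh hc
  have hg : ∀ e : (bxD R).E, h ((bxD R).tgt e) = h ((bxD R).src e) := by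
    intro e
    have := congrFun (congrArg Prod.fst hc) e
    have h2 : h ((bxD R).tgt e) - h ((bxD R).src e) = 0 := this
    omega
  have h0 : h none = 0 := hh _ rfl
  have key : ∀ (k : ℕ) (c : ℤ), -(R : ℤ) ≤ c → c < R → h (bxF R (-(R : ℤ) - 1 + k, c)) = 0 := by
    intro k
    induction k with
    | zero =>
      intro c _ _
      have : ((-(R : ℤ) - 1 + (0 : ℕ), c) : ℤ × ℤ) ∉ rectF (-(R : ℤ)) R (-(R : ℤ)) R := by
        simp only [rectF, Finset.mem_product, Finset.mem_Ico]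
        push_cast
        omega
      simp only [bxF, rectFace, this, dif_neg, not_false_iff]
      exact h0
    | succ k ih =>
      intro c hc1 hc2
      by_cases hk : -(R : ℤ) - 1 + (k + 1 : ℕ) ≤ R
      · have := hg (Sum.inr ⟨(-(R : ℤ) - 1 + (k + 1 : ℕ), c), by
          simp only [rectV, Finset.mem_product, Finset.mem_Ico, Finset.mem_Icc]
          push_cast at hk ⊢
          omega⟩)
        have e1 : (bxD R).tgt (Sum.inr ⟨(-(R : ℤ) - 1 + (k + 1 : ℕ), c), by
          simp only [rectV, Finset.mem_product, Finset.mem_Ico, Finset.mem_Icc]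
          push_cast at hk ⊢
          omega⟩) = bxF R (-(R : ℤ) - 1 + k, c) := by
          show bxF R (-(R : ℤ) - 1 + (k + 1 : ℕ) - 1, c) = _
          congr 2
          push_cast
          ring
        rw [e1, ih c hc1 hc2] at this
        exact this.symm
      · have : ((-(R : ℤ) - 1 + (k + 1 : ℕ), c) : ℤ × ℤ) ∉ rectF (-(R : ℤ)) R (-(R : ℤ)) R := by
          simp only [rectF, Finset.mem_product, Finset.mem_Ico]
          omega
        simp only [bxF, rectFace, this, dif_neg, not_false_iff]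
        exact h0
  funext v
  rcases v with _ | ⟨⟨a, c⟩, hf⟩
  · exact h0
  · have hf' := hf
    simp only [rectF, Finset.mem_product, Finset.mem_Ico] at hf'
    have := key (a + R + 1).toNat c hf'.2.1 hf'.2.2
    have e1 : -(R : ℤ) - 1 + ((a + R + 1).toNat : ℤ) = a := by omega
    rw [e1] at this
    simpa [bxF, rectFace, hf] using this

theorem seg_support' {r N : ℕ} (hr : r ≤ N) (hN : 1 ≤ N) {e : Bond} (h : segConn (0, 0) r e ≠ 0) : e.1 ∈ sq N := by
  obtain ⟨⟨a, c⟩, d⟩ := e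
  simp only [segConn, ne_eq, ite_eq_right_iff, one_ne_zero, imp_false, not_not] at h
  obtain ⟨h1, h2, h3, h4⟩ := h
  subst h1
  simp only [mem_sq]
  have : (r : ℤ) ≤ N := by exact_mod_cast hr
  have : (1 : ℤ) ≤ N := by exact_mod_cast hN
  omega

/-- a height on the big square read on the faces -/
def bxH (R : ℕ) (h' : (domG (sq (R + 1)) ∅).V → ℤ) : (bxD R).V → ℤ
  | none => 0
  | some f => h' ⟨f.1, sq_mono (Nat.le_succ R) (mem_rectF.1 f.2)⟩

theorem bxH_face (R : ℕ) (h' : (domG (sq (R + 1)) ∅).V → ℤ) (hh' : h' ∈ pinL (sq (R + 1)) (layer R)) (z : ℤ × ℤ)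
    (hz : z ∈ sq (R + 1)) : bxH R h' (bxF R z) = h' ⟨z, hz⟩ := by
  by_cases hzR : z ∈ rectF (-(R : ℤ)) R (-(R : ℤ)) R
  · simp only [bxF, rectFace, hzR, dif_pos, bxH]
  · simp only [bxF, rectFace, hzR, dif_neg, not_false_iff, bxH]
    refine (hh' ⟨z, hz⟩ ?_).symm
    exact ⟨by exact_mod_cast hz, fun h => hzR (mem_rectF.2 (by exact_mod_cast h))⟩

theorem box_duality' : BoxDuality := by
  intro b hb R r hr
  rw [xy_duality_box b hb.le R r hr]
  unfold HGraph.ratio
  rw [hgraph_Zs_eq, hgraph_Zs_eq, HLaw.Z_eq_w _ (bxD_proper R), HLaw.Z_eq_w _ (bxD_proper R)]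
  have : IsEmpty (HLaw.plain (bxD R) {none}).O := inferInstanceAs (IsEmpty Empty)
  have hT := fun (a : (HLaw.plain (bxD R) {none}).Aff) (a' : (lawOf (sq (R + 1)) (pinL (sq (R + 1)) (layer R))).Aff) h1 h2 =>
    hlaw_transport (HLaw.plain (bxD R) {none}) (lawOf (sq (R + 1)) (pinL (sq (R + 1)) (layer R))) b (bxE R) (bxE_injective R)
      (bxS R) (fun e => by rcases e with p | p; exacts [Or.inl rfl, Or.inr rfl]) a a' h1 h2
      (by
        intro h' hh' e' he'
        have := bxE_range R e' he'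
        rw [hh' ((domG (sq (R + 1)) ∅).tgt e') this.2, hh' ((domG (sq (R + 1)) ∅).src e') this.1])
      (by
        intro h' hh'
        refine ⟨bxH R h', ?_, fun e => ?_⟩
        · intro v hv
          have hv' : v = none := hv
          subst hv'
          rfl
        · have hm := mem_domBonds.1 (bxB_mem R e)
          rcases bx_ends R e with ⟨h1, h2, h3⟩ | ⟨h1, h2, h3⟩
          · rw [h1, h2, h3, bxH_face R h' hh' _ hm.1, bxH_face R h' hh' _ hm.2, one_mul]
            rfl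
          · rw [h1, h2, h3, bxH_face R h' hh' _ hm.1, bxH_face R h' hh' _ hm.2]
            show _ = -1 * (h' ⟨(bxB R e).snd, hm.2⟩ - h' ⟨(bxB R e).1, hm.1⟩)
            ring)
      (by
        intro h hh
        refine ⟨fun v => h (bxF R v.1), ?_, fun e => ?_⟩
        · intro v hv
          show h (bxF R v.1) = 0
          have hv' : v.1 ∈ layer R := hv
          rw [bxF_layer hv']
          exact hh _ rfl
        · show _ = bxS R e * (h (bxF R (bxB R e).snd) - h (bxF R (bxB R e).1))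
          rcases bx_ends R e with ⟨h1, h2, h3⟩ | ⟨h1, h2, h3⟩
          · rw [h1, h2, h3, one_mul]
          · rw [h1, h2, h3]
            ring)
  unfold Phi W
  symm
  refine ratio_of_transport (hT _ _ ?_ ?_) (hT _ _ ?_ ?_)
  · intro e
    rcases e with p | p
    · show (0 : ℤ) - 0 + axisTau R r (Sum.inl p) = 1 * ((0 : ℤ) - 0 + segConn (0, 0) r ((p.1.1, p.1.2 - 1), false))
      simp only [axisTau, segConn, sub_self, zero_add, one_mul, true_and]
      congr 1
      apply propext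
      constructor
      · rintro ⟨h1, h2, h3⟩
        exact ⟨by omega, h2, h3⟩
      · rintro ⟨h1, h2, h3⟩
        exact ⟨by omega, h2, h3⟩
    · show (0 : ℤ) - 0 + axisTau R r (Sum.inr p) = -1 * ((0 : ℤ) - 0 + segConn (0, 0) r ((p.1.1 - 1, p.1.2), true))
      simp [axisTau, segConn]
  · intro e' he'
    show (0 : ℤ) - 0 + segConn (0, 0) r e'.1 = 0
    by_contra hne
    have hne' : segConn (0, 0) r e'.1 ≠ 0 := by simpa using hne
    rcases Nat.eq_zero_or_pos R with rfl | hR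
    · have hr0 : r = 0 := by omega
      subst hr0
      apply hne'
      simp only [segConn]
      rw [if_neg]
      rintro ⟨_, _, h3, h4⟩
      simp at h4
      omega
    · have := seg_support' hr hR hne'
      exact (bxE_range R e' he').1.2 (by exact_mod_cast this)
  · intro e
    show (0 : ℤ) - 0 + 0 = bxS R e * ((0 : ℤ) - 0 + 0)
    simp
  · intro e' _
    show (0 : ℤ) - 0 + 0 = 0
    norm_num

end

end Claimed.Agent.R285.F23
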