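import Claimed.Agent.R285.F3.Calc
import Claimed.Agent.R285.Read.S23
import Claimed.Agent.R285.TopC

set_option autoImplicit false

/-!
# ROW 285, layer F3: from `S23.secDefect` (geometry `Γ`, grid `g`, strings `R`) to `secDef D P τ`   (owner helper12)     NO sorry in this file.
`secDef_of_geom`: if `g.region Γ.T = D`, the pinned cells cover `P ∩ D`, and `connB g R = τ` on the bonds of `D`, then `secDef D P τ = S23.secDefect b_c Γ g R`.
-/


namespace Claimed.Agent.R285.F23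

open Filter Topology Claims.C0459
open scoped Classical

noncomputable section

theorem pinL_congr (D : Finset (ℤ × ℤ)) {P P' : Set (ℤ × ℤ)} (h : ∀ z ∈ D, z ∈ P ↔ z ∈ P') : pinL D P = pinL D P' := by
  have : (domSet P : Set (domG D ∅).V) = domSet P' := by
    ext v
    exact h v.1 v.2
  unfold pinL
  rw [this]

theorem secDef_congr (D : Finset (ℤ × ℤ)) {P P' : Set (ℤ × ℤ)} {τ τ' : Bond → ℤ} (h : ∀ z ∈ D, z ∈ P ↔ z ∈ P')
    (hτ : ∀ e : Bond, e.1 ∈ D → e.snd ∈ D → τ e = τ' e) : secDef D P τ = secDef D P' τ' := by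
  have e1 : (domFnE τ : (domG D ∅).E → ℤ) = domFnE τ' := by
    funext e
    have he := mem_domBonds.1 e.2
    exact hτ _ he.1 he.2
  unfold secDef Phi En W
  rw [pinL_congr D h, e1]

theorem secDef_of_geom {m₁ m₂ r : ℕ} (Γ : CGeom m₁ m₂) (hcut : Γ.cutF = ∅) (g : DGrid m₁ m₂) (R : Fin r → S23.Ray)
    (D : Finset (ℤ × ℤ)) (P : Set (ℤ × ℤ)) (τ : Bond → ℤ) (hD : g.region Γ.T = D) (hP : ∀ z ∈ D, z ∈ P ↔ z ∈ g.region Γ.pin)
    (hτ : ∀ e : Bond, e.1 ∈ D → e.snd ∈ D → τ e = S23.connB g R e) : secDef D P τ = S23.secDefect xyCritical Γ g R := by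
  subst hD
  rw [secDef_congr _ (P' := ↑(g.region Γ.pin)) (τ' := S23.connB g R) (fun z hz => by rw [hP z hz]; rfl) hτ]
  rw [S23.secDefect_eq xyCritical Γ hcut g R (lawOf (g.region Γ.T) (pinL (g.region Γ.T) ↑(g.region Γ.pin))) rfl
    (fun o => Empty.elim o), Sec.gEn_scale _ _ (by rw [aLim_critical]; positivity), aLim_critical]
  unfold secDef Phi En HLaw.ratioL
  rw [W_zero, div_eq_inv_mul _ (8 * Real.pi)]
  rfl

end

end Claimed.Agent.R285.F23

/-!
# ROW 285, layer F3, LEAF F3-SEC-CENTER: `SectorCenter` = instance of `S23.sector_limit_unif`.      Pure bookkeeping (`Fin`, `Int.ediv`, `omega`); no analysis.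
Statement: `F3/Defs.lean`.  Tools: `secDef_of_geom` (`F3/SecBridge.lean`), `S23.sector_limit_unif`, `xy_critical_pos`, `aLim_critical`, `mem_sq`, `stair` (unfold).

PLAN.  Fix `M ≥ 4`, `0 < c₁`, `c₂ < 1/2`, `δ > 0`.  `m := 2M+2`.  `f k := max (k²) ((k+1)²)`; block `(k,l)` is in the hole iff `f k + f l ≤ M²`.
* GEOMETRY `Γ : CGeom m m` (independent of `n, s`): column / row index `i ∈ [1, 2M]` is the block index `i - 1 - M`; `i = 0`, `i = 2M+1` are the two outer strips.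
  `T` = all cells except the hole cells `{κ : 1 ≤ κ.1, κ.2 ≤ 2M, f (κ.1-1-M) + f (κ.2-1-M) ≤ M²}`; `cutF = ∅`, `pin = ∅`, `nObs = 0`.
* GRID `g n s` (`1 ≤ s`, `M s < n`): `x₁ i = x₂ i = -n` (`i = 0`), `(i-1-M) s` (`1 ≤ i ≤ 2M+1`), `n` (`i = 2M+2`).
* `g.region Γ.T = extC M n s = sq n \ stair M s`: for `z` in the cell `κ`: `z ∈ sq n`; `z ∈ stair M s ↔ κ` is a hole cell (`s k ≤ x < s (k+1) ↔ x / s = k`; in the outer strips `z ∉ sq (M s)`).
* `NoDiag` (v2; `cutF = ∅`, so part (a) is void): if `(i+1,j)`, `(i,j+1)` are hole cells then `[f i + f j] + [f (i+1) + f (j+1)] ≤ 2M²`, so `(i,j)` or `(i+1,j+1)` is a hole cell; same for the other diagonal.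
* STRING `R : Fin 1 → Ray`: `hor = true`, `pos = M` (rows `M`, `M+1` = block rows `-1`, `0`), `lo = 2M` (block column `M-1`), `hi = 2M+2`, `chg = 1`.
  `Ray.Ok`: the cells `(2M, M), (2M, M+1)` are not hole cells (`f (M-1) + 1 = M² + 1`), the cells `(2M-1, M), (2M-1, M+1)` are (`(M-1)² + 1 ≤ M²`), there is no column `2M+2`.
* `connB g R e = segConn (0,0) n e` on the bonds of `extC`: both are `1` iff `e` is the vertical bond `(a,-1) → (a,0)` with `(M-1) s ≤ a < n`, resp. `0 ≤ a < n`; for `0 ≤ a < (M-1) s` the site `(a,-1)` lies in the hole.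
* SCALE: `ν = s`, `K = ⌈M / c₁⌉₊ + 1`: sides `s` and `n - M s ∈ [s, K s]` (`M s ≤ c₂ n < n/2`, `c₁ n ≤ M s`).  `N ≤ s` eventually in `n` because `c₁ n ≤ M s`.
-/


namespace Claimed.Agent.R285.F23

open Filter Topology Claims.C0459
open scoped Classical

/-! ### generic tools: grids from `ℕ`-indexed lines -/

theorem secc_mono {m : ℕ} {X : ℕ → ℤ} (hX : ∀ i < m, X i < X (i + 1)) {a b : ℕ} (hab : a ≤ b) (hb : b ≤ m) : X a ≤ X b := by
  induction b, hab using Nat.le_induction with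
  | base => exact le_rfl
  | succ k hk ih => exact (ih (by omega)).trans (hX k (by omega)).le

theorem secc_find {X : ℕ → ℤ} {z : ℤ} {lo hi : ℕ} (hlh : lo ≤ hi) (h1 : X lo ≤ z) (h2 : z < X hi) :
    ∃ i, lo ≤ i ∧ i < hi ∧ X i ≤ z ∧ z < X (i + 1) := by
  induction hi, hlh using Nat.le_induction with
  | base => omega
  | succ k hk ih =>
    by_cases h : z < X k
    · obtain ⟨i, a, b, c⟩ := ih h
      exact ⟨i, a, by omega, c⟩
    · exact ⟨k, hk, by omega, by omega, h2⟩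

/-- the grid with the lines `X i`, `Y j` -/
def seccGrid (m₁ m₂ : ℕ) (X Y : ℕ → ℤ) (hX : ∀ i < m₁, X i < X (i + 1)) (hY : ∀ j < m₂, Y j < Y (j + 1)) : DGrid m₁ m₂ where
  x₁ i := X i.1
  x₂ j := Y j.1
  mono₁ := Fin.strictMono_iff_lt_succ.2 fun i => hX i.1 i.2
  mono₂ := Fin.strictMono_iff_lt_succ.2 fun j => hY j.1 j.2

section Grid

variable {m₁ m₂ : ℕ} {X Y : ℕ → ℤ} (hX : ∀ i < m₁, X i < X (i + 1)) (hY : ∀ j < m₂, Y j < Y (j + 1))

theorem secc_mem_cell (κ : Fin m₁ × Fin m₂) (z : ℤ × ℤ) :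
    z ∈ (seccGrid m₁ m₂ X Y hX hY).cell κ ↔
      (X κ.1.1 ≤ z.1 ∧ z.1 < X (κ.1.1 + 1)) ∧ (Y κ.2.1 ≤ z.2 ∧ z.2 < Y (κ.2.1 + 1)) := by
  simp [DGrid.cell, seccGrid]

theorem secc_cell_box (κ : Fin m₁ × Fin m₂) (z : ℤ × ℤ) (h : z ∈ (seccGrid m₁ m₂ X Y hX hY).cell κ) :
    (X 0 ≤ z.1 ∧ z.1 < X m₁) ∧ (Y 0 ≤ z.2 ∧ z.2 < Y m₂) := by
  rw [secc_mem_cell] at h
  have a1 := secc_mono hX (Nat.zero_le κ.1.1) κ.1.2.le
  have a2 := secc_mono hX (a := κ.1.1 + 1) (b := m₁) κ.1.2 le_rfl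
  have b1 := secc_mono hY (Nat.zero_le κ.2.1) κ.2.2.le
  have b2 := secc_mono hY (a := κ.2.1 + 1) (b := m₂) κ.2.2 le_rfl
  omega

theorem secc_exists_cell (z : ℤ × ℤ) (h : (X 0 ≤ z.1 ∧ z.1 < X m₁) ∧ (Y 0 ≤ z.2 ∧ z.2 < Y m₂)) :
    ∃ κ, z ∈ (seccGrid m₁ m₂ X Y hX hY).cell κ := by
  obtain ⟨i, -, hi, a⟩ := secc_find (Nat.zero_le m₁) h.1.1 h.1.2
  obtain ⟨j, -, hj, b⟩ := secc_find (Nat.zero_le m₂) h.2.1 h.2.2
  exact ⟨(⟨i, hi⟩, ⟨j, hj⟩), (secc_mem_cell hX hY _ _).2 ⟨a, b⟩⟩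

theorem secc_side (ν W : ℕ) (h1 : ∀ i < m₁, (ν : ℤ) ≤ X (i + 1) - X i ∧ X (i + 1) - X i ≤ W)
    (h2 : ∀ j < m₂, (ν : ℤ) ≤ Y (j + 1) - Y j ∧ Y (j + 1) - Y j ≤ W) :
    (seccGrid m₁ m₂ X Y hX hY).SideGe ν ∧ (seccGrid m₁ m₂ X Y hX hY).SideLe W :=
  ⟨⟨fun i => (h1 i.1 i.2).1, fun j => (h2 j.1 j.2).1⟩, ⟨fun i => (h1 i.1 i.2).2, fun j => (h2 j.1 j.2).2⟩⟩

end Grid

theorem secc_mem_region_iff {m₁ m₂ : ℕ} (g : DGrid m₁ m₂) (A : Finset (Fin m₁ × Fin m₂)) (S : Set (ℤ × ℤ))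
    (h : ∀ κ z, z ∈ g.cell κ → (κ ∈ A ↔ z ∈ S)) (z : ℤ × ℤ) (hz : ∃ κ, z ∈ g.cell κ) : z ∈ g.region A ↔ z ∈ S := by
  unfold DGrid.region
  rw [Finset.mem_biUnion]
  constructor
  · rintro ⟨κ, hκ, hzκ⟩
    exact (h κ z hzκ).1 hκ
  · intro hS
    obtain ⟨κ, hzκ⟩ := hz
    exact ⟨κ, (h κ z hzκ).2 hS, hzκ⟩

theorem secc_region_eq {m₁ m₂ : ℕ} (g : DGrid m₁ m₂) (A : Finset (Fin m₁ × Fin m₂)) (D : Finset (ℤ × ℤ))
    (h : ∀ κ z, z ∈ g.cell κ → (κ ∈ A ↔ z ∈ D)) (hD : ∀ z ∈ D, ∃ κ, z ∈ g.cell κ) : g.region A = D := by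
  ext z
  constructor
  · intro hz
    obtain ⟨κ, hκ, hzκ⟩ := Finset.mem_biUnion.1 hz
    exact (h κ z hzκ).1 hκ
  · intro hz
    obtain ⟨κ, hzκ⟩ := hD z hz
    exact Finset.mem_biUnion.2 ⟨κ, (h κ z hzκ).2 hz, hzκ⟩

/-! ### `NoDiag` without cuts -/

theorem secc_noDiag {m₁ m₂ : ℕ} (Γ : CGeom m₁ m₂) (hcut : Γ.cutF = ∅)
    (h : ∀ (i i' : Fin m₁) (j j' : Fin m₂), i.1 + 1 = i'.1 → j.1 + 1 = j'.1 →
      ((i, j) ∈ Γ.T → (i', j') ∈ Γ.T → (i', j) ∈ Γ.T ∨ (i, j') ∈ Γ.T) ∧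
      ((i', j) ∈ Γ.T → (i, j') ∈ Γ.T → (i, j) ∈ Γ.T ∨ (i', j') ∈ Γ.T)) : Γ.NoDiag := by
  refine ⟨?_, ?_⟩
  · intro κ κ' _ _ hh
    rw [hcut] at hh
    simp at hh
  · intro i j i' j' hi hj
    rw [hcut]
    refine ⟨fun _ a b => ?_, fun _ a b => ?_⟩
    · rcases (h i i' j j' hi hj).1 a b with c | c
      · exact Or.inl ⟨c, by simp, by simp⟩
      · exact Or.inr ⟨c, by simp, by simp⟩
    · rcases (h i i' j j' hi hj).2 a b with c | c
      · exact Or.inl ⟨c, by simp, by simp⟩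
      · exact Or.inr ⟨c, by simp, by simp⟩

/-! ### horizontal strings -/

theorem secc_has {m₁ m₂ : ℕ} (T : Finset (Fin m₁ × Fin m₂)) (p : ℕ → ℕ → Prop) (hT : ∀ κ, κ ∈ T ↔ p κ.1.1 κ.2.1)
    (ρ : S23.Ray) (hρ : ρ.hor = true) (i j : ℕ) : ρ.has T i j ↔ i < m₁ ∧ j < m₂ ∧ p i j := by
  unfold S23.Ray.has
  simp only [hρ, if_true]
  constructor
  · rintro ⟨κ, hκ, rfl, rfl⟩
    exact ⟨κ.1.2, κ.2.2, (hT κ).1 hκ⟩
  · rintro ⟨hi, hj, hp⟩
    exact ⟨(⟨i, hi⟩, ⟨j, hj⟩), (hT _).2 hp, rfl, rfl⟩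

theorem secc_cross {m₁ m₂ : ℕ} {X Y : ℕ → ℤ} (hX : ∀ i < m₁, X i < X (i + 1)) (hY : ∀ j < m₂, Y j < Y (j + 1))
    (ρ : S23.Ray) (hρ : ρ.hor = true) (hpos : ρ.pos < m₂) (hlh : ρ.lo ≤ ρ.hi) (hhi : ρ.hi ≤ m₁) (e : Bond) :
    e ∈ S23.crossB (seccGrid m₁ m₂ X Y hX hY) (ρ.faces : Finset (S23.CFace m₁ m₂)) ↔
      e.2 = false ∧ e.1.2 + 1 = Y (ρ.pos + 1) ∧ X ρ.lo ≤ e.1.1 ∧ e.1.1 < X ρ.hi := by
  unfold S23.crossB S23.Ray.faces
  simp only [hρ, if_true, Set.mem_ofPred_eq, Finset.mem_filter, Finset.mem_univ, true_and]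
  constructor
  · rintro ⟨f, ⟨f2, fpos, flo, fhi⟩, e2, ecell, esnd⟩
    rw [secc_mem_cell] at ecell esnd
    have e2' : e.2 = false := e2.trans f2
    have hs : e.snd = (e.1.1, e.1.2 + 1) := by simp [Bond.snd, e2']
    rw [hs, fpos] at esnd
    rw [fpos] at ecell
    simp only at esnd
    have a1 := secc_mono hX flo (by omega : f.1.1.1 ≤ m₁)
    have a2 := secc_mono hX (a := f.1.1.1 + 1) (b := ρ.hi) fhi hhi
    refine ⟨e2', ?_, ?_, ?_⟩ <;> omega
  · rintro ⟨e2, ey, elo, ehi⟩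
    obtain ⟨i, ilo, ihi, a⟩ := secc_find hlh elo ehi
    have hy := hY ρ.pos hpos
    refine ⟨((⟨i, by omega⟩, ⟨ρ.pos, hpos⟩), false), ⟨rfl, rfl, ilo, ihi⟩, e2, ?_, ?_⟩
    · rw [secc_mem_cell]
      exact ⟨a, by simp only; omega, by simp only; omega⟩
    · rw [secc_mem_cell]
      have hs : e.snd = (e.1.1, e.1.2 + 1) := by simp [Bond.snd, e2]
      rw [hs]
      simp only
      omega

theorem secc_connB {m₁ m₂ : ℕ} (g : DGrid m₁ m₂) (ρ : S23.Ray) (e : Bond) :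
    S23.connB g (fun _ : Fin 1 => ρ) e = if e ∈ S23.crossB g (ρ.faces : Finset (S23.CFace m₁ m₂)) then ρ.chg else 0 := by
  simp [S23.connB]

/-! ### the staircase -/

/-- `f k = max (k²) ((k+1)²)` -/
def seccF (k : ℤ) : ℤ := max (k ^ 2) ((k + 1) ^ 2)

/-- the block `(k,l)` lies in the disk of radius `M` -/
def seccH (M : ℕ) (k l : ℤ) : Prop := seccF k + seccF l ≤ (M : ℤ) ^ 2

theorem seccF_nonneg (k : ℤ) : 0 ≤ seccF k := le_max_of_le_left (sq_nonneg k)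

theorem seccF_le {M : ℕ} {k : ℤ} (h : seccF k ≤ (M : ℤ) ^ 2) : -(M : ℤ) ≤ k ∧ k < M := by
  have h1 : k ^ 2 ≤ (M : ℤ) ^ 2 := (le_max_left _ _).trans h
  have h2 : (k + 1) ^ 2 ≤ (M : ℤ) ^ 2 := (le_max_right _ _).trans h
  have hM0 : (0 : ℤ) ≤ (M : ℤ) := Int.natCast_nonneg _
  have h3 : -(M : ℤ) ≤ k := (abs_le.1 (abs_le_of_sq_le_sq h1 hM0)).1
  have h4 : k + 1 ≤ (M : ℤ) := (abs_le.1 (abs_le_of_sq_le_sq h2 hM0)).2
  omega

theorem seccH_range {M : ℕ} {k l : ℤ} (h : seccH M k l) : (-(M : ℤ) ≤ k ∧ k < M) ∧ (-(M : ℤ) ≤ l ∧ l < M) := by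
  unfold seccH at h
  exact ⟨seccF_le (by linarith [seccF_nonneg l]), seccF_le (by linarith [seccF_nonneg k])⟩

theorem seccH_diag1 {M : ℕ} {k l : ℤ} (h1 : seccH M (k + 1) l) (h2 : seccH M k (l + 1)) : seccH M k l ∨ seccH M (k + 1) (l + 1) := by
  unfold seccH at *
  omega

theorem seccH_diag2 {M : ℕ} {k l : ℤ} (h1 : seccH M k l) (h2 : seccH M (k + 1) (l + 1)) : seccH M (k + 1) l ∨ seccH M k (l + 1) := by
  unfold seccH at *
  omega

theorem seccF_neg_one : seccF (-1) = 1 := by norm_num [seccF]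

theorem seccF_zero : seccF 0 = 1 := by norm_num [seccF]

/-- the blocks next to the axis, except the last ones, are in the hole -/
theorem seccH_in {M : ℕ} (hM : 1 ≤ M) {k l : ℤ} (h1 : -(M : ℤ) + 1 ≤ k) (h2 : k ≤ (M : ℤ) - 2) (hl : l = -1 ∨ l = 0) : seccH M k l := by
  have hl' : seccF l = 1 := by rcases hl with rfl | rfl; exacts [seccF_neg_one, seccF_zero]
  have hM' : (1 : ℤ) ≤ M := by exact_mod_cast hM
  unfold seccH
  rw [hl']
  have : seccF k ≤ ((M : ℤ) - 1) ^ 2 := by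
    unfold seccF
    apply max_le
    · apply sq_le_sq'  <;> omega
    · apply sq_le_sq'  <;> omega
  nlinarith

theorem seccH_out {M : ℕ} {k l : ℤ} (h : (M : ℤ) - 1 ≤ k ∨ k ≤ -(M : ℤ)) (hl : l = -1 ∨ l = 0) : ¬ seccH M k l := by
  intro hH
  have hr := seccH_range hH
  have h' : k = (M : ℤ) - 1 ∨ k = -(M : ℤ) := by omega
  have hl' : seccF l = 1 := by rcases hl with rfl | rfl; exacts [seccF_neg_one, seccF_zero]
  unfold seccH at hH
  rw [hl'] at hH
  have : (M : ℤ) ^ 2 ≤ seccF k := by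
    unfold seccF
    rcases h' with rfl | rfl
    · apply le_max_of_le_right
      apply le_of_eq
      ring
    · apply le_max_of_le_left
      apply le_of_eq
      ring
  omega

theorem seccH_diag {M : ℕ} {k k' l l' : ℤ} (hk : k' = k + 1) (hl : l' = l + 1) :
    (seccH M k' l → seccH M k l' → seccH M k l ∨ seccH M k' l') ∧ (seccH M k l → seccH M k' l' → seccH M k' l ∨ seccH M k l') := by
  subst hk hl
  exact ⟨seccH_diag1, seccH_diag2⟩

/-- same block, or both outside the range on the same side -/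
def seccSim (M : ℕ) (u k : ℤ) : Prop := u = k ∨ (u < -(M : ℤ) ∧ k < -(M : ℤ)) ∨ ((M : ℤ) ≤ u ∧ (M : ℤ) ≤ k)

theorem seccH_sim {M : ℕ} {u k v l : ℤ} (h1 : seccSim M u k) (h2 : seccSim M v l) : seccH M u v ↔ seccH M k l := by
  constructor
  · intro h
    have := seccH_range h
    unfold seccSim at h1 h2
    have e1 : u = k := by omega
    have e2 : v = l := by omega
    rw [← e1, ← e2]
    exact h
  · intro h
    have := seccH_range h
    unfold seccSim at h1 h2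
    have e1 : u = k := by omega
    have e2 : v = l := by omega
    rw [e1, e2]
    exact h

theorem secc_mem_sq {n : ℕ} {z : ℤ × ℤ} : z ∈ sq n ↔ (-(n : ℤ) ≤ z.1 ∧ z.1 < n) ∧ (-(n : ℤ) ≤ z.2 ∧ z.2 < n) := by
  simp [sq]

theorem secc_mem_stair (M s : ℕ) (hs : 1 ≤ s) (z : ℤ × ℤ) : z ∈ stair M s ↔ seccH M (z.1 / (s : ℤ)) (z.2 / (s : ℤ)) := by
  unfold stair
  rw [Finset.mem_filter]
  refine ⟨fun h => h.2, fun h => ⟨?_, h⟩⟩
  have hS : (0 : ℤ) < (s : ℤ) := by exact_mod_cast hs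
  obtain ⟨⟨a1, a2⟩, ⟨b1, b2⟩⟩ := seccH_range h
  rw [secc_mem_sq]
  push_cast
  rw [Int.le_ediv_iff_mul_le hS] at a1 b1
  rw [Int.ediv_lt_iff_lt_mul hS] at a2 b2
  refine ⟨⟨by linarith, a2⟩, ⟨by linarith, b2⟩⟩

/-! ### the wrapper -/

theorem secc_unif {m₁ m₂ r : ℕ} (Γ : CGeom m₁ m₂) (hΓ : Γ.NoDiag) (hcut : Γ.cutF = ∅) (R : Fin r → S23.Ray) (hR : S23.RaysOk Γ R)
    (K M : ℕ) (c₁ c₂ : ℝ) (hc₁ : 0 < c₁) (D : ℕ → ℕ → Finset (ℤ × ℤ)) (P : ℕ → ℕ → Set (ℤ × ℤ)) (τ : ℕ → ℕ → Bond → ℤ)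
    (H : ∀ n s : ℕ, 1 ≤ n → 1 ≤ s → c₁ * n ≤ (M * s : ℕ) → ((M * s : ℕ) : ℝ) ≤ c₂ * n →
      ∃ g : DGrid m₁ m₂, (g.SideGe s ∧ g.SideLe (K * s)) ∧ g.region Γ.T = D n s ∧
        (∀ z ∈ D n s, z ∈ P n s ↔ z ∈ g.region Γ.pin) ∧ ∀ e : Bond, e.1 ∈ D n s → e.snd ∈ D n s → τ n s e = S23.connB g R e) :
    UnifSmall M c₁ c₂ fun n s => secDef (D n s) (P n s) (τ n s) := by
  intro δ hδ
  obtain ⟨N, hN⟩ := S23.sector_limit_unif xyCritical xy_critical_pos (by rw [aLim_critical]; positivity) Γ hΓ hcut R hR K δ hδ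
  filter_upwards [eventually_ge_atTop (⌈((N : ℝ) + 1) * M / c₁⌉₊ + 1)] with n hn s h1 h2
  have hn1 : 1 ≤ n := by omega
  have hn' : ((N : ℝ) + 1) * M / c₁ ≤ n := by
    have a := Nat.le_ceil (((N : ℝ) + 1) * M / c₁)
    have b : ((⌈((N : ℝ) + 1) * M / c₁⌉₊ : ℕ) : ℝ) ≤ n := by exact_mod_cast (by omega : ⌈((N : ℝ) + 1) * M / c₁⌉₊ ≤ n)
    linarith
  rw [div_le_iff₀ hc₁] at hn'
  have h3 : ((N : ℝ) + 1) * M ≤ (M * s : ℕ) := by linarith
  have h3' : (N + 1) * M ≤ M * s := by exact_mod_cast h3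
  have hn0 : (0 : ℝ) < n := by exact_mod_cast hn1
  have h4 : (0 : ℝ) < (M * s : ℕ) := lt_of_lt_of_le (mul_pos hc₁ hn0) h1
  have h4' : 0 < M * s := by exact_mod_cast h4
  have hM : 0 < M := Nat.pos_of_mul_pos_right h4' |> fun _ => by
    rcases Nat.eq_zero_or_pos M with h | h
    · rw [h] at h4'; simp at h4'
    · exact h
  have hs : N + 1 ≤ s := by
    rw [mul_comm] at h3'
    exact Nat.le_of_mul_le_mul_left h3' hM
  obtain ⟨g, ⟨g1, g2⟩, g3, g4, g5⟩ := H n s hn1 (by omega) h1 h2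
  rw [secDef_of_geom Γ hcut g R _ _ _ g3 g4 g5]
  exact hN g s (by omega) g1 g2

/-! ### the centre geometry -/

/-- the lines of the centre grid: `-n`, `k s` (`|k| ≤ M`), `n` -/
def seccX (M n s : ℕ) (i : ℕ) : ℤ := if i = 0 then -(n : ℤ) else if i ≤ 2 * M + 1 then ((i : ℤ) - 1 - M) * s else n

theorem seccX_zero (M n s : ℕ) : seccX M n s 0 = -(n : ℤ) := by simp [seccX]

theorem seccX_mid (M n s : ℕ) {i : ℕ} (h1 : 1 ≤ i) (h2 : i ≤ 2 * M + 1) : seccX M n s i = ((i : ℤ) - 1 - M) * s := by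
  unfold seccX
  rw [if_neg (by omega), if_pos h2]

theorem seccX_top (M n s : ℕ) : seccX M n s (2 * M + 2) = n := by
  unfold seccX
  rw [if_neg (by omega), if_neg (by omega)]

theorem seccX_step (M n s W : ℕ) (hM : 1 ≤ M) (h : 2 * (M * s) < n) (hW : n ≤ W) {i : ℕ} (hi : i < 2 * M + 2) :
    (s : ℤ) ≤ seccX M n s (i + 1) - seccX M n s i ∧ seccX M n s (i + 1) - seccX M n s i ≤ W := by
  have h' : 2 * ((M : ℤ) * s) < n := by exact_mod_cast h
  have hW' : (n : ℤ) ≤ W := by exact_mod_cast hW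
  have hs0 : (0 : ℤ) ≤ s := Int.natCast_nonneg _
  have hM' : (1 : ℤ) ≤ M := by exact_mod_cast hM
  have hP : (s : ℤ) ≤ (M : ℤ) * s := le_mul_of_one_le_left hs0 hM'
  rcases Nat.eq_zero_or_pos i with rfl | hi0
  · rw [seccX_zero, seccX_mid M n s (by omega) (by omega)]
    have e : (((0 + 1 : ℕ) : ℤ) - 1 - M) * s = -((M : ℤ) * s) := by push_cast; ring
    rw [e]
    constructor <;> linarith
  · rcases Nat.lt_or_ge i (2 * M + 1) with hi1 | hi1
    · rw [seccX_mid M n s (by omega) (by omega), seccX_mid M n s hi0 (by omega)]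
      have e : (((i + 1 : ℕ) : ℤ) - 1 - M) * s - ((i : ℤ) - 1 - M) * s = s := by push_cast; ring
      rw [e]
      constructor <;> linarith
    · have e0 : i = 2 * M + 1 := by omega
      subst e0
      rw [seccX_top, seccX_mid M n s (by omega) (by omega)]
      have e : (((2 * M + 1 : ℕ) : ℤ) - 1 - M) * s = (M : ℤ) * s := by push_cast; ring
      rw [e]
      constructor <;> linarith

theorem seccX_sim (M n s : ℕ) (hs : 1 ≤ s) {i : ℕ} (hi : i < 2 * M + 2) {z : ℤ} (h1 : seccX M n s i ≤ z)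
    (h2 : z < seccX M n s (i + 1)) : seccSim M (z / (s : ℤ)) ((i : ℤ) - 1 - M) := by
  have hS : (0 : ℤ) < (s : ℤ) := by exact_mod_cast hs
  have a : 1 ≤ i → (i : ℤ) - 1 - M ≤ z / (s : ℤ) := fun hi1 => by
    rw [seccX_mid M n s hi1 (by omega)] at h1
    exact (Int.le_ediv_iff_mul_le hS).2 h1
  have b : i + 1 ≤ 2 * M + 1 → z / (s : ℤ) < (i : ℤ) - M := fun hi2 => by
    rw [seccX_mid M n s (by omega) hi2] at h2
    have := (Int.ediv_lt_iff_lt_mul hS).2 h2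
    push_cast at this
    omega
  unfold seccSim
  omega

/-- the square minus the staircase hole -/
noncomputable def seccGeom (M : ℕ) : CGeom (2 * M + 2) (2 * M + 2) where
  T := Finset.univ.filter fun κ => ¬ seccH M ((κ.1.1 : ℤ) - 1 - M) ((κ.2.1 : ℤ) - 1 - M)
  cutF := ∅
  pin := ∅
  nObs := 0
  box := Fin.elim0
  wgt := Fin.elim0

theorem seccGeom_T (M : ℕ) (κ : Fin (2 * M + 2) × Fin (2 * M + 2)) :
    κ ∈ (seccGeom M).T ↔ ¬ seccH M ((κ.1.1 : ℤ) - 1 - M) ((κ.2.1 : ℤ) - 1 - M) := by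
  simp [seccGeom]

theorem seccGeom_noDiag (M : ℕ) : (seccGeom M).NoDiag := by
  refine secc_noDiag _ rfl fun i i' j j' hi hj => ?_
  simp only [seccGeom_T]
  have hd := seccH_diag (M := M) (k := (i.1 : ℤ) - 1 - M) (k' := (i'.1 : ℤ) - 1 - M) (l := (j.1 : ℤ) - 1 - M) (l' := (j'.1 : ℤ) - 1 - M)
    (by omega) (by omega)
  tauto

/-- the string from the hole to the right wall -/
def seccRay (M : ℕ) : S23.Ray := ⟨true, M, 2 * M, 2 * M + 2, 1⟩

theorem seccRay_ok (M : ℕ) (hM : 2 ≤ M) : S23.RaysOk (seccGeom M) (fun _ : Fin 1 => seccRay M) := by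
  refine ⟨fun _ => ⟨?_, ?_, ?_, ?_⟩, fun i j hij => absurd (Subsingleton.elim i j) hij⟩
  · simp [seccRay]
  · intro i h1 h2
    rw [secc_has _ (fun i j => ¬ seccH M ((i : ℤ) - 1 - M) ((j : ℤ) - 1 - M)) (seccGeom_T M) _ rfl,
      secc_has _ (fun i j => ¬ seccH M ((i : ℤ) - 1 - M) ((j : ℤ) - 1 - M)) (seccGeom_T M) _ rfl]
    simp only [seccRay] at h1 h2 ⊢
    refine ⟨⟨h2, by omega, seccH_out ?_ ?_⟩, ⟨h2, by omega, seccH_out ?_ ?_⟩⟩ <;> push_cast <;> omega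
  · intro i h1
    rw [secc_has _ (fun i j => ¬ seccH M ((i : ℤ) - 1 - M) ((j : ℤ) - 1 - M)) (seccGeom_T M) _ rfl,
      secc_has _ (fun i j => ¬ seccH M ((i : ℤ) - 1 - M) ((j : ℤ) - 1 - M)) (seccGeom_T M) _ rfl]
    simp only [seccRay] at h1 ⊢
    rcases h1 with h1 | h1
    · refine ⟨fun h => h.2.2 (seccH_in (by omega) ?_ ?_ ?_), fun h => h.2.2 (seccH_in (by omega) ?_ ?_ ?_)⟩ <;> push_cast <;> omega
    · exact ⟨fun h => by omega, fun h => by omega⟩
  · simp [seccGeom]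

theorem secc_neg_one_ediv {s : ℕ} (hs : 1 ≤ s) : (-1 : ℤ) / (s : ℤ) = -1 := by
  have hS : (0 : ℤ) < (s : ℤ) := by exact_mod_cast hs
  have a : (-1 : ℤ) ≤ (-1 : ℤ) / (s : ℤ) := (Int.le_ediv_iff_mul_le hS).2 (by omega)
  have b : (-1 : ℤ) / (s : ℤ) < 0 := (Int.ediv_lt_iff_lt_mul hS).2 (by omega)
  omega

theorem sector_center' : SectorCenter := by
  intro M hM c₁ c₂ hc₁ hc₂
  refine secc_unif (seccGeom M) (seccGeom_noDiag M) rfl _ (seccRay_ok M (by omega)) ⌈(M : ℝ) / c₁⌉₊ M c₁ c₂ hc₁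
    (fun n s => extC M n s) (fun _ _ => ∅) (fun n _ => segConn (0, 0) n) ?_
  intro n s hn hs h1 h2
  have hS : (0 : ℤ) < (s : ℤ) := by exact_mod_cast hs
  have hn0 : (0 : ℝ) < n := by exact_mod_cast hn
  have hlt : 2 * (M * s) < n := by
    have : (2 : ℝ) * (M * s : ℕ) < n := by nlinarith
    exact_mod_cast this
  have hW : n ≤ ⌈(M : ℝ) / c₁⌉₊ * s := by
    have a := Nat.le_ceil ((M : ℝ) / c₁)
    have b : (n : ℝ) ≤ (M : ℝ) / c₁ * s := by
      rw [div_mul_eq_mul_div, le_div_iff₀ hc₁]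
      push_cast at h1
      linarith
    have c : (n : ℝ) ≤ (⌈(M : ℝ) / c₁⌉₊ : ℝ) * s := b.trans (mul_le_mul_of_nonneg_right a (Nat.cast_nonneg s))
    exact_mod_cast c
  have hstep := fun (i : ℕ) (hi : i < 2 * M + 2) => seccX_step M n s _ (by omega) hlt hW hi
  have hX : ∀ i < 2 * M + 2, seccX M n s i < seccX M n s (i + 1) := fun i hi => by
    have := (hstep i hi).1
    omega
  have hcell : ∀ κ z, z ∈ (seccGrid _ _ _ _ hX hX).cell κ → (κ ∈ (seccGeom M).T ↔ z ∈ extC M n s) := by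
    intro κ z hz
    have hb := secc_cell_box hX hX κ z hz
    rw [seccX_zero, seccX_top] at hb
    rw [secc_mem_cell] at hz
    rw [seccGeom_T, extC, Finset.mem_sdiff, secc_mem_stair M s hs,
      seccH_sim (seccX_sim M n s hs κ.1.2 hz.1.1 hz.1.2) (seccX_sim M n s hs κ.2.2 hz.2.1 hz.2.2)]
    exact ⟨fun h => ⟨secc_mem_sq.2 hb, h⟩, fun h => h.2⟩
  refine ⟨seccGrid _ _ _ _ hX hX, secc_side hX hX _ _ hstep hstep, secc_region_eq _ _ _ hcell ?_, ?_, ?_⟩
  · intro z hz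
    apply secc_exists_cell
    rw [seccX_zero, seccX_top]
    exact secc_mem_sq.1 (Finset.mem_sdiff.1 hz).1
  · intro z _
    simp [seccGeom, DGrid.region]
  · intro e he _
    rw [secc_connB]
    unfold segConn
    refine if_congr ?_ rfl rfl
    rw [secc_cross hX hX _ rfl (by simp only [seccRay]; omega) (by simp only [seccRay]; omega) (by simp only [seccRay]; omega)]
    simp only [seccRay]
    rw [seccX_top, seccX_mid M n s (by omega) (by omega), seccX_mid M n s (by omega) (by omega)]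
    have e1 : (((M + 1 : ℕ) : ℤ) - 1 - M) * s = 0 := by push_cast; ring
    rw [e1, ← Int.le_ediv_iff_mul_le hS, zero_add]
    constructor
    · rintro ⟨a, b, c, d⟩
      refine ⟨a, b, ?_, d⟩
      by_contra hlt'
      apply (Finset.mem_sdiff.1 he).2
      rw [secc_mem_stair M s hs]
      have hy : e.1.2 = -1 := by omega
      rw [hy, secc_neg_one_ediv hs]
      have c' : 0 ≤ e.1.1 / (s : ℤ) := (Int.le_ediv_iff_mul_le hS).2 (by omega)
      push_cast at hlt'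
      exact seccH_in (by omega) (by omega) (by omega) (Or.inl rfl)
    · rintro ⟨a, b, c, d⟩
      refine ⟨a, b, ?_, d⟩
      have c' : 0 ≤ e.1.1 / (s : ℤ) := by push_cast at c; omega
      have := (Int.le_ediv_iff_mul_le hS).1 c'
      omega

end Claimed.Agent.R285.F23

/-!
# ROW 285, layer F3, LEAF F3-SEC-PAIR: `SectorPair`, `SectorPairPin` = instances of `S23.sector_limit_unif` (hard pins allowed).      Pure bookkeeping (`Fin`, `Int.ediv`, `omega`); no analysis.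
Statements: `F3/Defs.lean`.  Tools: `secDef_of_geom` (`F3/SecBridge.lean`), `S23.sector_limit_unif`, `xy_critical_pos`, `aLim_critical`.   Do `F3/SecCenter.lean` first (same pattern, one hole).

PLAN.  Fix `M ≥ 4`, `q ≥ 1`, `0 < c₁`, `c₂ < 1/4`, `δ > 0`.  `f k := max (k²) ((k+1)²)`.
* VERTICAL LINES (`m₁ + 1 = 4M + 6` of them): `-8qr, -6qr, (k s)_{-M ≤ k ≤ M}, (r + k s)_{-M ≤ k ≤ M}, 6qr, 8qr`;   HORIZONTAL LINES (`m₂ + 1 = 2M + 5`): `-8qr, -6qr, (k s)_{-M ≤ k ≤ M}, 6qr, 8qr`.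
  Strictly increasing because `M s ≤ c₂ r < r/4`.
* `Γ.T` = all cells except the hole cells of the two staircases; `cutF = ∅`, `nObs = 0`;  `pin = ∅` (`SectorPair`), `pin` = the cells of the first / last column or row (`SectorPairPin`: `rim q r = (sq (6qr))ᶜ`).
* `g.region Γ.T = extP M q r s`;  `z ∈ rim q r ↔ z ∈ g.region Γ.pin` for `z ∈ extP`.
* `NoDiag`: as in `SecCenter` for each hole (the two holes are separated by the column `[M s, r - M s)`).
* STRING: `hor = true`, `pos` = the row of the blocks `-1` (index `M + 1`), from the column of the block `M-1` of the first hole to the column of the block `-M` of the second hole (both included), `chg = 1`; its corridor is not pinned.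
* `connB g R = segConn (0,0) r` on the bonds of `extP`: the sites `(a,-1)` with `0 ≤ a < (M-1) s` or `r - (M-1) s ≤ a < r` lie in the holes.
* SCALE: `ν = s`, all sides between `s` and `8 q r ≤ (8 q M / c₁) s`.
* `SectorPairPin` (one-sided) follows from the two-sided bound.
-/


namespace Claimed.Agent.R285.F23

open Filter Topology Claims.C0459
open scoped Classical

/-! ### arithmetic of the staircase -/

/-- `f k = max k² (k+1)²` -/
def secp_f (k : ℤ) : ℤ := max (k ^ 2) ((k + 1) ^ 2)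

/-- the block `(k,l)` lies in the hole -/
def secp_hole (M : ℕ) (k l : ℤ) : Prop := secp_f k + secp_f l ≤ (M : ℤ) ^ 2

theorem secp_f_nonneg (k : ℤ) : 0 ≤ secp_f k := le_max_of_le_left (sq_nonneg k)

theorem secp_f_out {M : ℕ} {k : ℤ} (h : k < -(M : ℤ) ∨ (M : ℤ) ≤ k) : (M : ℤ) ^ 2 < secp_f k := by
  have hM : (0 : ℤ) ≤ M := Int.natCast_nonneg M
  rcases h with h | h
  · exact lt_max_of_lt_left (by nlinarith)
  · exact lt_max_of_lt_right (by nlinarith)

theorem secp_f_le {k a : ℤ} (h1 : -a ≤ k) (h2 : k + 1 ≤ a) : secp_f k ≤ a ^ 2 :=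
  max_le (by nlinarith) (by nlinarith)

theorem secp_f_ge {k a : ℤ} (ha : 0 ≤ a) (h : k ≤ -a ∨ a ≤ k + 1) : a ^ 2 ≤ secp_f k := by
  rcases h with h | h
  · exact le_max_of_le_left (by nlinarith)
  · exact le_max_of_le_right (by nlinarith)

theorem secp_hole_rng {M : ℕ} {k l : ℤ} (h : secp_hole M k l) : (-(M : ℤ) ≤ k ∧ k < M) ∧ (-(M : ℤ) ≤ l ∧ l < M) := by
  unfold secp_hole at h
  have h1 := secp_f_nonneg k
  have h2 := secp_f_nonneg l
  refine ⟨?_, ?_⟩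
  · by_contra hc
    have := secp_f_out (M := M) (k := k) (by omega)
    omega
  · by_contra hc
    have := secp_f_out (M := M) (k := l) (by omega)
    omega

/-- the parallelogram rule of `NoDiag` -/
theorem secp_hole_diag {M : ℕ} {k l : ℤ} (h1 : secp_hole M (k + 1) l) (h2 : secp_hole M k (l + 1)) :
    secp_hole M k l ∨ secp_hole M (k + 1) (l + 1) := by
  unfold secp_hole at *
  omega

theorem secp_hole_diag' {M : ℕ} {k l : ℤ} (h1 : secp_hole M k l) (h2 : secp_hole M (k + 1) (l + 1)) :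
    secp_hole M (k + 1) l ∨ secp_hole M k (l + 1) := by
  unfold secp_hole at *
  omega

theorem secp_div_eq {s : ℕ} (hs : 1 ≤ s) {x k : ℤ} (h1 : k * s ≤ x) (h2 : x < (k + 1) * s) : x / (s : ℤ) = k := by
  have hs' : (0 : ℤ) < s := by exact_mod_cast hs
  apply le_antisymm
  · have := (Int.ediv_lt_iff_lt_mul hs').2 h2
    omega
  · exact (Int.le_ediv_iff_mul_le hs').2 h1

theorem secp_div_lt {s : ℕ} (hs : 1 ≤ s) {x k : ℤ} (h2 : x < k * s) : x / (s : ℤ) < k :=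
  (Int.ediv_lt_iff_lt_mul (by exact_mod_cast hs)).2 h2

theorem secp_le_div {s : ℕ} (hs : 1 ≤ s) {x k : ℤ} (h1 : k * s ≤ x) : k ≤ x / (s : ℤ) :=
  (Int.le_ediv_iff_mul_le (by exact_mod_cast hs)).2 h1

theorem secp_mem_stair {M s : ℕ} (hs : 1 ≤ s) {z : ℤ × ℤ} : z ∈ stair M s ↔ secp_hole M (z.1 / (s : ℤ)) (z.2 / (s : ℤ)) := by
  have hs' : (0 : ℤ) < s := by exact_mod_cast hs
  unfold stair
  rw [Finset.mem_filter]
  constructor
  · exact fun h => h.2
  · intro h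
    refine ⟨?_, h⟩
    obtain ⟨⟨a1, a2⟩, ⟨b1, b2⟩⟩ := secp_hole_rng h
    rw [mem_sq]
    push_cast
    refine ⟨⟨?_, ?_⟩, ⟨?_, ?_⟩⟩
    · have := (Int.le_ediv_iff_mul_le hs').1 a1
      linarith
    · exact (Int.ediv_lt_iff_lt_mul hs').1 a2
    · have := (Int.le_ediv_iff_mul_le hs').1 b1
      linarith
    · exact (Int.ediv_lt_iff_lt_mul hs').1 b2

/-- the interval of a monotone sequence which contains `x` -/
theorem secp_find (X : ℕ → ℤ) (a n : ℕ) (x : ℤ) (h1 : X a ≤ x) (h2 : x < X (a + n)) :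
    ∃ i, a ≤ i ∧ i < a + n ∧ X i ≤ x ∧ x < X (i + 1) := by
  induction n with
  | zero => exact absurd h2 (by simpa using h1)
  | succ n ih =>
    by_cases h : x < X (a + n)
    · obtain ⟨i, hi1, hi2, hi3⟩ := ih h
      exact ⟨i, hi1, by omega, hi3⟩
    · exact ⟨a + n, by omega, by omega, not_lt.1 h, h2⟩

/-! ### the grid lines -/

/-- the standing hypotheses (`Q = q r`) -/
structure secp_H (M Q r s : ℕ) : Prop where
  M4 : 4 ≤ M
  s1 : 1 ≤ s
  sm : 4 * (M * s) < r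
  rQ : r ≤ Q

/-- the vertical lines `-8Q, -6Q, k s, r + k s, 6Q, 8Q` (continued beyond the last one) -/
def secp_X (M Q r s : ℕ) (i : ℕ) : ℤ :=
  if i = 0 then -(8 * (Q : ℤ)) else if i = 1 then -(6 * (Q : ℤ)) else if i ≤ 2 * M + 2 then ((i : ℤ) - 2 - M) * s
  else if i ≤ 4 * M + 3 then r + ((i : ℤ) - (2 * M + 3) - M) * s else if i = 4 * M + 4 then 6 * (Q : ℤ)
  else 8 * (Q : ℤ) + ((i : ℤ) - (4 * M + 5))

/-- the horizontal lines `-8Q, -6Q, k s, 6Q, 8Q` -/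
def secp_Y (M Q s : ℕ) (j : ℕ) : ℤ :=
  if j = 0 then -(8 * (Q : ℤ)) else if j = 1 then -(6 * (Q : ℤ)) else if j ≤ 2 * M + 2 then ((j : ℤ) - 2 - M) * s
  else if j = 2 * M + 3 then 6 * (Q : ℤ) else 8 * (Q : ℤ) + ((j : ℤ) - (2 * M + 4))

section lines

variable {M Q r s : ℕ}

theorem secp_X_zero : secp_X M Q r s 0 = -(8 * (Q : ℤ)) := by simp [secp_X]

theorem secp_X_one : secp_X M Q r s 1 = -(6 * (Q : ℤ)) := by simp [secp_X]

theorem secp_X_A {i : ℕ} (h1 : 2 ≤ i) (h2 : i ≤ 2 * M + 2) : secp_X M Q r s i = ((i : ℤ) - 2 - M) * s := by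
  unfold secp_X
  rw [if_neg (by omega), if_neg (by omega), if_pos h2]

theorem secp_X_B {i : ℕ} (h1 : 2 * M + 3 ≤ i) (h2 : i ≤ 4 * M + 3) :
    secp_X M Q r s i = r + ((i : ℤ) - (2 * M + 3) - M) * s := by
  unfold secp_X
  rw [if_neg (by omega), if_neg (by omega), if_neg (by omega), if_pos h2]

theorem secp_X_six : secp_X M Q r s (4 * M + 4) = 6 * (Q : ℤ) := by
  unfold secp_X
  rw [if_neg (by omega), if_neg (by omega), if_neg (by omega), if_neg (by omega), if_pos rfl]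

theorem secp_X_ge {i : ℕ} (h1 : 4 * M + 5 ≤ i) : secp_X M Q r s i = 8 * (Q : ℤ) + ((i : ℤ) - (4 * M + 5)) := by
  unfold secp_X
  rw [if_neg (by omega), if_neg (by omega), if_neg (by omega), if_neg (by omega), if_neg (by omega)]

theorem secp_X_last : secp_X M Q r s (4 * M + 5) = 8 * (Q : ℤ) := by
  rw [secp_X_ge le_rfl]; push_cast; ring

theorem secp_Y_zero : secp_Y M Q s 0 = -(8 * (Q : ℤ)) := by simp [secp_Y]

theorem secp_Y_one : secp_Y M Q s 1 = -(6 * (Q : ℤ)) := by simp [secp_Y]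

theorem secp_Y_A {j : ℕ} (h1 : 2 ≤ j) (h2 : j ≤ 2 * M + 2) : secp_Y M Q s j = ((j : ℤ) - 2 - M) * s := by
  unfold secp_Y
  rw [if_neg (by omega), if_neg (by omega), if_pos h2]

theorem secp_Y_six : secp_Y M Q s (2 * M + 3) = 6 * (Q : ℤ) := by
  unfold secp_Y
  rw [if_neg (by omega), if_neg (by omega), if_neg (by omega), if_pos rfl]

theorem secp_Y_ge {j : ℕ} (h1 : 2 * M + 4 ≤ j) : secp_Y M Q s j = 8 * (Q : ℤ) + ((j : ℤ) - (2 * M + 4)) := by
  unfold secp_Y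
  rw [if_neg (by omega), if_neg (by omega), if_neg (by omega), if_neg (by omega)]

theorem secp_Y_last : secp_Y M Q s (2 * M + 4) = 8 * (Q : ℤ) := by
  rw [secp_Y_ge le_rfl]; push_cast; ring

/-- the hypotheses in `ℤ` -/
theorem secp_H.int (h : secp_H M Q r s) :
    (4 : ℤ) ≤ M ∧ (1 : ℤ) ≤ s ∧ 4 * ((M : ℤ) * s) < r ∧ (r : ℤ) ≤ Q ∧ (s : ℤ) ≤ M * s := by
  refine ⟨by exact_mod_cast h.M4, by exact_mod_cast h.s1, by exact_mod_cast h.sm, by exact_mod_cast h.rQ, ?_⟩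
  have h1 : (4 : ℤ) ≤ M := by exact_mod_cast h.M4
  have h2 : (1 : ℤ) ≤ s := by exact_mod_cast h.s1
  nlinarith

/-- the steps of the vertical lines: at least `s` -/
theorem secp_X_step (h : secp_H M Q r s) (i : ℕ) (hi : i ≤ 4 * M + 4) : secp_X M Q r s i + s ≤ secp_X M Q r s (i + 1) := by
  obtain ⟨h1, h2, h3, h4, h5⟩ := h.int
  rcases Nat.lt_or_ge i 2 with hi2 | hi2
  · interval_cases i
    · rw [secp_X_zero, secp_X_one]; linarith
    · rw [secp_X_one, secp_X_A le_rfl (by omega)]; push_cast; linarith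
  rcases Nat.lt_or_ge i (2 * M + 2) with hi3 | hi3
  · rw [secp_X_A hi2 (by omega), secp_X_A (by omega) (by omega)]; push_cast; linarith
  rcases Nat.lt_or_ge i (2 * M + 3) with hi4 | hi4
  · have : i = 2 * M + 2 := by omega
    subst this
    rw [secp_X_A hi2 le_rfl, secp_X_B le_rfl (by omega)]; push_cast; linarith
  rcases Nat.lt_or_ge i (4 * M + 3) with hi5 | hi5
  · rw [secp_X_B hi4 (by omega), secp_X_B (by omega) (by omega)]; push_cast; linarith
  rcases Nat.lt_or_ge i (4 * M + 4) with hi6 | hi6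
  · have : i = 4 * M + 3 := by omega
    subst this
    rw [secp_X_B hi4 le_rfl, secp_X_six]; push_cast; linarith
  · have : i = 4 * M + 4 := by omega
    subst this
    rw [secp_X_six, secp_X_last]; linarith

theorem secp_X_mono (h : secp_H M Q r s) : StrictMono (secp_X M Q r s) := by
  refine strictMono_nat_of_lt_succ fun i => ?_
  obtain ⟨h1, h2, h3, h4, h5⟩ := h.int
  rcases Nat.lt_or_ge i (4 * M + 5) with hi | hi
  · have := secp_X_step h i (by omega)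
    linarith
  · rw [secp_X_ge hi, secp_X_ge (by omega)]; push_cast; linarith

theorem secp_Y_step (h : secp_H M Q r s) (j : ℕ) (hj : j ≤ 2 * M + 3) : secp_Y M Q s j + s ≤ secp_Y M Q s (j + 1) := by
  obtain ⟨h1, h2, h3, h4, h5⟩ := h.int
  rcases Nat.lt_or_ge j 2 with hi2 | hi2
  · interval_cases j
    · rw [secp_Y_zero, secp_Y_one]; linarith
    · rw [secp_Y_one, secp_Y_A le_rfl (by omega)]; push_cast; linarith
  rcases Nat.lt_or_ge j (2 * M + 2) with hi3 | hi3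
  · rw [secp_Y_A hi2 (by omega), secp_Y_A (by omega) (by omega)]; push_cast; linarith
  rcases Nat.lt_or_ge j (2 * M + 3) with hi4 | hi4
  · have : j = 2 * M + 2 := by omega
    subst this
    rw [secp_Y_A hi2 le_rfl, secp_Y_six]; push_cast; linarith
  · have : j = 2 * M + 3 := by omega
    subst this
    rw [secp_Y_six, secp_Y_last]; linarith

theorem secp_Y_mono (h : secp_H M Q r s) : StrictMono (secp_Y M Q s) := by
  refine strictMono_nat_of_lt_succ fun j => ?_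
  obtain ⟨h1, h2, h3, h4, h5⟩ := h.int
  rcases Nat.lt_or_ge j (2 * M + 4) with hj | hj
  · have := secp_Y_step h j (by omega)
    linarith
  · rw [secp_Y_ge hj, secp_Y_ge (by omega)]; push_cast; linarith

end lines

/-! ### block indices of the columns and rows -/

/-- block index of the column (row) `i` with respect to the first hole; `M` (outside) for the other columns -/
def secp_kA (M : ℕ) (i : ℕ) : ℤ := if 2 ≤ i ∧ i ≤ 2 * M + 1 then (i : ℤ) - 2 - M else M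

/-- block index of the column `i` with respect to the second hole -/
def secp_kB (M : ℕ) (i : ℕ) : ℤ := if 2 * M + 3 ≤ i ∧ i ≤ 4 * M + 2 then (i : ℤ) - (2 * M + 3) - M else M

/-- the same block, or both outside -/
def secp_sim (M : ℕ) (k k' : ℤ) : Prop := k = k' ∨ ((k < -(M : ℤ) ∨ (M : ℤ) ≤ k) ∧ (k' < -(M : ℤ) ∨ (M : ℤ) ≤ k'))

theorem secp_hole_congr {M : ℕ} {k k' l l' : ℤ} (hk : secp_sim M k k') (hl : secp_sim M l l') :
    secp_hole M k l ↔ secp_hole M k' l' := by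
  rcases hk with rfl | ⟨hk1, hk2⟩
  · rcases hl with rfl | ⟨hl1, hl2⟩
    · rfl
    · constructor <;> intro h
      · have := (secp_hole_rng h).2; omega
      · have := (secp_hole_rng h).2; omega
  · constructor <;> intro h
    · have := (secp_hole_rng h).1; omega
    · have := (secp_hole_rng h).1; omega

section cols

variable {M Q r s : ℕ}

theorem secp_kA_in {i : ℕ} (h1 : 2 ≤ i) (h2 : i ≤ 2 * M + 1) : secp_kA M i = (i : ℤ) - 2 - M := by
  unfold secp_kA; rw [if_pos ⟨h1, h2⟩]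

theorem secp_kA_out {i : ℕ} (h : i < 2 ∨ 2 * M + 1 < i) : secp_kA M i = M := by
  unfold secp_kA; rw [if_neg (by omega)]

theorem secp_kB_in {i : ℕ} (h1 : 2 * M + 3 ≤ i) (h2 : i ≤ 4 * M + 2) : secp_kB M i = (i : ℤ) - (2 * M + 3) - M := by
  unfold secp_kB; rw [if_pos ⟨h1, h2⟩]

theorem secp_kB_out {i : ℕ} (h : i < 2 * M + 3 ∨ 4 * M + 2 < i) : secp_kB M i = M := by
  unfold secp_kB; rw [if_neg (by omega)]

theorem secp_colA (h : secp_H M Q r s) {i : ℕ} {x : ℤ} (h1 : secp_X M Q r s i ≤ x) (h2 : x < secp_X M Q r s (i + 1)) :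
    secp_sim M (x / (s : ℤ)) (secp_kA M i) := by
  have hm := (secp_X_mono h).monotone
  rcases Nat.lt_or_ge i 2 with hi | hi
  · right
    rw [secp_kA_out (Or.inl hi)]
    refine ⟨Or.inl (secp_div_lt h.s1 ?_), Or.inr le_rfl⟩
    have := hm (show i + 1 ≤ 2 by omega)
    rw [secp_X_A le_rfl (by omega)] at this
    push_cast at this
    linarith
  rcases Nat.lt_or_ge i (2 * M + 2) with hi' | hi'
  · left
    rw [secp_kA_in hi (by omega)]
    rw [secp_X_A hi (by omega)] at h1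
    rw [secp_X_A (by omega) (by omega)] at h2
    refine secp_div_eq h.s1 h1 ?_
    push_cast at h2
    linarith
  · right
    rw [secp_kA_out (Or.inr (by omega))]
    refine ⟨Or.inr (secp_le_div h.s1 ?_), Or.inr le_rfl⟩
    have := hm hi'
    rw [secp_X_A (by omega) le_rfl] at this
    push_cast at this
    linarith

theorem secp_colB (h : secp_H M Q r s) {i : ℕ} {x : ℤ} (h1 : secp_X M Q r s i ≤ x) (h2 : x < secp_X M Q r s (i + 1)) :
    secp_sim M ((x - r) / (s : ℤ)) (secp_kB M i) := by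
  have hm := (secp_X_mono h).monotone
  rcases Nat.lt_or_ge i (2 * M + 3) with hi | hi
  · right
    rw [secp_kB_out (Or.inl hi)]
    refine ⟨Or.inl (secp_div_lt h.s1 ?_), Or.inr le_rfl⟩
    have := hm (show i + 1 ≤ 2 * M + 3 by omega)
    rw [secp_X_B le_rfl (by omega)] at this
    push_cast at this
    linarith
  rcases Nat.lt_or_ge i (4 * M + 3) with hi' | hi'
  · left
    rw [secp_kB_in hi (by omega)]
    rw [secp_X_B hi (by omega)] at h1
    rw [secp_X_B (by omega) (by omega)] at h2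
    refine secp_div_eq h.s1 (by linarith) ?_
    push_cast at h2
    linarith
  · right
    rw [secp_kB_out (Or.inr (by omega))]
    refine ⟨Or.inr (secp_le_div h.s1 ?_), Or.inr le_rfl⟩
    have := hm hi'
    rw [secp_X_B (by omega) le_rfl] at this
    push_cast at this
    linarith

theorem secp_rowA (h : secp_H M Q r s) {j : ℕ} {y : ℤ} (h1 : secp_Y M Q s j ≤ y) (h2 : y < secp_Y M Q s (j + 1)) :
    secp_sim M (y / (s : ℤ)) (secp_kA M j) := by
  have hm := (secp_Y_mono h).monotone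
  rcases Nat.lt_or_ge j 2 with hi | hi
  · right
    rw [secp_kA_out (Or.inl hi)]
    refine ⟨Or.inl (secp_div_lt h.s1 ?_), Or.inr le_rfl⟩
    have := hm (show j + 1 ≤ 2 by omega)
    rw [secp_Y_A le_rfl (by omega)] at this
    push_cast at this
    linarith
  rcases Nat.lt_or_ge j (2 * M + 2) with hi' | hi'
  · left
    rw [secp_kA_in hi (by omega)]
    rw [secp_Y_A hi (by omega)] at h1
    rw [secp_Y_A (by omega) (by omega)] at h2
    refine secp_div_eq h.s1 h1 ?_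
    push_cast at h2
    linarith
  · right
    rw [secp_kA_out (Or.inr (by omega))]
    refine ⟨Or.inr (secp_le_div h.s1 ?_), Or.inr le_rfl⟩
    have := hm hi'
    rw [secp_Y_A (by omega) le_rfl] at this
    push_cast at this
    linarith

end cols

/-! ### the geometry and the grid -/

/-- the geometry: all cells except the hole cells; `pn = true`: the outer frame is pinned -/
noncomputable def secp_geo (M : ℕ) (pn : Bool) : CGeom (4 * M + 5) (2 * M + 4) where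
  T := Finset.univ.filter fun κ =>
    ¬ secp_hole M (secp_kA M κ.1.1) (secp_kA M κ.2.1) ∧ ¬ secp_hole M (secp_kB M κ.1.1) (secp_kA M κ.2.1)
  cutF := ∅
  pin := if pn then Finset.univ.filter fun κ => κ.1.1 = 0 ∨ κ.1.1 = 4 * M + 4 ∨ κ.2.1 = 0 ∨ κ.2.1 = 2 * M + 3 else ∅
  nObs := 0
  box := Fin.elim0
  wgt := Fin.elim0

/-- the grid -/
def secp_grid {M Q r s : ℕ} (h : secp_H M Q r s) : DGrid (4 * M + 5) (2 * M + 4) where
  x₁ i := secp_X M Q r s i.1
  x₂ j := secp_Y M Q s j.1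
  mono₁ := fun _ _ hij => secp_X_mono h hij
  mono₂ := fun _ _ hij => secp_Y_mono h hij

section region

variable {M Q r s : ℕ}

theorem secp_mem_T {pn : Bool} {κ : Fin (4 * M + 5) × Fin (2 * M + 4)} : κ ∈ (secp_geo M pn).T ↔
    ¬ secp_hole M (secp_kA M κ.1.1) (secp_kA M κ.2.1) ∧ ¬ secp_hole M (secp_kB M κ.1.1) (secp_kA M κ.2.1) := by
  simp [secp_geo]

theorem secp_mem_cell (h : secp_H M Q r s) {κ : Fin (4 * M + 5) × Fin (2 * M + 4)} {z : ℤ × ℤ} :
    z ∈ (secp_grid h).cell κ ↔ (secp_X M Q r s κ.1.1 ≤ z.1 ∧ z.1 < secp_X M Q r s (κ.1.1 + 1)) ∧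
      (secp_Y M Q s κ.2.1 ≤ z.2 ∧ z.2 < secp_Y M Q s (κ.2.1 + 1)) := by
  simp [DGrid.cell, secp_grid, Finset.mem_product, Finset.mem_Ico]

theorem secp_exists_cell (h : secp_H M Q r s) {z : ℤ × ℤ} (hz : z ∈ sq (8 * Q)) : ∃ κ, z ∈ (secp_grid h).cell κ := by
  rw [mem_sq] at hz
  push_cast at hz
  obtain ⟨i, -, hi, hi1, hi2⟩ := secp_find (secp_X M Q r s) 0 (4 * M + 5) z.1 (by rw [secp_X_zero]; exact hz.1.1)
    (by rw [Nat.zero_add, secp_X_last]; exact hz.1.2)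
  obtain ⟨j, -, hj, hj1, hj2⟩ := secp_find (secp_Y M Q s) 0 (2 * M + 4) z.2 (by rw [secp_Y_zero]; exact hz.2.1)
    (by rw [Nat.zero_add, secp_Y_last]; exact hz.2.2)
  exact ⟨(⟨i, by omega⟩, ⟨j, by omega⟩), (secp_mem_cell h).2 ⟨⟨hi1, hi2⟩, ⟨hj1, hj2⟩⟩⟩

theorem secp_cell_sq (h : secp_H M Q r s) {κ : Fin (4 * M + 5) × Fin (2 * M + 4)} {z : ℤ × ℤ}
    (hz : z ∈ (secp_grid h).cell κ) : z ∈ sq (8 * Q) := by
  obtain ⟨⟨a1, a2⟩, ⟨b1, b2⟩⟩ := (secp_mem_cell h).1 hz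
  have e1 := (secp_X_mono h).monotone (Nat.zero_le κ.1.1)
  have e2 := (secp_X_mono h).monotone (show κ.1.1 + 1 ≤ 4 * M + 5 from κ.1.2)
  have e3 := (secp_Y_mono h).monotone (Nat.zero_le κ.2.1)
  have e4 := (secp_Y_mono h).monotone (show κ.2.1 + 1 ≤ 2 * M + 4 from κ.2.2)
  rw [secp_X_zero] at e1
  rw [secp_X_last] at e2
  rw [secp_Y_zero] at e3
  rw [secp_Y_last] at e4
  rw [mem_sq]
  push_cast
  exact ⟨⟨by linarith, by linarith⟩, ⟨by linarith, by linarith⟩⟩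

theorem secp_cell_T (h : secp_H M Q r s) {pn : Bool} {κ : Fin (4 * M + 5) × Fin (2 * M + 4)} {z : ℤ × ℤ}
    (hz : z ∈ (secp_grid h).cell κ) :
    κ ∈ (secp_geo M pn).T ↔ z ∉ stair M s ∧ z ∉ shift ((r : ℤ), 0) (stair M s) := by
  obtain ⟨⟨a1, a2⟩, ⟨b1, b2⟩⟩ := (secp_mem_cell h).1 hz
  rw [secp_mem_T, mem_shift, secp_mem_stair h.s1, secp_mem_stair h.s1]
  have e1 : (z - ((r : ℤ), (0 : ℤ))).1 = z.1 - r := rfl
  have e2 : (z - ((r : ℤ), (0 : ℤ))).2 = z.2 := by simp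
  rw [e1, e2, secp_hole_congr (secp_colA h a1 a2) (secp_rowA h b1 b2), secp_hole_congr (secp_colB h a1 a2) (secp_rowA h b1 b2)]

theorem secp_region (h : secp_H M Q r s) (pn : Bool) :
    (secp_grid h).region (secp_geo M pn).T = sq (8 * Q) \ (stair M s ∪ shift ((r : ℤ), 0) (stair M s)) := by
  ext z
  simp only [DGrid.region, Finset.mem_biUnion, Finset.mem_sdiff, Finset.mem_union, not_or]
  constructor
  · rintro ⟨κ, hκ, hz⟩
    exact ⟨secp_cell_sq h hz, (secp_cell_T h hz).1 hκ⟩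
  · rintro ⟨hz, hz'⟩
    obtain ⟨κ, hκ⟩ := secp_exists_cell h hz
    exact ⟨κ, (secp_cell_T h hκ).2 hz', hκ⟩

/-- the pinned cells cover the rim -/
theorem secp_pin (h : secp_H M Q r s) {z : ℤ × ℤ} (hz : z ∈ sq (8 * Q)) :
    z ∉ sq (6 * Q) ↔ z ∈ (secp_grid h).region (secp_geo M true).pin := by
  have hX := secp_X_mono h
  have hY := secp_Y_mono h
  have hpin : ∀ κ : Fin (4 * M + 5) × Fin (2 * M + 4), κ ∈ (secp_geo M true).pin ↔
      (κ.1.1 = 0 ∨ κ.1.1 = 4 * M + 4 ∨ κ.2.1 = 0 ∨ κ.2.1 = 2 * M + 3) := fun κ => by simp [secp_geo]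
  simp only [DGrid.region, Finset.mem_biUnion]
  rw [mem_sq]
  push_cast
  constructor
  · intro hn
    obtain ⟨κ, hκ⟩ := secp_exists_cell h hz
    refine ⟨κ, (hpin κ).2 ?_, hκ⟩
    obtain ⟨⟨a1, a2⟩, ⟨b1, b2⟩⟩ := (secp_mem_cell h).1 hκ
    by_contra hc
    simp only [not_or] at hc
    obtain ⟨c1, c2, c3, c4⟩ := hc
    have k1 := κ.1.2
    have k2 := κ.2.2
    have e1 := hX.monotone (show 1 ≤ κ.1.1 by omega)
    have e2 := hX.monotone (show κ.1.1 + 1 ≤ 4 * M + 4 by omega)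
    have e3 := hY.monotone (show 1 ≤ κ.2.1 by omega)
    have e4 := hY.monotone (show κ.2.1 + 1 ≤ 2 * M + 3 by omega)
    rw [secp_X_one] at e1
    rw [secp_X_six] at e2
    rw [secp_Y_one] at e3
    rw [secp_Y_six] at e4
    exact hn ⟨⟨by linarith, by linarith⟩, ⟨by linarith, by linarith⟩⟩
  · rintro ⟨κ, hκ, hzκ⟩ hn
    obtain ⟨⟨a1, a2⟩, ⟨b1, b2⟩⟩ := (secp_mem_cell h).1 hzκ
    rcases (hpin κ).1 hκ with c | c | c | c
    · rw [c, secp_X_one] at a2; linarith [hn.1.1]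
    · rw [c, secp_X_six] at a1; linarith [hn.1.2]
    · rw [c, secp_Y_one] at b2; linarith [hn.2.1]
    · rw [c, secp_Y_six] at b1; linarith [hn.2.2]

end region

/-! ### `NoDiag` and the string -/

/-- the cell `(i,j)` is not a hole cell -/
def secp_inT (M i j : ℕ) : Prop :=
  ¬ secp_hole M (secp_kA M i) (secp_kA M j) ∧ ¬ secp_hole M (secp_kB M i) (secp_kA M j)

section diag

variable {M : ℕ}

theorem secp_kA_rng {i : ℕ} (h : -(M : ℤ) ≤ secp_kA M i ∧ secp_kA M i < M) : 2 ≤ i ∧ i ≤ 2 * M + 1 := by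
  by_contra hc
  rw [secp_kA_out (by omega)] at h
  omega

theorem secp_kB_rng {i : ℕ} (h : -(M : ℤ) ≤ secp_kB M i ∧ secp_kB M i < M) : 2 * M + 3 ≤ i ∧ i ≤ 4 * M + 2 := by
  by_contra hc
  rw [secp_kB_out (by omega)] at h
  omega

theorem secp_kA_succ {i : ℕ} (h1 : 2 ≤ i) (h2 : i + 1 ≤ 2 * M + 1) : secp_kA M (i + 1) = secp_kA M i + 1 := by
  rw [secp_kA_in (by omega) h2, secp_kA_in h1 (by omega)]; push_cast; ring

theorem secp_kB_succ {i : ℕ} (h1 : 2 * M + 3 ≤ i) (h2 : i + 1 ≤ 4 * M + 2) : secp_kB M (i + 1) = secp_kB M i + 1 := by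
  rw [secp_kB_in (by omega) h2, secp_kB_in h1 (by omega)]; push_cast; ring

theorem secp_diag1 {i j : ℕ} (h1 : secp_inT M i j) (h2 : secp_inT M (i + 1) (j + 1)) :
    secp_inT M (i + 1) j ∨ secp_inT M i (j + 1) := by
  by_contra hc
  simp only [secp_inT, not_or, not_and_or, not_not] at hc
  obtain ⟨c1, c2⟩ := hc
  rcases c1 with c1 | c1 <;> rcases c2 with c2 | c2
  · have a1 := secp_kA_rng (secp_hole_rng c1).1
    have a2 := secp_kA_rng (secp_hole_rng c1).2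
    have a3 := secp_kA_rng (secp_hole_rng c2).1
    have a4 := secp_kA_rng (secp_hole_rng c2).2
    rw [secp_kA_succ a3.1 a1.2] at c1
    rw [secp_kA_succ a2.1 a4.2] at c2
    rcases secp_hole_diag c1 c2 with d | d
    · exact h1.1 d
    · rw [← secp_kA_succ a3.1 a1.2, ← secp_kA_succ a2.1 a4.2] at d
      exact h2.1 d
  · have a1 := secp_kA_rng (secp_hole_rng c1).1
    have a3 := secp_kB_rng (secp_hole_rng c2).1
    omega
  · have a1 := secp_kB_rng (secp_hole_rng c1).1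
    have a3 := secp_kA_rng (secp_hole_rng c2).1
    omega
  · have a1 := secp_kB_rng (secp_hole_rng c1).1
    have a2 := secp_kA_rng (secp_hole_rng c1).2
    have a3 := secp_kB_rng (secp_hole_rng c2).1
    have a4 := secp_kA_rng (secp_hole_rng c2).2
    rw [secp_kB_succ a3.1 a1.2] at c1
    rw [secp_kA_succ a2.1 a4.2] at c2
    rcases secp_hole_diag c1 c2 with d | d
    · exact h1.2 d
    · rw [← secp_kB_succ a3.1 a1.2, ← secp_kA_succ a2.1 a4.2] at d
      exact h2.2 d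

theorem secp_diag2 {i j : ℕ} (h1 : secp_inT M (i + 1) j) (h2 : secp_inT M i (j + 1)) :
    secp_inT M i j ∨ secp_inT M (i + 1) (j + 1) := by
  by_contra hc
  simp only [secp_inT, not_or, not_and_or, not_not] at hc
  obtain ⟨c1, c2⟩ := hc
  rcases c1 with c1 | c1 <;> rcases c2 with c2 | c2
  · have a1 := secp_kA_rng (secp_hole_rng c1).1
    have a2 := secp_kA_rng (secp_hole_rng c1).2
    have a3 := secp_kA_rng (secp_hole_rng c2).1
    have a4 := secp_kA_rng (secp_hole_rng c2).2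
    rw [secp_kA_succ a1.1 a3.2, secp_kA_succ a2.1 a4.2] at c2
    rcases secp_hole_diag' c1 c2 with d | d
    · rw [← secp_kA_succ a1.1 a3.2] at d
      exact h1.1 d
    · rw [← secp_kA_succ a2.1 a4.2] at d
      exact h2.1 d
  · have a1 := secp_kA_rng (secp_hole_rng c1).1
    have a3 := secp_kB_rng (secp_hole_rng c2).1
    omega
  · have a1 := secp_kB_rng (secp_hole_rng c1).1
    have a3 := secp_kA_rng (secp_hole_rng c2).1
    omega
  · have a1 := secp_kB_rng (secp_hole_rng c1).1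
    have a2 := secp_kA_rng (secp_hole_rng c1).2
    have a3 := secp_kB_rng (secp_hole_rng c2).1
    have a4 := secp_kA_rng (secp_hole_rng c2).2
    rw [secp_kB_succ a1.1 a3.2, secp_kA_succ a2.1 a4.2] at c2
    rcases secp_hole_diag' c1 c2 with d | d
    · rw [← secp_kB_succ a1.1 a3.2] at d
      exact h1.2 d
    · rw [← secp_kA_succ a2.1 a4.2] at d
      exact h2.2 d

theorem secp_noDiag (pn : Bool) : (secp_geo M pn).NoDiag := by
  have hc : ∀ f, f ∉ (secp_geo M pn).cutF := fun f => Finset.notMem_empty f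
  have hT : ∀ κ : Fin (4 * M + 5) × Fin (2 * M + 4), κ ∈ (secp_geo M pn).T ↔ secp_inT M κ.1.1 κ.2.1 := fun κ => secp_mem_T
  refine ⟨?_, ?_⟩
  · rintro κ κ' - - (⟨-, -, h⟩ | ⟨-, -, h⟩)
    · exact absurd h (hc _)
    · exact absurd h (hc _)
  · intro i j i' j' hi hj
    refine ⟨fun _ h1 h2 => ?_, fun _ h1 h2 => ?_⟩
    · rw [hT] at h1 h2
      simp only [← hi, ← hj] at h2
      rcases secp_diag1 h1 h2 with d | d
      · exact Or.inl ⟨(hT _).2 (by simpa only [← hi] using d), hc _, hc _⟩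
      · exact Or.inr ⟨(hT _).2 (by simpa only [← hj] using d), hc _, hc _⟩
    · rw [hT] at h1 h2
      simp only [← hi] at h1
      simp only [← hj] at h2
      rcases secp_diag2 h1 h2 with d | d
      · exact Or.inl ⟨(hT _).2 d, hc _, hc _⟩
      · exact Or.inr ⟨(hT _).2 (by simpa only [← hi, ← hj] using d), hc _, hc _⟩

end diag

/-! ### the string -/

/-- the string between the two holes: the faces between the block rows `-1` and `0`, from the block `M - 1` of the first hole to the block `-M` of the second hole -/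
def secp_ray (M : ℕ) : Fin 1 → S23.Ray := fun _ => ⟨true, M + 1, 2 * M + 1, 2 * M + 4, 1⟩

section ray

variable {M : ℕ}

theorem secp_f_row (hM : 2 ≤ M) {j : ℕ} (hj : j = M + 1 ∨ j = M + 2) : secp_f (secp_kA M j) = 1 := by
  rcases hj with rfl | rfl
  · rw [secp_kA_in (by omega) (by omega)]
    have : ((M + 1 : ℕ) : ℤ) - 2 - M = -1 := by push_cast; ring
    rw [this]; simp [secp_f]
  · rw [secp_kA_in (by omega) (by omega)]
    have : ((M + 2 : ℕ) : ℤ) - 2 - M = 0 := by push_cast; ring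
    rw [this]; simp [secp_f]

theorem secp_inT_corr (hM : 2 ≤ M) {i j : ℕ} (h1 : 2 * M + 1 ≤ i) (h2 : i < 2 * M + 4) (hj : j = M + 1 ∨ j = M + 2) :
    secp_inT M i j := by
  have hM0 : (0 : ℤ) ≤ M := Int.natCast_nonneg M
  have key : (M : ℤ) ^ 2 ≤ secp_f (secp_kA M i) ∧ (M : ℤ) ^ 2 ≤ secp_f (secp_kB M i) := by
    have hi : i = 2 * M + 1 ∨ i = 2 * M + 2 ∨ i = 2 * M + 3 := by omega
    rcases hi with rfl | rfl | rfl
    · rw [secp_kA_in (by omega) le_rfl, secp_kB_out (Or.inl (by omega))]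
      exact ⟨secp_f_ge hM0 (Or.inr (by push_cast; linarith)), secp_f_ge hM0 (Or.inr (by linarith))⟩
    · rw [secp_kA_out (Or.inr (by omega)), secp_kB_out (Or.inl (by omega))]
      exact ⟨secp_f_ge hM0 (Or.inr (by linarith)), secp_f_ge hM0 (Or.inr (by linarith))⟩
    · rw [secp_kA_out (Or.inr (by omega)), secp_kB_in le_rfl (by omega)]
      exact ⟨secp_f_ge hM0 (Or.inr (by linarith)), secp_f_ge hM0 (Or.inl (by push_cast; linarith))⟩
  unfold secp_inT secp_hole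
  rw [secp_f_row hM hj]
  constructor <;> omega

theorem secp_not_inT_end (hM : 2 ≤ M) {i j : ℕ} (hi : i + 1 = 2 * M + 1 ∨ i = 2 * M + 4) (hj : j = M + 1 ∨ j = M + 2) :
    ¬ secp_inT M i j := by
  have hM' : (2 : ℤ) ≤ M := by exact_mod_cast hM
  have hsq : ((M : ℤ) - 1) ^ 2 + 1 ≤ (M : ℤ) ^ 2 := by nlinarith
  unfold secp_inT secp_hole
  rw [secp_f_row hM hj]
  rcases hi with hi | rfl
  · have : i = 2 * M := by omega
    subst this
    have := secp_f_le (k := secp_kA M (2 * M)) (a := (M : ℤ) - 1)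
      (by rw [secp_kA_in (by omega) (by omega)]; push_cast; linarith)
      (by rw [secp_kA_in (by omega) (by omega)]; push_cast; linarith)
    intro hc
    exact hc.1 (by linarith)
  · have := secp_f_le (k := secp_kB M (2 * M + 4)) (a := (M : ℤ) - 1)
      (by rw [secp_kB_in (by omega) (by omega)]; push_cast; linarith)
      (by rw [secp_kB_in (by omega) (by omega)]; push_cast; linarith)
    intro hc
    exact hc.2 (by linarith)

theorem secp_has {pn : Bool} {i j : ℕ} :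
    (secp_ray M 0).has (secp_geo M pn).T i j ↔ i < 4 * M + 5 ∧ j < 2 * M + 4 ∧ secp_inT M i j := by
  unfold S23.Ray.has
  constructor
  · rintro ⟨κ, hκ, h⟩
    have h' : κ.1.1 = i ∧ κ.2.1 = j := h
    obtain ⟨rfl, rfl⟩ := h'
    exact ⟨κ.1.2, κ.2.2, secp_mem_T.1 hκ⟩
  · rintro ⟨hi, hj, h⟩
    exact ⟨(⟨i, hi⟩, ⟨j, hj⟩), secp_mem_T.2 h, ⟨rfl, rfl⟩⟩

theorem secp_raysOk (hM : 2 ≤ M) (pn : Bool) : S23.RaysOk (secp_geo M pn) (secp_ray M) := by
  refine ⟨fun i => ?_, fun i j hij => absurd (Subsingleton.elim i j) hij⟩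
  have hi0 : i = 0 := Subsingleton.elim _ _
  subst hi0
  refine ⟨?_, ?_, ?_, ?_⟩
  · show 2 * M + 1 < 2 * M + 4
    omega
  · intro i (h1 : 2 * M + 1 ≤ i) (h2 : i < 2 * M + 4)
    exact ⟨secp_has.2 ⟨by omega, show M + 1 < 2 * M + 4 by omega, secp_inT_corr hM h1 h2 (Or.inl rfl)⟩,
      secp_has.2 ⟨by omega, show M + 1 + 1 < 2 * M + 4 by omega, secp_inT_corr hM h1 h2 (Or.inr rfl)⟩⟩
  · intro i (hi : i + 1 = 2 * M + 1 ∨ i = 2 * M + 4)
    exact ⟨fun h => secp_not_inT_end hM hi (Or.inl rfl) (secp_has.1 h).2.2,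
      fun h => secp_not_inT_end hM hi (Or.inr rfl) (secp_has.1 h).2.2⟩
  · rw [Finset.disjoint_left]
    intro κ hκ hp
    have h1 : (κ.2.1 = M + 1 ∨ κ.2.1 = M + 1 + 1) ∧ 2 * M + 1 ≤ κ.1.1 ∧ κ.1.1 < 2 * M + 4 := by
      simpa [S23.Ray.corr, secp_ray] using hκ
    cases pn with
    | false => simp [secp_geo] at hp
    | true =>
      have h2 : κ.1.1 = 0 ∨ κ.1.1 = 4 * M + 4 ∨ κ.2.1 = 0 ∨ κ.2.1 = 2 * M + 3 := by simpa [secp_geo] using hp
      omega

end ray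

/-! ### the connection -/

section conn

variable {M Q r s : ℕ}

theorem secp_mem_faces {f : S23.CFace (4 * M + 5) (2 * M + 4)} :
    f ∈ ((secp_ray M 0).faces : Finset (S23.CFace (4 * M + 5) (2 * M + 4))) ↔
      f.2 = false ∧ f.1.2.1 = M + 1 ∧ 2 * M + 1 ≤ f.1.1.1 ∧ f.1.1.1 < 2 * M + 4 := by
  simp [S23.Ray.faces, secp_ray]

/-- the bonds which cross the string -/
theorem secp_cross (h : secp_H M Q r s) (e : Bond) :
    e ∈ S23.crossB (secp_grid h) ((secp_ray M 0).faces : Finset (S23.CFace (4 * M + 5) (2 * M + 4))) ↔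
      e.2 = false ∧ e.1.2 + 1 = 0 ∧ ((M : ℤ) - 1) * s ≤ e.1.1 ∧ e.1.1 < r - ((M : ℤ) - 1) * s := by
  obtain ⟨i1, i2, i3, i4, i5⟩ := h.int
  have hM := h.M4
  have hX := (secp_X_mono h).monotone
  have eY1 : secp_Y M Q s (M + 1) = -(s : ℤ) := by rw [secp_Y_A (by omega) (by omega)]; push_cast; ring
  have eY2 : secp_Y M Q s (M + 1 + 1) = 0 := by rw [secp_Y_A (by omega) (by omega)]; push_cast; ring
  have eX1 : secp_X M Q r s (2 * M + 1) = ((M : ℤ) - 1) * s := by rw [secp_X_A (by omega) (by omega)]; push_cast; ring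
  have eX2 : secp_X M Q r s (2 * M + 1 + 3) = r - ((M : ℤ) - 1) * s := by
    rw [secp_X_B (by omega) (by omega)]; push_cast; ring
  constructor
  · rintro ⟨f, hf, he, hc, hn⟩
    obtain ⟨f1, f2, f3, f4⟩ := secp_mem_faces.1 hf
    have he' : e.2 = false := he.trans f1
    obtain ⟨⟨a1, a2⟩, ⟨b1, b2⟩⟩ := (secp_mem_cell h).1 hc
    rw [secp_mem_cell h] at hn
    have hs1 : e.snd.1 = e.1.1 := by simp [Bond.snd, he']
    have hs2 : e.snd.2 = e.1.2 + 1 := by simp [Bond.snd, he']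
    rw [hs1, hs2, f2] at hn
    rw [f2] at b1 b2
    rw [eY2] at b2 hn
    rw [eY1] at b1 hn
    have c1 := hX f3
    have c2 := hX (show f.1.1.1 + 1 ≤ 2 * M + 1 + 3 by omega)
    rw [eX1] at c1
    rw [eX2] at c2
    refine ⟨he', ?_, by linarith, by linarith⟩
    by_contra hne
    exact hn ⟨⟨a1, a2⟩, ⟨by linarith, by omega⟩⟩
  · rintro ⟨he, h0, h1, h2⟩
    obtain ⟨i, hi1, hi2, hi3, hi4⟩ := secp_find (secp_X M Q r s) (2 * M + 1) 3 e.1.1 (by rw [eX1]; exact h1)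
      (by rw [eX2]; exact h2)
    refine ⟨((⟨i, by omega⟩, ⟨M + 1, by omega⟩), false), secp_mem_faces.2 ⟨rfl, rfl, hi1, by simpa using hi2⟩, he, ?_, ?_⟩
    · rw [secp_mem_cell h]
      refine ⟨⟨hi3, hi4⟩, ⟨?_, ?_⟩⟩
      · show secp_Y M Q s (M + 1) ≤ e.1.2
        rw [eY1]; linarith
      · show e.1.2 < secp_Y M Q s (M + 1 + 1)
        rw [eY2]; linarith
    · rw [secp_mem_cell h]
      rintro ⟨-, -, hc⟩
      have hs2 : e.snd.2 = e.1.2 + 1 := by simp [Bond.snd, he]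
      have hc' : e.snd.2 < secp_Y M Q s (M + 1 + 1) := hc
      rw [hs2, eY2] at hc'
      linarith

theorem secp_conn (h : secp_H M Q r s) (e : Bond) (h1 : e.1 ∉ stair M s) (h2 : e.1 ∉ shift ((r : ℤ), 0) (stair M s)) :
    segConn (0, 0) r e = S23.connB (secp_grid h) (secp_ray M) e := by
  obtain ⟨i1, i2, i3, i4, i5⟩ := h.int
  have hsq : ((M : ℤ) - 1) ^ 2 + 1 ≤ (M : ℤ) ^ 2 := by nlinarith
  have hc : S23.connB (secp_grid h) (secp_ray M) e =
      if e ∈ S23.crossB (secp_grid h) ((secp_ray M 0).faces : Finset (S23.CFace (4 * M + 5) (2 * M + 4))) then 1 else 0 := by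
    simp [S23.connB, secp_ray]
  rw [hc]
  unfold segConn
  refine if_congr ?_ rfl rfl
  rw [secp_cross h e]
  have hms : 0 ≤ ((M : ℤ) - 1) * s := mul_nonneg (by linarith) (by linarith)
  constructor
  · rintro ⟨he, h0, ha, hb⟩
    have h0' : e.1.2 + 1 = 0 := h0
    have ha' : 0 ≤ e.1.1 := ha
    have hb' : e.1.1 < r := by simpa using hb
    have hy : e.1.2 / (s : ℤ) = -1 := secp_div_eq h.s1 (by linarith) (by linarith)
    have hf1 : secp_f (-1) = 1 := by simp [secp_f]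
    refine ⟨he, h0', ?_, ?_⟩
    · by_contra hlt
      rw [not_le] at hlt
      apply h1
      rw [secp_mem_stair h.s1, hy]
      unfold secp_hole
      rw [hf1]
      have k1 : 0 ≤ e.1.1 / (s : ℤ) := secp_le_div h.s1 (by linarith)
      have k2 : e.1.1 / (s : ℤ) < (M : ℤ) - 1 := secp_div_lt h.s1 hlt
      have := secp_f_le (k := e.1.1 / (s : ℤ)) (a := (M : ℤ) - 1) (by linarith) (by linarith)
      linarith
    · by_contra hge
      rw [not_lt] at hge
      apply h2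
      rw [mem_shift, secp_mem_stair h.s1]
      have e1 : (e.1 - ((r : ℤ), (0 : ℤ))).1 = e.1.1 - r := rfl
      have e2 : (e.1 - ((r : ℤ), (0 : ℤ))).2 = e.1.2 := by simp
      rw [e1, e2, hy]
      unfold secp_hole
      rw [hf1]
      have k1 : -((M : ℤ) - 1) ≤ (e.1.1 - r) / (s : ℤ) := secp_le_div h.s1 (by linarith)
      have k2 : (e.1.1 - r) / (s : ℤ) < 0 := secp_div_lt h.s1 (by linarith)
      have := secp_f_le (k := (e.1.1 - r) / (s : ℤ)) (a := (M : ℤ) - 1) k1 (by linarith)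
      linarith
  · rintro ⟨he, h0, ha, hb⟩
    exact ⟨he, h0, show (0 : ℤ) ≤ e.1.1 by linarith, show e.1.1 < 0 + (r : ℤ) by linarith⟩

/-- the sides -/
theorem secp_sideGe (h : secp_H M Q r s) : (secp_grid h).SideGe s := by
  refine ⟨fun i => ?_, fun j => ?_⟩
  · have := secp_X_step h i.1 (by have := i.2; omega)
    show (s : ℤ) ≤ secp_X M Q r s (i.1 + 1) - secp_X M Q r s i.1
    linarith
  · have := secp_Y_step h j.1 (by have := j.2; omega)
    show (s : ℤ) ≤ secp_Y M Q s (j.1 + 1) - secp_Y M Q s j.1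
    linarith

theorem secp_sideLe (h : secp_H M Q r s) {n : ℕ} (hn : 16 * Q ≤ n) : (secp_grid h).SideLe n := by
  have hn' : 16 * (Q : ℤ) ≤ n := by exact_mod_cast hn
  refine ⟨fun i => ?_, fun j => ?_⟩
  · have e1 := (secp_X_mono h).monotone (Nat.zero_le i.1)
    have e2 := (secp_X_mono h).monotone (show i.1 + 1 ≤ 4 * M + 5 from i.2)
    rw [secp_X_zero] at e1
    rw [secp_X_last] at e2
    show secp_X M Q r s (i.1 + 1) - secp_X M Q r s i.1 ≤ n
    linarith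
  · have e1 := (secp_Y_mono h).monotone (Nat.zero_le j.1)
    have e2 := (secp_Y_mono h).monotone (show j.1 + 1 ≤ 2 * M + 4 from j.2)
    rw [secp_Y_zero] at e1
    rw [secp_Y_last] at e2
    show secp_Y M Q s (j.1 + 1) - secp_Y M Q s j.1 ≤ n
    linarith

end conn

/-! ### the two statements -/

theorem secp_main (pn : Bool) (M q : ℕ) (hM : 4 ≤ M) (hq : 1 ≤ q) (c₁ c₂ : ℝ) (hc₁ : 0 < c₁) (hc₂ : c₂ < 1 / 4) :
    UnifSmall M c₁ c₂ fun r s => secDef (extP M q r s) (if pn then rim q r else ∅) (segConn (0, 0) r) := by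
  refine secc_unif (secp_geo M pn) (secp_noDiag pn) rfl (secp_ray M) (secp_raysOk (by omega) pn)
    (16 * q * ⌈(M : ℝ) / c₁⌉₊) M c₁ c₂ hc₁ (fun r s => extP M q r s) (fun r _ => if pn then rim q r else ∅)
    (fun r _ => segConn (0, 0) r) ?_
  intro r s hr hs h1 h2
  have hr0 : (0 : ℝ) < r := by exact_mod_cast hr
  have hlt : 4 * (M * s) < r := by
    have : (4 : ℝ) * (M * s : ℕ) < r := by nlinarith
    exact_mod_cast this
  have hW : r ≤ ⌈(M : ℝ) / c₁⌉₊ * s := by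
    have a := Nat.le_ceil ((M : ℝ) / c₁)
    have b : (r : ℝ) ≤ (M : ℝ) / c₁ * s := by
      rw [div_mul_eq_mul_div, le_div_iff₀ hc₁]
      push_cast at h1
      linarith
    have c : (r : ℝ) ≤ (⌈(M : ℝ) / c₁⌉₊ : ℝ) * s := b.trans (mul_le_mul_of_nonneg_right a (Nat.cast_nonneg s))
    exact_mod_cast c
  have h : secp_H M (q * r) r s := ⟨hM, hs, hlt, Nat.le_mul_of_pos_left r hq⟩
  refine ⟨secp_grid h, ⟨secp_sideGe h, secp_sideLe h ?_⟩, ?_, ?_, ?_⟩
  · calc 16 * (q * r) = 16 * q * r := by ring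
      _ ≤ 16 * q * (⌈(M : ℝ) / c₁⌉₊ * s) := Nat.mul_le_mul_left _ hW
      _ = 16 * q * ⌈(M : ℝ) / c₁⌉₊ * s := by ring
  · rw [secp_region]
    unfold extP
    rw [Nat.mul_assoc]
  · intro z hz
    cases pn with
    | false => simp [secp_geo, DGrid.region]
    | true =>
      have hz8 : z ∈ sq (8 * (q * r)) := by
        rw [← Nat.mul_assoc]
        exact (Finset.mem_sdiff.1 hz).1
      rw [← secp_pin h hz8]
      simp [rim, Nat.mul_assoc]
  · intro e he _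
    have hn := (Finset.mem_sdiff.1 he).2
    rw [Finset.mem_union, not_or] at hn
    exact secp_conn h e hn.1 hn.2

theorem sector_pair' : SectorPair := fun M q hM hq c₁ c₂ hc₁ hc₂ => by
  simpa using secp_main false M q hM hq c₁ c₂ hc₁ hc₂

theorem sector_pair_pin' : SectorPairPin := fun M q hM hq c₁ c₂ hc₁ hc₂ δ hδ => by
  filter_upwards [secp_main true M q hM hq c₁ c₂ hc₁ hc₂ δ hδ] with r hr s h1 h2
  exact (abs_le.1 (hr s h1 h2)).2

theorem secp_eqns_cite : True := by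
  have := @secp_f.eq_1
  have := @secp_hole.eq_1
  have := @secp_X.eq_1
  have := @secp_Y.eq_1
  have := @secp_kA.eq_1
  have := @secp_kB.eq_1
  have := @secp_sim.eq_1
  have := @secp_geo.eq_1
  have := @secp_grid.eq_1
  have := @secp_inT.eq_1
  have := @secp_ray.eq_1
  trivial

end Claimed.Agent.R285.F23
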