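import Claimed.Agent.R285.Base.Geom

/-!
# ROW 285, layer F3 ([F]s2-3): DEFINITIONS and STATEMENTS (as `Prop`s)      (owner helper12)      no sorry, no contract in this file.
K1 verdicts, plan, imports: header of `Read/F23.lean`.   Proof files of the layer import THIS file (never `Read/F23.lean`).

## LATTICE CONVENTIONS
The dual vertex `(i,j) ∈ ℤ²` is the point `(i+½, j+½)`; primal vertices are the integer points.  `sq n = [-n,n)²` (the free dual square of `M_n`).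
`stair M s` = union of the `s × s` blocks `(k,l)` contained in the disk of radius `M` (block units) `= ϱ P`, `ϱ = M s`, `B(0,1-√2/M) ⊂ P ⊂ B(0,1)`.
-/

set_option autoImplicit false

namespace Claimed.Agent.R285.F23

open Filter Topology Claims.C0459
open scoped Classical

noncomputable section

/-! ## 0. Vocabulary -/

/-- the dual square `[-n,n)²` -/
def sq (n : ℕ) : Finset (ℤ × ℤ) := Finset.Ico (-(n : ℤ)) n ×ˢ Finset.Ico (-(n : ℤ)) n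

/-- translation -/
def shift (x : ℤ × ℤ) (A : Finset (ℤ × ℤ)) : Finset (ℤ × ℤ) := A.image fun z => z + x

/-- the staircase disk `ϱ P`, `ϱ = M s` -/
def stair (M s : ℕ) : Finset (ℤ × ℤ) :=
  (sq (M * s)).filter fun z =>
    max ((z.1 / (s : ℤ)) ^ 2) ((z.1 / (s : ℤ) + 1) ^ 2) + max ((z.2 / (s : ℤ)) ^ 2) ((z.2 / (s : ℤ) + 1) ^ 2) ≤ (M : ℤ) ^ 2

/-- the connection of the primal path `x, x + e₁, …, x + r e₁`: `1` on the dual bonds `(i, x₂-1) → (i, x₂)`, `x₁ ≤ i < x₁ + r`.  Circulation `+1` around `x`, `-1` around `x + r e₁` (up to orientation). -/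
def segConn (x : ℤ × ℤ) (r : ℕ) : Bond → ℤ :=
  fun e => if e.2 = false ∧ e.1.2 + 1 = x.2 ∧ x.1 ≤ e.1.1 ∧ e.1.1 < x.1 + r then 1 else 0

/-- heights which are constant on `P` (the event `[P]`) -/
def flat {G : HGraph} (P : Set G.V) : AddSubgroup (G.V → ℤ) where
  carrier := {h | ∀ v ∈ P, ∀ w ∈ P, h v = h w}
  zero_mem' := fun _ _ _ _ => rfl
  add_mem' := by
    intro h h' hh hh' v hv w hw
    simp [hh v hv w hw, hh' v hv w hw]
  neg_mem' := by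
    intro h hh v hv w hw
    simp [hh v hv w hw]

/-- the law without observations on the n.n. graph of `D` with constraint lattice `Λ` -/
def lawOf (D : Finset (ℤ × ℤ)) (Λ : AddSubgroup ((domG D ∅).V → ℤ)) : HLaw (domG D ∅) :=
  { Λ := Λ, O := Empty, B := fun o => Empty.elim o }

/-- **the partition sum** (image form: released constants are factored out): heights in `u + Λ`, connection `τ`. -/
def W (b : ℝ) (D : Finset (ℤ × ℤ)) (Λ : AddSubgroup ((domG D ∅).V → ℤ)) (u : ℤ × ℤ → ℤ) (τ : Bond → ℤ) : ℝ :=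
  ((lawOf D Λ).sys b).w (HLaw.Aff.amb (H := lawOf D Λ) ⟨domFn u, domFnE τ, fun o => Empty.elim o⟩ b)

/-- hard zero pin on the sites of `P` -/
def pinL (D : Finset (ℤ × ℤ)) (P : Set (ℤ × ℤ)) : AddSubgroup ((domG D ∅).V → ℤ) := HLaw.pinned (domSet P)

/-- flat constraint on the sites of `P` -/
def flatL (D : Finset (ℤ × ℤ)) (P : Set (ℤ × ℤ)) : AddSubgroup ((domG D ∅).V → ℤ) := flat (domSet P)

/-- **the bare sector ratio** `Φ_G^τ = Z_G^τ / Z_G^0`, free walls, hard zero pin on `P` -/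
def Phi (b : ℝ) (D : Finset (ℤ × ℤ)) (P : Set (ℤ × ℤ)) (τ : Bond → ℤ) : ℝ :=
  W b D (pinL D P) 0 τ / W b D (pinL D P) 0 0

/-- the mass of the RELATIVE guard datum `u` on `Pg` in the free law with connection `τ` (`μ^τ(u)` of [F]s3.1, `m^s(du)` of [S]s5.1) -/
def gm (b : ℝ) (D : Finset (ℤ × ℤ)) (Pg : Set (ℤ × ℤ)) (τ : Bond → ℤ) (u : ℤ × ℤ → ℤ) : ℝ :=
  W b D (flatL D Pg) u τ / W b D ⊤ 0 τ

/-- the flat pin interaction `D̄(H,P) = log [μ([H] | [P]) / μ([H])]` in the centred free law on `D` -/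
def dFlat (b : ℝ) (D : Finset (ℤ × ℤ)) (H Pg : Set (ℤ × ℤ)) : ℝ :=
  Real.log (W b D (flatL D H ⊓ flatL D Pg) 0 0 * W b D ⊤ 0 0 / (W b D (flatL D H) 0 0 * W b D (flatL D Pg) 0 0))

/-- **the reference energy** `min_v ∑_e (∇_e v + 2π τ_e)²`, `v = 0` on `P` -/
def En (D : Finset (ℤ × ℤ)) (P : Set (ℤ × ℤ)) (τ : Bond → ℤ) : ℝ :=
  (lawOf D (pinL D P)).gEn 1 (fun e => 2 * Real.pi * ((domFnE τ e : ℤ) : ℝ)) fun o => Empty.elim o

/-- the statistic `z ↦ ∑_e t_e z_e` on the image lattice -/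
def flowT (S : LSys) (t : S.E → ℝ) : S.L →+ ℝ where
  toFun z := ∑ e, t e * ((z : S.Amb).1 e : ℝ)
  map_zero' := by simp
  map_add' z z' := by simp [mul_add, Finset.sum_add_distrib]

/-- the rim `F_{R_out}`, `R_out = 8 q`, in lattice units: EVERYTHING outside `sq (6 q r)` is pinned
(so the pinned comparator does not depend on the box: `PhiPinExt` in `F3/Calc.lean`) -/
def rim (q r : ℕ) : Set (ℤ × ℤ) := (↑(sq (6 * q * r)) : Set (ℤ × ℤ))ᶜ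

/-- nest parameters: `ε = √2 / M`, `λ = 4^p`, core `stair M s0` -/
structure NP where
  M : ℕ
  p : ℕ
  s0 : ℕ

namespace NP

variable (𝔫 : NP)

def lam : ℕ := 4 ^ 𝔫.p
/-- block side of the `i`-th disk -/
def s (i : ℕ) : ℕ := 𝔫.s0 * 𝔫.lam ^ i
/-- the radius `ϱ_i` -/
def rad (i : ℕ) : ℕ := 𝔫.M * 𝔫.s i
/-- `ϱ_i P` -/
def disc (i : ℕ) : Finset (ℤ × ℤ) := stair 𝔫.M (𝔫.s i)
/-- `ann i` is the annulus with walls `ϱ_i P`, `ϱ_{i+1} P` -/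
def ann (i : ℕ) : Finset (ℤ × ℤ) := 𝔫.disc (i + 1) \ 𝔫.disc i
/-- its guard `Q_{2√λ} \ Q_{√λ}`, scaled by `ϱ_i` -/
def guard (i : ℕ) : Set (ℤ × ℤ) := ↑(sq (2 * 2 ^ 𝔫.p * 𝔫.rad i)) \ ↑(sq (2 ^ 𝔫.p * 𝔫.rad i))
/-- inner end -/
def endIn (i : ℕ) : Set (ℤ × ℤ) := ↑(sq (4 * 𝔫.rad i))
/-- outer end -/
def endOut (i : ℕ) : Set (ℤ × ℤ) := (↑(sq (4 ^ (𝔫.p - 1) * 𝔫.rad i)) : Set (ℤ × ℤ))ᶜ

end NP

/-- the unit connections of a nest centred at the origin: the ray to the right, the ray to the left -/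
def rayR (ρ : ℕ) : Bond → ℤ := segConn (0, 0) ρ
def rayL (ρ : ℕ) : Bond → ℤ := segConn (-(ρ : ℤ), 0) ρ

/-- `τ` restricted to the bonds inside `x + A` is the translate of `T` -/
def Loc (τ : Bond → ℤ) (x : ℤ × ℤ) (A : Finset (ℤ × ℤ)) (T : Bond → ℤ) : Prop :=
  ∀ e : Bond, e.1 ∈ shift x A → e.snd ∈ shift x A → τ e = T (e.1 - x, e.2)

/-- the three sectors of a nest of outer radius `ρ` -/
def Sector (ρ : ℕ) (T : Bond → ℤ) : Prop := T = 0 ∨ T = rayR ρ ∨ T = rayL ρ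

/-- the logarithm of the bare sector ratio `𝒩_J` of a whole free nest (core + `J` annuli) with a unit source -/
def logN (b : ℝ) (𝔫 : NP) (J : ℕ) : ℝ := Real.log (Phi b (𝔫.disc J) ∅ (rayR (𝔫.rad J)))

/-- [S]C5.5 as a property of a nest of depth `J + 1`: in the three sectors the law of the last guard datum in the whole nest has density at most `2` w.r.t. its law in the cut last annulus. -/
def LastGuard (b : ℝ) (𝔫 : NP) (J : ℕ) : Prop :=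
  ∀ T : Bond → ℤ, Sector (𝔫.rad (J + 1)) T → ∀ u : ℤ × ℤ → ℤ,
    gm b (𝔫.disc (J + 1)) (𝔫.guard J) T u ≤ 2 * gm b (𝔫.ann J) (𝔫.guard J) T u

/-- union of translates -/
def uni {k : ℕ} (x : Fin k → ℤ × ℤ) (A : Finset (ℤ × ℤ)) : Finset (ℤ × ℤ) := Finset.univ.biUnion fun i => shift (x i) A

/-- `F n s → 0` uniformly in `c₁ n ≤ M s ≤ c₂ n` -/
def UnifSmall (M : ℕ) (c₁ c₂ : ℝ) (F : ℕ → ℕ → ℝ) : Prop :=
  ∀ δ > 0, ∀ᶠ n : ℕ in atTop, ∀ s : ℕ, c₁ * n ≤ (M * s : ℕ) → ((M * s : ℕ) : ℝ) ≤ c₂ * n → |F n s| ≤ δ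

/-- one-sided version -/
def UnifLe (M : ℕ) (c₁ c₂ : ℝ) (F : ℕ → ℕ → ℝ) : Prop :=
  ∀ δ > 0, ∀ᶠ n : ℕ in atTop, ∀ s : ℕ, c₁ * n ≤ (M * s : ℕ) → ((M * s : ℕ) : ℝ) ≤ c₂ * n → F n s ≤ δ

/-- the defect of the sector theorem: `-2 log Φ - En / a` at `b = b_c`, `a = 8π` -/
def secDef (D : Finset (ℤ × ℤ)) (P : Set (ℤ × ℤ)) (τ : Bond → ℤ) : ℝ :=
  -2 * Real.log (Phi xyCritical D P τ) - En D P τ / (8 * Real.pi)

/-- the exterior of the centre nest -/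
def extC (M n s : ℕ) : Finset (ℤ × ℤ) := sq n \ stair M s
/-- the exterior of the pair of nests in `sq (8 q r)` -/
def extP (M q r s : ℕ) : Finset (ℤ × ℤ) := sq (8 * q * r) \ (stair M s ∪ shift ((r : ℤ), 0) (stair M s))

/-! ## 1. The statements -/

/-- graph isomorphism `square (2n) ≅ domG (sq n)` -/
def CenterBridge : Prop := ∀ (b : ℝ) (n : ℕ), 0 < n → centerMag b n = Phi b (sq n) ∅ (segConn (0, 0) n)

def PhiPos : Prop := ∀ (b : ℝ), 0 < b → ∀ (D : Finset (ℤ × ℤ)) (P : Set (ℤ × ℤ)) (τ : Bond → ℤ), 0 < Phi b D P τ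

/-- [F]L2.1, first half.  The exterior face is represented by the layer `sq (R+1) \ sq R`, pinned at zero (the bonds inside the layer carry the same factor `p_b(0)` in both sums). -/
def BoxDuality : Prop := ∀ (b : ℝ), 0 < b → ∀ R r : ℕ, r ≤ R →
    xyBoxCorr b R r = Phi b (sq (R + 1)) (↑(sq (R + 1)) \ ↑(sq R)) (segConn (0, 0) r)

/-- [F] (3.14).  Upper bound: `BoxDuality`, cut the bonds across the boundary of `sq (8qr)` (`lsys_ratio_mono`), the outer component has zero connection.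
Lower bound: add the pin on the rim (`lsys_ratio_mono`); the bonds between pinned sites carry the same factor `p_b(0)` in both sums.  Then `R → ∞` (`xy_corr_tendsto`). -/
def Bracket : Prop := ∀ (b : ℝ), 0 < b → ∀ q r : ℕ, 1 ≤ q → 1 ≤ r →
    Phi b (sq (8 * q * r)) (rim q r) (segConn (0, 0) r) ≤ xyCorr b r ∧
      xyCorr b r ≤ Phi b (sq (8 * q * r)) ∅ (segConn (0, 0) r)

/-- reflection `i ↦ -1-i` -/
def PhiRefl : Prop := ∀ (b : ℝ) (D : Finset (ℤ × ℤ)) (ρ : ℕ), (∀ z : ℤ × ℤ, z ∈ D → (-1 - z.1, z.2) ∈ D) →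
    Phi b D ∅ (rayL ρ) = Phi b D ∅ (rayR ρ)

/-- translation invariance -/
def PhiShift : Prop := ∀ (b : ℝ) (x : ℤ × ℤ) (A : Finset (ℤ × ℤ)) (τ T : Bond → ℤ), Loc τ x A T →
    Phi b (shift x A) ∅ τ = Phi b A ∅ T

/-- only the bonds of the graph matter -/
def PhiCongr : Prop := ∀ (b : ℝ) (D : Finset (ℤ × ℤ)) (P : Set (ℤ × ℤ)) (τ τ' : Bond → ℤ),
    (∀ e : Bond, e.1 ∈ D → e.snd ∈ D → τ e = τ' e) → Phi b D P τ = Phi b D P τ'

/-- cutting, deleting regions, releasing pins increase a sector ratio (`lsys_ratio_mono`) -/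
def PhiMono : Prop := ∀ (b : ℝ), 0 < b → ∀ (D D' : Finset (ℤ × ℤ)) (P P' : Set (ℤ × ℤ)) (τ : Bond → ℤ), D' ⊆ D → P' ⊆ P →
    Phi b D P τ ≤ Phi b D' P' τ

/-- flat pins are positively correlated (`lsys_event_mono`).  NOT true for arbitrary `D, H, Pg` in image form: one of the two sets must lie in one connected component
(`im [H] ⊓ im [Pg] = im ([H] ⊓ [Pg])`); here the guard is a square annulus contained in `ann J`. -/
def DFlatNonneg : Prop := ∀ (b : ℝ), 0 < b → ∀ (𝔫 : NP) (J : ℕ), 4 ≤ 𝔫.p → 4 ≤ 𝔫.M → 1 ≤ 𝔫.s0 →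
    0 ≤ dFlat b (𝔫.ann J) (𝔫.endOut J) (𝔫.guard J)

/-- **ATTACHMENT** ([F] (3.4)-(3.12), [S]L5.1, L5.2, (10); the exterior may carry a hard pin).  ONE inequality on a finite graph.
`k` translated nests of depth `J+1` in `D`, pairwise separated, separated from the walls and from the pin.
`full = D`, `ext = D \ nests`, `joined = D \ inner disks` (exterior + last annuli), `𝔮 = Φ_joined / (Φ_ext ∏ Φ_last)`, `D̄` = flat pin interaction (outer end, guard) in the last annulus.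
PROOF: `e_τ := Z_full^τ / (∏ Z_nest^τ · Z_ext^τ · d) = ∑_u ∏_i μ̃_i^τ(u_i) T^τ(u)/d`; `T^τ ≤ d` (`lsys_ratio_mono`); `μ̃ ≤ 2 μ` (`LastGuard`);
`∑_u ∏ μ_i^τ(u_i) T^τ(u)/d = (∑_u ∏ μ_i^0 T^0/d) 𝔮`; `∑_u ∏ μ_i^0 T^0/d ≥ e^{-k D̄}`; `Φ_full / (∏ Φ_nest Φ_ext) = e_τ / e_0`. -/
def Attach : Prop := ∀ (b : ℝ), 0 < b → ∀ (𝔫 : NP) (J : ℕ), 4 ≤ 𝔫.p → 4 ≤ 𝔫.M → 1 ≤ 𝔫.s0 → ∀ (k : ℕ) (x : Fin k → ℤ × ℤ)
    (D : Finset (ℤ × ℤ)) (Pn : Set (ℤ × ℤ)) (τ : Bond → ℤ) (T : Fin k → Bond → ℤ),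
    (∀ i, shift (x i) (sq (𝔫.rad (J + 1) + 1)) ⊆ D) →
    (∀ i j, i ≠ j → Disjoint (shift (x i) (sq (𝔫.rad (J + 1) + 1))) (shift (x j) (sq (𝔫.rad (J + 1) + 1)))) →
    (∀ i, ∀ z ∈ shift (x i) (sq (𝔫.rad (J + 1) + 1)), z ∉ Pn) →
    (∀ i, Sector (𝔫.rad (J + 1)) (T i)) → (∀ i, Loc τ (x i) (𝔫.disc (J + 1)) (T i)) →
    LastGuard b 𝔫 J →
    ∀ Db qq ρ : ℝ, Db = dFlat b (𝔫.ann J) (𝔫.endOut J) (𝔫.guard J) →
    qq = Phi b (D \ uni x (𝔫.disc J)) Pn τ / (Phi b (D \ uni x (𝔫.disc (J + 1))) Pn τ * ∏ i, Phi b (𝔫.ann J) ∅ (T i)) →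
    ρ = Phi b D Pn τ / (Phi b (D \ uni x (𝔫.disc (J + 1))) Pn τ * ∏ i, Phi b (𝔫.disc (J + 1)) ∅ (T i)) →
    1 - 2 ^ k * (1 - Real.exp (-(k : ℝ) * Db) * qq) ≤ ρ ∧ ρ * (1 - 2 ^ k * (1 - Real.exp (-(k : ℝ) * Db))) ≤ 1

/-- [S]T3.1 on the polygonal annulus `λ ϱ P \ ϱ P`, `λ = 4^p`, unit period.   = `S46.ann_sector1` (bridge: `F3/Bridge46.lean`). -/
def SectorAnn : Prop := ∀ M p : ℕ, 4 ≤ M → 1 ≤ p →
    Tendsto (fun s : ℕ => secDef (stair M (4 ^ p * s) \ stair M s) ∅ (rayR (M * (4 ^ p * s)))) atTop (𝓝 0)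

/-- [S]T3.1 on the centre exterior; the moving hole is an admissible grid.
GEOMETRY LEAF: `CGeom (2M+2) (2M+2)`, grid lines `-n, k s (|k| ≤ M), n`; sides between `s` and `n ≤ (M / c₁) s`. -/
def SectorCenter : Prop := ∀ M : ℕ, 4 ≤ M → ∀ c₁ c₂ : ℝ, 0 < c₁ → c₂ < 1 / 2 →
    UnifSmall M c₁ c₂ fun n s => secDef (extC M n s) ∅ (segConn (0, 0) n)

/-- [S]T3.1 on the free pair exterior.  GEOMETRY LEAF: grid lines `± 8qr, k s, r + k s`; one `Ray` between the holes. -/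
def SectorPair : Prop := ∀ M q : ℕ, 4 ≤ M → 1 ≤ q → ∀ c₁ c₂ : ℝ, 0 < c₁ → c₂ < 1 / 4 →
    UnifSmall M c₁ c₂ fun r s => secDef (extP M q r s) ∅ (segConn (0, 0) r)

/-- **[F]L3.2** on the pair exterior with the rim pinned (only this direction is used).  GEOMETRY LEAF: instance of `S23.sector_lower`; grid lines `± 8qr, ± 6qr, k s, r + k s`; pinned cells: all cells outside `sq (6qr)`. -/
def SectorPairPin : Prop := ∀ M q : ℕ, 4 ≤ M → 1 ≤ q → ∀ c₁ c₂ : ℝ, 0 < c₁ → c₂ < 1 / 4 →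
    UnifLe M c₁ c₂ fun r s => secDef (extP M q r s) (rim q r) (segConn (0, 0) r)

/-- [S]P4.1 (flat pins), both ends.  = `S46.flat_interaction` (bridge: `F3/Bridge46.lean`). -/
def FlatPin : Prop := ∀ M : ℕ, 4 ≤ M → ∀ δ : ℝ, 0 < δ → ∃ p₀ : ℕ, ∀ p ≥ p₀, ∀ᶠ s : ℕ in atTop,
    dFlat xyCritical (NP.ann ⟨M, p, s⟩ 0) (NP.endOut ⟨M, p, s⟩ 0) (NP.guard ⟨M, p, s⟩ 0) ≤ δ ∧
    dFlat xyCritical (NP.ann ⟨M, p, s⟩ 0) (NP.endIn ⟨M, p, s⟩ 0) (NP.guard ⟨M, p, s⟩ 0) ≤ δ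

/-- [S]P5.3 (11) + L5.4 + C5.5.  = `S46.average_loss` + `S46.last_guard` (bridge: `F3/Bridge46.lean`). -/
def LastGuardStmt : Prop := ∃ M₀ : ℕ, ∀ M ≥ M₀, ∃ p₀ : ℕ, ∀ p ≥ p₀, ∃ s₁ : ℕ, ∀ s0 ≥ s₁, ∃ J₀ : ℕ, ∀ J ≥ J₀,
    LastGuard xyCritical ⟨M, p, s0⟩ J

/-- POT: [F] (3.30): the annular energy is `2π log λ + O(1/M)`, uniformly in the ratio `λ = 4^p`.   = `S46.ann_energy` (bridge: `F3/Bridge46.lean`). -/
def PotAnn : Prop := ∃ C : ℝ, ∀ M p : ℕ, 4 ≤ M → 1 ≤ p → ∀ᶠ s : ℕ in atTop,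
    |En (stair M (4 ^ p * s) \ stair M s) ∅ (rayR (M * (4 ^ p * s))) - 2 * Real.pi * Real.log ((4 ^ p : ℕ) : ℝ)| ≤ C / M

/-- POT: [F] (3.25), (3.34): the centre exterior.  `κ = 4π² R_D(0,0)`.   MODULUS form (helper115): no rate is needed.
HARD route: killed Green function `G_n(·,0)` of the primal box: `R_eff ≥ min_hole G_n` (truncation), `R_eff ≤` energy of `-∇G_n` outside the hole; `G_n(x,0) = (2π)⁻¹ log (n/|x|) + κ/4π² + O(|x|/n) + o(1)`.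
SOFT route (helper115): `k(ϱ,n) := En - 2π log (n/ϱ)` is bounded (discs inside / outside the square + `PotAnn`), monotone in the hole up to `C/M` (series law + `PotAnn`), scale invariant up to `o(1)` (`pot_scale`). -/
def PotCenter : Prop := ∃ κ : ℝ, ∀ δ : ℝ, 0 < δ → ∃ (c₂ : ℝ) (M₀ : ℕ), 0 < c₂ ∧ c₂ < 1 / 2 ∧ ∀ M ≥ M₀, ∀ c₁ : ℝ, 0 < c₁ →
    ∀ᶠ n : ℕ in atTop, ∀ s : ℕ, c₁ * n ≤ (M * s : ℕ) → ((M * s : ℕ) : ℝ) ≤ c₂ * n →
    |En (extC M n s) ∅ (segConn (0, 0) n) - 2 * Real.pi * Real.log ((n : ℝ) / (M * s : ℕ)) - κ| ≤ δ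

/-- POT: [F] (3.29), (3.33), (3.35): the pair exterior, free walls (two-sided) and pinned rim (upper bound, by a trial field vanishing near the rim).
`U = a(· - r e₁) - a(·)` (potential kernel), harmonic correction `O(1/q)` by the maximum principle; trial = cut-off conjugate function of `U` (or the sampled `χ (arg z - arg (z - r))`). -/
def PotPair : Prop := ∀ δ : ℝ, 0 < δ → ∃ q₀ : ℕ, ∀ q ≥ q₀, ∃ (c₂ : ℝ) (M₀ : ℕ), 0 < c₂ ∧ c₂ < 1 / 4 ∧ ∀ M ≥ M₀, ∀ c₁ : ℝ, 0 < c₁ →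
    ∀ᶠ r : ℕ in atTop, ∀ s : ℕ, c₁ * r ≤ (M * s : ℕ) → ((M * s : ℕ) : ℝ) ≤ c₂ * r →
    |En (extP M q r s) ∅ (segConn (0, 0) r) - 4 * Real.pi * Real.log ((r : ℝ) / (M * s : ℕ))| ≤ δ ∧
    En (extP M q r s) (rim q r) (segConn (0, 0) r) ≤ 4 * Real.pi * Real.log ((r : ℝ) / (M * s : ℕ)) + δ

/-- **the analytic content of [F]P3.1**: one microscopic sequence `𝒩 J` (log of the nest ratio) represents the centre magnetisation and the bulk correlation at all radii `ϱ_J ∈ [c₁ n, c₂ n]`.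
`κ = 4π² R_D(0,0) / (2a)`. -/
def NestStmt : Prop := ∃ κ : ℝ, ∀ δ > 0, ∀ K : ℝ, 1 ≤ K → ∃ (lam : ℕ) (ϱ : ℕ → ℕ) (𝒩 : ℕ → ℝ) (c₁ c₂ : ℝ),
    2 ≤ lam ∧ 0 < ϱ 0 ∧ (∀ J, ϱ (J + 1) = lam * ϱ J) ∧ 0 < c₁ ∧ K * lam * c₁ ≤ c₂ ∧
    ∀ᶠ n : ℕ in atTop, ∀ J : ℕ, c₁ * n ≤ ϱ J → (ϱ J : ℝ) ≤ c₂ * n →
      |Real.log (centerMag xyCritical n) - 𝒩 J + Real.log ((n : ℝ) / ϱ J) / 8 + κ| ≤ δ ∧
      |Real.log (xyCorr xyCritical n) - 2 * 𝒩 J + Real.log ((n : ℝ) / ϱ J) / 4| ≤ δ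

/-- everything the glue `NestStmt` consumes -/
structure Inputs : Prop where
  bridge : CenterBridge
  pos : PhiPos
  bracket : Bracket
  refl : PhiRefl
  shift : PhiShift
  congr : PhiCongr
  mono : PhiMono
  dnn : DFlatNonneg
  attach : Attach
  secAnn : SectorAnn
  secCen : SectorCenter
  secPair : SectorPair
  secPin : SectorPairPin
  flatPin : FlatPin
  lastGuard : LastGuardStmt
  potAnn : PotAnn
  potCen : PotCenter
  potPair : PotPair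

end

end Claimed.Agent.R285.F23
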